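import Mathlib.GroupTheory.Commutator.Basic
import Mathlib.GroupTheory.QuotientGroup.Basic
import Mathlib.Tactic.Group

/-!
# Lower central series of a normal subgroup, inside the ambient group
-/

namespace Agent.P188.H428

open scoped commutatorElement

variable {G : Type*} [Group G]

/-- Lower central series of `N` as subgroups of `G`; `lcs N 0 = N`. -/
def lcs (N : Subgroup G) : ℕ → Subgroup G
  | 0 => N
  | i + 1 => ⁅lcs N i, N⁆

instance lcs_normal (N : Subgroup G) [N.Normal] (i : ℕ) : (lcs N i).Normal := by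
  induction i with
  | zero => exact ‹N.Normal›
  | succ i ih => exact Subgroup.commutator_normal _ _

lemma lcs_succ_le (N : Subgroup G) [N.Normal] (i : ℕ) : lcs N (i + 1) ≤ lcs N i :=
  Subgroup.commutator_le_left _ _

lemma lcs_le (N : Subgroup G) [N.Normal] (i : ℕ) : lcs N i ≤ N := by
  induction i with
  | zero => exact le_refl _
  | succ i ih => exact (lcs_succ_le N i).trans ih

/-- Three subgroups lemma, relative to a normal subgroup. -/
lemma commutator_commutator_le_of_rotate (A B C M : Subgroup G) [M.Normal]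
    (h1 : ⁅⁅B, C⁆, A⁆ ≤ M) (h2 : ⁅⁅C, A⁆, B⁆ ≤ M) : ⁅⁅A, B⁆, C⁆ ≤ M := by
  set π := QuotientGroup.mk' M
  have key : ∀ H : Subgroup G, H ≤ M ↔ H.map π = ⊥ := by
    intro H
    rw [Subgroup.map_eq_bot_iff, QuotientGroup.ker_mk']
  rw [key] at h1 h2 ⊢
  rw [Subgroup.map_commutator, Subgroup.map_commutator] at h1 h2 ⊢
  exact Subgroup.commutator_commutator_eq_bot_of_rotate h1 h2

lemma commutator_lcs_le (N : Subgroup G) [N.Normal] (i j : ℕ) :
    ⁅lcs N i, lcs N j⁆ ≤ lcs N (i + j + 1) := by
  induction j generalizing i with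
  | zero => exact le_refl _
  | succ j ih =>
    rw [Subgroup.commutator_comm]
    change ⁅⁅lcs N j, N⁆, lcs N i⁆ ≤ _
    refine commutator_commutator_le_of_rotate _ _ _ _ ?_ ?_
    · rw [Subgroup.commutator_comm N]
      have h := ih (i + 1)
      have e : i + 1 + j + 1 = i + (j + 1) + 1 := by omega
      rw [e] at h
      exact h
    · have h := Subgroup.commutator_mono (ih i) (le_refl N)
      exact h

lemma comm_of_commutator_mem {M : Subgroup G} [M.Normal] {a b : G} (h : ⁅a, b⁆ ∈ M) :
    (QuotientGroup.mk' M) a * (QuotientGroup.mk' M) b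
      = (QuotientGroup.mk' M) b * (QuotientGroup.mk' M) a := by
  have h1 : (QuotientGroup.mk' M) ⁅a, b⁆ = 1 := by
    rw [← MonoidHom.mem_ker, QuotientGroup.ker_mk']; exact h
  rw [map_commutatorElement, commutatorElement_eq_one_iff_mul_comm] at h1
  exact h1

/-- Commutators only depend on the classes one step down. -/
lemma commutator_congr (N : Subgroup G) [N.Normal] (i : ℕ) (y y' d d' : G)
    (hy : y ∈ lcs N i) (hy' : y' ∈ N) (hd : y⁻¹ * d ∈ lcs N (i + 1))
    (hd' : y'⁻¹ * d' ∈ lcs N 1) :
    (QuotientGroup.mk' (lcs N (i + 2))) ⁅d, d'⁆ = (QuotientGroup.mk' (lcs N (i + 2))) ⁅y, y'⁆ := by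
  set π := QuotientGroup.mk' (lcs N (i + 2)) with hπ
  set k := y⁻¹ * d with hk
  set k' := y'⁻¹ * d' with hk'
  have ed : d = y * k := by rw [hk]; group
  have ed' : d' = y' * k' := by rw [hk']; group
  have hk'N : k' ∈ N := lcs_le N 1 hd'
  have c1 : π k * π y' = π y' * π k := comm_of_commutator_mem
    (Subgroup.commutator_mem_commutator hd hy')
  have c2 : π k * π k' = π k' * π k := comm_of_commutator_mem
    (Subgroup.commutator_mem_commutator hd hk'N)
  have c3 : π y * π k' = π k' * π y := by
    apply comm_of_commutator_mem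
    have := commutator_lcs_le N i 1 (Subgroup.commutator_mem_commutator hy hd')
    exact this
  rw [ed, ed', map_commutatorElement, map_commutatorElement, map_mul, map_mul,
    commutatorElement_def, commutatorElement_def]
  have c4 : π k * (π y' * π k') = π y' * π k' * π k := by
    rw [← mul_assoc, c1, mul_assoc, c2, ← mul_assoc]
  calc π y * π k * (π y' * π k') * (π y * π k)⁻¹ * (π y' * π k')⁻¹
      = π y * (π k * (π y' * π k')) * (π k)⁻¹ * (π y)⁻¹ * (π k')⁻¹ * (π y')⁻¹ := by group
    _ = π y * π y' * (π k' * (π y)⁻¹) * (π k')⁻¹ * (π y')⁻¹ := by rw [c4]; group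
    _ = π y * π y' * (π y)⁻¹ * (π y')⁻¹ := by
        have : π k' * (π y)⁻¹ = (π y)⁻¹ * π k' := by
          rw [eq_inv_mul_iff_mul_eq, ← mul_assoc, c3, mul_inv_cancel_right]
        rw [this]; group

end Agent.P188.H428
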