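import Vale.Agent.P188.H428.StepE
import Vale.Agent.P188.H428.Lcs

/-!
# Concentration: every right translation moves `W` little at most points
-/

set_option linter.unusedSectionVars false

namespace Agent.P188.H428

open Finset
open scoped commutatorElement

variable {G : Type*} [Group G] [DecidableEq G]
variable {E : Type*} [NormedAddCommGroup E]

/-- Bounded generation by commutators with length control. -/
def Gen (l : G → ℕ) (N : Subgroup G) (p Cg : ℕ) : Prop :=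
  ∀ i R : ℕ, 1 ≤ R → ∀ x ∈ lcs N (i + 1), l x ≤ R → ∃ ps : List (G × G), ps.length ≤ p ∧
    (∀ q ∈ ps, q.1 ∈ lcs N i ∧ q.2 ∈ N ∧ l q.1 ≤ Cg * R ∧ l q.2 ≤ Cg * R) ∧
    x⁻¹ * (ps.map fun q => ⁅q.1, q.2⁆).prod ∈ lcs N (i + 2)

/-- Elements of length `≤ J * R` are products of `J` elements of length `≤ R`. -/
def Cut (l : G → ℕ) : Prop :=
  ∀ R J : ℕ, 1 ≤ R → ∀ x, l x ≤ J * R → ∃ g : Fin J → G, (∀ i, l (g i) ≤ R) ∧ xp J g = x

/-- length functions -/
structure IsLen (l : G → ℕ) : Prop where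
  one : l 1 = 0
  mul : ∀ x y, l (x * y) ≤ l x + l y
  inv : ∀ x, l x⁻¹ = l x
  cut : Cut l

/-- All the data at the base scale `R1`. -/
structure Setup (l : G → ℕ) (N : Subgroup G) (C1 M : ℕ) (W : G → E) (L : ℝ) (R1 : ℕ)
    (B Bs : Finset G) (α ε κ : ℝ) : Prop where
  hR1 : 1 ≤ R1
  hL : 0 ≤ L
  hW : ∀ z h, ‖W (z * h) - W z‖ ≤ L * l h
  box : Boxes l N C1 M R1 B Bs
  hα : 0 ≤ α
  hκ : 0 < κ
  hε0 : 0 ≤ ε
  hε : M * ε * ((1024 : ℝ) ^ (1 / κ)) ^ 2 ≤ 1
  flat : Flat l W R1 B α ε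

/-- rate of invariance needed -/
noncomputable def tht (B : Finset G) : ℝ := 1 / (16 * ((B.card : ℝ) * B.card))

/-- drift per unit of `J`. -/
noncomputable def tau (C1 R1 : ℕ) (L α κ : ℝ) : ℝ := 2 * α + L * ((2 * C1 + 1) * R1 : ℕ) * κ

lemma tht_pos {B : Finset G} (hB : B.Nonempty) : 0 < tht B := by
  have : (0 : ℝ) < B.card := by exact_mod_cast hB.card_pos
  unfold tht; positivity

lemma tht_le {B : Finset G} (hB : B.Nonempty) : tht B ≤ 1 / 16 := by
  have h1 : (1 : ℝ) ≤ B.card := by exact_mod_cast hB.card_pos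
  unfold tht
  have : (16 : ℝ) ≤ 16 * ((B.card : ℝ) * B.card) := by nlinarith
  exact one_div_le_one_div_of_le (by norm_num) this

lemma tht_mul {B : Finset G} (hB : B.Nonempty) : (B.card * B.card : ℝ) * tht B = 1 / 16 := by
  have h1 : (0 : ℝ) < B.card := by exact_mod_cast hB.card_pos
  unfold tht; field_simp

/-- invariance condition at scale `J`. -/
def FolJ (l : G → ℕ) (R1 : ℕ) (B Q : Finset G) (F J : ℕ) : Prop :=
  Fol l Q (F * (R1 * J)) (tht B ^ (F * J))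

lemma FolJ.use {l : G → ℕ} {R1 : ℕ} {B Q : Finset G} {F J : ℕ} (hB : B.Nonempty)
    (h : FolJ l R1 B Q F J) {r k : ℕ} (hr : r ≤ F * (R1 * J)) (hk : k ≤ F * J) :
    Fol l Q r (tht B ^ k) := by
  intro y hy
  refine (h y (hy.trans hr)).trans (mul_le_mul_of_nonneg_right ?_ (Nat.cast_nonneg _))
  exact pow_le_pow_of_le_one (tht_pos hB).le ((tht_le hB).trans (by norm_num)) hk

lemma FolJ.scale {l : G → ℕ} {R1 : ℕ} {B Q : Finset G} {F F' k J : ℕ} (hB : B.Nonempty)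
    (h : FolJ l R1 B Q F J) (hk : F' * k ≤ F) : FolJ l R1 B Q F' (k * J) := by
  refine h.use hB ?_ ?_
  · calc F' * (R1 * (k * J)) = (F' * k) * (R1 * J) := by ring
      _ ≤ F * (R1 * J) := Nat.mul_le_mul_right _ hk
  · calc F' * (k * J) = (F' * k) * J := by ring
      _ ≤ F * J := Nat.mul_le_mul_right _ hk

lemma pow16_le {B : Finset G} (hB : B.Nonempty) {k J : ℕ} (hk : J ≤ k) :
    tht B ^ k ≤ (1 / 16 : ℝ) ^ J := by
  calc tht B ^ k ≤ tht B ^ J :=
        pow_le_pow_of_le_one (tht_pos hB).le ((tht_le hB).trans (by norm_num)) hk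
    _ ≤ (1 / 16 : ℝ) ^ J := pow_le_pow_left₀ (tht_pos hB).le (tht_le hB) J

lemma Setup.Bne {l : G → ℕ} {N : Subgroup G} {C1 M : ℕ} {W : G → E} {L : ℝ} {R1 : ℕ}
    {B Bs : Finset G} {α ε κ : ℝ} (S : Setup l N C1 M W L R1 B Bs α ε κ) : B.Nonempty :=
  S.box.ne.mono S.box.sub

lemma Setup.tau_nonneg {l : G → ℕ} {N : Subgroup G} {C1 M : ℕ} {W : G → E} {L : ℝ} {R1 : ℕ}
    {B Bs : Finset G} {α ε κ : ℝ} (S : Setup l N C1 M W L R1 B Bs α ε κ) :
    0 ≤ tau C1 R1 L α κ := by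
  have h1 := S.hL
  have h2 := S.hα
  have h3 := S.hκ
  unfold tau; positivity

/-- Goodness at scale `J` with constants `a b r`. -/
def GdJ (l : G → ℕ) (W : G → E) (Q : Finset G) (R1 : ℕ) (t0 : ℝ) (a b r J : ℕ) (x : G) : Prop :=
  Gd l W Q (a * (t0 * J)) (b * (1 / 16) ^ J) (r * (R1 * J)) x

/-- Level zero: every `x`, modulo `⁅N, N⁆`. -/
lemma level_zero (l : G → ℕ) (hl : IsLen l) (N : Subgroup G) [N.Normal] (C1 M : ℕ)
    (W : G → E) (L : ℝ) (R1 : ℕ) (B Bs : Finset G) (α ε κ : ℝ)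
    (S : Setup l N C1 M W L R1 B Bs α ε κ) (J : ℕ) (hJ : 1 ≤ J) (Q : Finset G)
    (hQ0 : Q.Nonempty) (hQ : FolJ l R1 B Q (2 * (2 * C1 + 1)) J) (x : G)
    (hx : l x ≤ R1 * J) :
    ∃ d, x⁻¹ * d ∈ lcs N 1 ∧ GdJ l W Q R1 (tau C1 R1 L α κ) 3 6 (3 * (2 * C1 + 1)) J d := by
  have hB := S.Bne
  obtain ⟨g, hg, rfl⟩ := hl.cut R1 J S.hR1 x (by rw [mul_comm]; exact hx)
  have hφ' := pow16_le hB (le_refl J)
  obtain ⟨d, hd1, hd2⟩ := exists_Gd_mod l hl.one hl.mul hl.inv N W L S.hL S.hW C1 M R1 B Bs S.box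
    α ε κ S.hα S.hκ S.hε0 S.hε S.flat J hJ g hg Q hQ0 (tht B ^ J)
    (pow_nonneg (tht_pos hB).le _) (hQ.use hB (by apply le_of_eq; ring) (by nlinarith))
    (by rw [← mul_pow, tht_mul hB]; exact pow_le_one₀ (by norm_num) (by norm_num)) hφ'
  refine ⟨d, hd1, ?_⟩
  unfold GdJ
  refine hd2.mono ?_ ?_ ?_
  · unfold tau; push_cast; apply le_of_eq; ring
  · push_cast; exact le_refl _
  · apply le_of_eq; ring

lemma Gd.comm {l : G → ℕ} (hl : IsLen l) {W : G → E} {Q : Finset G} {τ1 τ2 δ1 δ2 φ : ℝ}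
    {r1 r2 : ℕ} {x y : G} (hx : Gd l W Q τ1 δ1 r1 x) (hy : Gd l W Q τ2 δ2 r2 y)
    (hQ : Fol l Q (2 * (r1 + r2)) φ) :
    Gd l W Q (2 * (τ1 + τ2)) (2 * (δ1 + δ2) + 5 * φ) (2 * (r1 + r2)) ⁅x, y⁆ := by
  have f : ∀ r ≤ 2 * (r1 + r2), Fol l Q r φ := fun r hr z hz => hQ z (hz.trans hr)
  have h1 := hx.mul hl.mul hy (f r1 (by omega))
  have h2 := h1.mul hl.mul (hx.inv hl.inv (f r1 (by omega))) (f _ (by omega))
  have h3 := h2.mul hl.mul (hy.inv hl.inv (f r2 (by omega))) (f _ (by omega))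
  rw [commutatorElement_def]
  exact h3.mono (by linarith) (by linarith) (by omega)

lemma Gd.list_prod {l : G → ℕ} (hl : IsLen l) {W : G → E} {Q : Finset G} {τ δ φ : ℝ}
    {r : ℕ} (xs : List G) (hxs : ∀ x ∈ xs, Gd l W Q τ δ r x)
    (hQ : Fol l Q (xs.length * r) φ) (hφ : 0 ≤ φ) :
    Gd l W Q (xs.length * τ) (xs.length * (δ + φ)) (xs.length * r) xs.prod := by
  induction xs with
  | nil =>
    refine ⟨by simp [hl.one], ?_⟩
    simp [devi]
  | cons x xs ih =>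
    have h1 := hxs x List.mem_cons_self
    have hlen : (x :: xs).length = xs.length + 1 := rfl
    rw [hlen] at hQ ⊢
    have h2 := ih (fun y hy => hxs y (List.mem_cons_of_mem _ hy))
      (fun y hy => hQ y (hy.trans (by nlinarith)))
    have h3 := h1.mul hl.mul h2 (fun y hy => hQ y (hy.trans (by nlinarith)))
    rw [List.prod_cons]
    refine h3.mono ?_ ?_ ?_
    · push_cast; apply le_of_eq; ring
    · push_cast; linarith
    · apply le_of_eq; ring

/-- Level `i` constants exist. -/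
lemma level (l : G → ℕ) (hl : IsLen l) (N : Subgroup G) [N.Normal] (p Cg : ℕ) (hCg : 1 ≤ Cg)
    (hgen : Gen l N p Cg) (C1 M : ℕ) (i : ℕ) :
    ∃ a b r F : ℕ, ∀ (W : G → E) (L : ℝ) (R1 : ℕ) (B Bs : Finset G) (α ε κ : ℝ),
      Setup l N C1 M W L R1 B Bs α ε κ → ∀ J : ℕ, 1 ≤ J → ∀ Q : Finset G, Q.Nonempty →
      FolJ l R1 B Q F J → ∀ x ∈ lcs N i, l x ≤ R1 * J →
      ∃ d, x⁻¹ * d ∈ lcs N (i + 1) ∧ GdJ l W Q R1 (tau C1 R1 L α κ) a b r J d := by
  induction i with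
  | zero =>
    refine ⟨3, 6, 3 * (2 * C1 + 1), 2 * (2 * C1 + 1), ?_⟩
    intro W L R1 B Bs α ε κ S J hJ Q hQ0 hQ x _ hx
    exact level_zero l hl N C1 M W L R1 B Bs α ε κ S J hJ Q hQ0 hQ x hx
  | succ i ih =>
    obtain ⟨a, b, r, F, H⟩ := ih
    set r0 : ℕ := 3 * (2 * C1 + 1) with hr0
    set F0 : ℕ := 2 * (2 * C1 + 1) with hF0
    refine ⟨p * (2 * (a + 3)) * Cg, p * (2 * (b + 6) + 6), p * (2 * (r + r0)) * Cg,
      F * Cg + F0 * Cg + (p + 1) * (2 * (r + r0)) * Cg + 1, ?_⟩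
    intro W L R1 B Bs α ε κ S J hJ Q hQ0 hQ x hxi hx
    have hB := S.Bne
    have hR1 := S.hR1
    have hRJ : 1 ≤ R1 * J := Nat.mul_pos hR1 hJ
    have hτ := S.tau_nonneg
    set t0 := tau C1 R1 L α κ with ht0
    obtain ⟨ps, hps1, hps2, hps3⟩ := hgen i (R1 * J) hRJ x hxi hx
    set φ : ℝ := tht B ^ J with hφdef
    have hφ0 : 0 ≤ φ := pow_nonneg (tht_pos hB).le _
    have hφ16 : φ ≤ (1 / 16) ^ J := pow16_le hB (le_refl J)
    have hQF : FolJ l R1 B Q F (Cg * J) := hQ.scale hB (by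
      nlinarith [Nat.zero_le (F0 * Cg), Nat.zero_le ((p + 1) * (2 * (r + r0)) * Cg)])
    have hQF0 : FolJ l R1 B Q F0 (Cg * J) := hQ.scale hB (by
      nlinarith [Nat.zero_le (F * Cg), Nat.zero_le ((p + 1) * (2 * (r + r0)) * Cg)])
    have hrad : ∀ k : ℕ, k ≤ (p + 1) * (2 * (r + r0)) * Cg * (R1 * J) → Fol l Q k φ := by
      intro k hk
      refine hQ.use hB (hk.trans ?_) ?_
      · refine Nat.mul_le_mul_right _ ?_
        omega
      · calc J = 1 * J := (one_mul J).symm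
          _ ≤ _ := Nat.mul_le_mul_right _ (by omega)
    -- choose good representatives
    have hJ' : 1 ≤ Cg * J := Nat.mul_pos hCg hJ
    have hrep : ∀ q ∈ ps, ∃ e : G, (QuotientGroup.mk' (lcs N (i + 2))) e
        = (QuotientGroup.mk' (lcs N (i + 2))) ⁅q.1, q.2⁆ ∧
        Gd l W Q ((2 * (a + 3)) * Cg * (t0 * J)) ((2 * (b + 6) + 5) * (1 / 16) ^ J)
          ((2 * (r + r0)) * Cg * (R1 * J)) e := by
      intro q hq
      obtain ⟨hq1, hq2, hq3, hq4⟩ := hps2 q hq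
      obtain ⟨d, hd1, hd2⟩ := H W L R1 B Bs α ε κ S (Cg * J) hJ' Q hQ0 hQF q.1 hq1
        (by rw [show R1 * (Cg * J) = Cg * (R1 * J) by ring]; exact hq3)
      obtain ⟨d', hd1', hd2'⟩ := level_zero l hl N C1 M W L R1 B Bs α ε κ S (Cg * J) hJ' Q hQ0
        hQF0 q.2 (by rw [show R1 * (Cg * J) = Cg * (R1 * J) by ring]; exact hq4)
      refine ⟨⁅d, d'⁆, commutator_congr N i q.1 q.2 d d' hq1 hq2 hd1 hd1', ?_⟩
      unfold GdJ at hd2 hd2'
      have h16 : (1 / 16 : ℝ) ^ (Cg * J) ≤ (1 / 16) ^ J :=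
        pow_le_pow_of_le_one (by norm_num) (by norm_num) (by nlinarith)
      have h := hd2.comm hl hd2' (φ := φ) (hrad _ (by
        calc 2 * (r * (R1 * (Cg * J)) + 3 * (2 * C1 + 1) * (R1 * (Cg * J)))
            = 1 * ((2 * (r + r0)) * Cg * (R1 * J)) := by rw [hr0]; ring
          _ ≤ (p + 1) * ((2 * (r + r0)) * Cg * (R1 * J)) := Nat.mul_le_mul_right _ (by omega)
          _ = (p + 1) * (2 * (r + r0)) * Cg * (R1 * J) := by ring))
      refine h.mono ?_ ?_ ?_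
      · push_cast; apply le_of_eq; ring
      · push_cast
        have e1 : (b : ℝ) * (1 / 16) ^ (Cg * J) ≤ b * (1 / 16) ^ J :=
          mul_le_mul_of_nonneg_left h16 (Nat.cast_nonneg _)
        linarith
      · rw [hr0]; apply le_of_eq; ring
    choose! e he1 he2 using hrep
    set xs : List G := ps.map e with hxs
    have hxlen : xs.length = ps.length := by rw [hxs, List.length_map]
    have hprod := Gd.list_prod hl (φ := φ) xs (by
        intro y hy
        rw [hxs, List.mem_map] at hy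
        obtain ⟨q, hq, rfl⟩ := hy
        exact he2 q hq) (hrad _ (by
        rw [hxlen]
        calc ps.length * ((2 * (r + r0)) * Cg * (R1 * J))
            ≤ (p + 1) * ((2 * (r + r0)) * Cg * (R1 * J)) := Nat.mul_le_mul_right _ (by omega)
          _ = (p + 1) * (2 * (r + r0)) * Cg * (R1 * J) := by ring)) hφ0
    refine ⟨xs.prod, ?_, ?_⟩
    · have h1 : (QuotientGroup.mk' (lcs N (i + 2))) xs.prod
          = (QuotientGroup.mk' (lcs N (i + 2))) (ps.map fun q => ⁅q.1, q.2⁆).prod := by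
        rw [map_list_prod, map_list_prod, hxs, List.map_map, List.map_map]
        congr 1
        exact List.map_congr_left fun q hq => he1 q hq
      have h2 : (QuotientGroup.mk' (lcs N (i + 2))) x
          = (QuotientGroup.mk' (lcs N (i + 2))) (ps.map fun q => ⁅q.1, q.2⁆).prod := by
        change ((x : G) : G ⧸ lcs N (i + 2)) = _
        exact QuotientGroup.eq.2 hps3
      have h3 : ((x : G) : G ⧸ lcs N (i + 2)) = (xs.prod : G) := h2.trans h1.symm
      exact QuotientGroup.eq.1 h3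
    · unfold GdJ
      have hp : (ps.length : ℝ) ≤ p := by exact_mod_cast hps1
      rw [hxlen] at hprod
      refine hprod.mono ?_ ?_ ?_
      · push_cast
        have : (0 : ℝ) ≤ 2 * (a + 3) * Cg * (t0 * J) := by positivity
        calc (ps.length : ℝ) * (2 * (a + 3) * Cg * (t0 * J))
            ≤ p * (2 * (a + 3) * Cg * (t0 * J)) := mul_le_mul_of_nonneg_right hp this
          _ = _ := by ring
      · push_cast
        have h0 : (0 : ℝ) ≤ (1 / 16) ^ J := by positivity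
        calc (ps.length : ℝ) * ((2 * (b + 6) + 5) * (1 / 16) ^ J + φ)
            ≤ p * ((2 * (b + 6) + 5) * (1 / 16) ^ J + (1 / 16) ^ J) := by
              apply mul_le_mul hp _ _ (Nat.cast_nonneg _)
              · linarith
              · positivity
          _ = _ := by ring
      · calc ps.length * (2 * (r + r0) * Cg * (R1 * J))
            ≤ p * (2 * (r + r0) * Cg * (R1 * J)) := Nat.mul_le_mul_right _ hps1
          _ = _ := by ring

/-- Descent: every `x` modulo `lcs N (i+1)`. -/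
lemma descent (l : G → ℕ) (hl : IsLen l) (N : Subgroup G) [N.Normal] (p Cg : ℕ) (hCg : 1 ≤ Cg)
    (hgen : Gen l N p Cg) (C1 M : ℕ) (i : ℕ) :
    ∃ a b r F : ℕ, ∀ (W : G → E) (L : ℝ) (R1 : ℕ) (B Bs : Finset G) (α ε κ : ℝ),
      Setup l N C1 M W L R1 B Bs α ε κ → ∀ J : ℕ, 1 ≤ J → ∀ Q : Finset G, Q.Nonempty →
      FolJ l R1 B Q F J → ∀ x, l x ≤ R1 * J →
      ∃ d, x⁻¹ * d ∈ lcs N (i + 1) ∧ GdJ l W Q R1 (tau C1 R1 L α κ) a b r J d := by
  induction i with
  | zero =>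
    refine ⟨3, 6, 3 * (2 * C1 + 1), 2 * (2 * C1 + 1), ?_⟩
    intro W L R1 B Bs α ε κ S J hJ Q hQ0 hQ x hx
    exact level_zero l hl N C1 M W L R1 B Bs α ε κ S J hJ Q hQ0 hQ x hx
  | succ i ih =>
    obtain ⟨a, b, r, F, H⟩ := ih
    obtain ⟨a', b', r', F', H'⟩ := level (E := E) l hl N p Cg hCg hgen C1 M (i + 1)
    refine ⟨a + a' * (r + 1), b + b' + 1, r + r' * (r + 1), F + F' * (r + 1) + r + 1, ?_⟩
    intro W L R1 B Bs α ε κ S J hJ Q hQ0 hQ x hx
    have hB := S.Bne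
    have hτ := S.tau_nonneg
    obtain ⟨d, hd1, hd2⟩ := H W L R1 B Bs α ε κ S J hJ Q hQ0
      (by
        have := hQ.scale hB (F' := F) (k := 1) (by omega)
        rwa [one_mul] at this) x hx
    have he : d⁻¹ * x ∈ lcs N (i + 1) := by
      have := (lcs N (i + 1)).inv_mem hd1
      rwa [mul_inv_rev, inv_inv] at this
    have hle : l (d⁻¹ * x) ≤ R1 * ((r + 1) * J) := by
      calc l (d⁻¹ * x) ≤ l d⁻¹ + l x := hl.mul _ _
        _ ≤ r * (R1 * J) + R1 * J := by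
            rw [hl.inv]; exact add_le_add hd2.1 hx
        _ = R1 * ((r + 1) * J) := by ring
    obtain ⟨d', hd1', hd2'⟩ := H' W L R1 B Bs α ε κ S ((r + 1) * J)
      (Nat.mul_pos (Nat.succ_pos _) hJ) Q hQ0 (hQ.scale hB (by omega)) (d⁻¹ * x) he hle
    refine ⟨d * d', ?_, ?_⟩
    · have : x⁻¹ * (d * d') = (d⁻¹ * x)⁻¹ * d' := by group
      rw [this]; exact hd1'
    · unfold GdJ at hd2 hd2' ⊢
      have hφ : tht B ^ J ≤ (1 / 16 : ℝ) ^ J := pow16_le hB (le_refl J)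
      have h := hd2.mul hl.mul hd2' (φ := tht B ^ J) (hQ.use hB
        (Nat.mul_le_mul_right _ (by omega))
        (by
          calc J = 1 * J := (one_mul J).symm
            _ ≤ _ := Nat.mul_le_mul_right _ (by omega)))
      refine h.mono ?_ ?_ ?_
      · push_cast; apply le_of_eq; ring
      · have h16 : (1 / 16 : ℝ) ^ ((r + 1) * J) ≤ (1 / 16) ^ J :=
          pow_le_pow_of_le_one (by norm_num) (by norm_num) (by nlinarith)
        have e1 : (b' : ℝ) * (1 / 16) ^ ((r + 1) * J) ≤ b' * (1 / 16) ^ J :=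
          mul_le_mul_of_nonneg_left h16 (Nat.cast_nonneg _)
        push_cast
        linarith
      · apply le_of_eq; ring

/-- **Concentration, quantitative form.**  If `W` is Lipschitz and flat on all translates of a
box at the single scale `R1`, then on every sufficiently invariant finite set `Q` every
translation by an element of length `≤ R1 * J` moves `W` by at most `a * τ * J` outside a
proportion `b / 16 ^ J` of `Q`.  The constants `a b F` do not depend on `W`, `R1`, the boxes, `Q`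
and `J`. -/
theorem concentration (l : G → ℕ) (hl : IsLen l) (N : Subgroup G) [N.Normal] (c : ℕ)
    (hnil : lcs N c = ⊥) (p Cg : ℕ) (hCg : 1 ≤ Cg) (hgen : Gen l N p Cg) (C1 M : ℕ) :
    ∃ a b F : ℕ, ∀ (W : G → E) (L : ℝ) (R1 : ℕ) (B Bs : Finset G) (α ε κ : ℝ),
      Setup l N C1 M W L R1 B Bs α ε κ → ∀ J : ℕ, 1 ≤ J → ∀ Q : Finset G,
      Fol l Q (F * (R1 * J)) (tht B ^ (F * J)) → ∀ x, l x ≤ R1 * J →
      (devi W Q (a * (tau C1 R1 L α κ * J)) x : ℝ) ≤ b * (1 / 16) ^ J * Q.card := by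
  obtain ⟨a, b, r, F, H⟩ := descent (E := E) l hl N p Cg hCg hgen C1 M c
  refine ⟨a, b, F, ?_⟩
  intro W L R1 B Bs α ε κ S J hJ Q hQ x hx
  rcases Q.eq_empty_or_nonempty with rfl | hQ0
  · simp [devi]
  obtain ⟨d, hd1, hd2⟩ := H W L R1 B Bs α ε κ S J hJ Q hQ0 hQ x hx
  have hd : d = x := by
    have h1 : x⁻¹ * d ∈ lcs N c := lcs_succ_le N c hd1
    rw [hnil, Subgroup.mem_bot] at h1
    exact (inv_mul_eq_one.1 h1).symm
  rw [← hd]
  exact hd2.2

end Agent.P188.H428
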