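import Vale.Agent.P188.H428.PC2
import Vale.Agent.P188.H615.GeoE2

/-!
P188, route B: the field `Geo.PC` (Geo v2/v3) over the real model.
-/

open MeasureTheory Set

namespace Agent.P188.H428

open Vale.Agent.P188.Z1 Vale.Agent.P188.Z1.RModel Vale.Agent.P188.H615

variable {S : Type} [Group S] [MeasurableSpace S] {Γ : Type} [Group Γ]
  {V : Type} [AddCommGroup V] [Module ℝ V] {k : ℕ} {M : RModel S Γ V k} {J : Type}

/-- **Path containment** (the field `PC` of `H532.Geo`). -/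
theorem PC_E (Rd : RayD M J) (B : M.NatBox) : ∀ A : ℝ, ∃ K : ℝ, 0 ≤ K ∧
    ∀ (m : ℕ) (w : ℕ → S) (ρ : Option J → ℝ), (∀ j, 0 ≤ ρ j) →
    (∀ i < m, (M.l ((w i)⁻¹ * w (i + 1)) : ℝ) ≤ A) →
    (∀ i ≤ m, ∀ j : J, Rd.b j (M.θ ((w 0)⁻¹ * w i)) ≤ ρ (some j)) →
    ∃ n ∈ Rd.NE B (Vale.P188.H532.sh ρ (K * (1 + Real.log (1 + m)))), ∃ κ ∈ Set.range M.τ,
      (w 0)⁻¹ * w m = M.NR.subtype n * κ := by
  intro A
  obtain ⟨C, hC, hp⟩ := path_sec B
  obtain ⟨t0, T0, ht0, hT0, hτ⟩ := Rd.exists_τ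
  set r : ℝ := max A 1 with hr
  have hr1 : 1 ≤ r := le_max_right _ _
  have hlr : 0 ≤ Real.log (2 * r) := Real.log_nonneg (by linarith)
  set K : ℝ := (C * r + C * Real.log (2 * r) + C) / t0 with hK
  have hK0 : 0 ≤ K := by positivity
  refine ⟨K, hK0, fun m w ρ hρ hw hh => ?_⟩
  have hm : (0 : ℝ) ≤ m := Nat.cast_nonneg m
  obtain ⟨n, hn, he⟩ := hp r m w hr1 (fun i hi => (hw i hi).trans (le_max_left _ _))
    (fun a => Rd.τ a * ρ (Rd.ray a)) (fun a => mul_nonneg (Rd.τ_pos a).le (hρ _)) (by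
      intro a i hi
      rcases h : Rd.ray a with _ | j
      · rw [Rd.wt_none a h]
        exact mul_nonneg (Rd.τ_pos a).le (hρ _)
      · rw [Rd.wt_some a j h]
        exact mul_le_mul_of_nonneg_left (hh i hi j) (Rd.τ_pos a).le)
  have hlog : Real.log (1 + r * (m + 1)) ≤ Real.log (2 * r) + Real.log (1 + m) := by
    rw [← Real.log_mul (by positivity) (by positivity)]
    refine Real.log_le_log (by positivity) ?_
    nlinarith
  have hlog0 : 0 ≤ Real.log (1 + m) := Real.log_nonneg (by linarith)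
  have hnum : C * r + C * Real.log (1 + r * (m + 1)) ≤ t0 * (K * (1 + Real.log (1 + m))) := by
    have h1 : t0 * (K * (1 + Real.log (1 + m))) =
        (C * r + C * Real.log (2 * r) + C) * (1 + Real.log (1 + m)) := by
      rw [hK]
      field_simp
    rw [h1]
    have h2 := mul_le_mul_of_nonneg_left hlog (by linarith : (0 : ℝ) ≤ C)
    have h3 : 0 ≤ (C * r + C * Real.log (2 * r)) * Real.log (1 + m) := by positivity
    have h4 : (C * r + C * Real.log (2 * r) + C) * (1 + Real.log (1 + m)) =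
      C * r + C * Real.log (2 * r) + C + C * Real.log (1 + m) +
        (C * r + C * Real.log (2 * r)) * Real.log (1 + m) := by ring
    rw [h4]
    linarith
  refine ⟨⟨n, M.mem_NR.2 (B.sub _ n hn)⟩, ?_, M.sec ((w 0)⁻¹ * w m), ⟨_, rfl⟩, he⟩
  show n ∈ B.Bx (Rd.sz (Vale.P188.H532.sh ρ (K * (1 + Real.log (1 + m)))))
  refine B.mono _ _ (fun a => (Real.exp_pos _).le) (fun a => ?_) hn
  unfold RayD.sz Vale.P188.H532.sh
  refine Real.exp_le_exp.2 ?_
  rw [mul_add (Rd.τ a)]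
  have h1 : t0 * (K * (1 + Real.log (1 + m))) ≤ Rd.τ a * (K * (1 + Real.log (1 + m))) :=
    mul_le_mul_of_nonneg_right (hτ a).1 (by positivity)
  linarith

end Agent.P188.H428
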