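import Mathlib.Algebra.Order.Chebyshev
import Mathlib.Data.Real.Basic
import Mathlib.Data.Fin.Tuple.Basic
import Mathlib.Data.Fintype.Pi
import Mathlib.Algebra.Group.Basic
import Mathlib.Tactic.Ring
import Mathlib.Tactic.Group
import Mathlib.Tactic.Positivity
import Mathlib.Tactic.Linarith

/-!
# Operator bound for random chains in a group

`G` a group, `A'`, `A` finite subsets.  One block of a chain goes from `z` to
`z * n'⁻¹ * (n * g)` with `n' ∈ A'`, `n ∈ A`.  The point `Y = z * n'⁻¹` is the common corner.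
-/

set_option linter.unusedSectionVars false

namespace Agent.P188.H428

open Finset

variable {G : Type*} [Group G] [DecidableEq G]

/-- One block operator. -/
def blk (b : G → G → ℝ) (A' A : Finset G) (g : G) (u : G → ℝ) (z : G) : ℝ :=
  ∑ n' ∈ A', ∑ n ∈ A, b (z * n'⁻¹) n' * b (z * n'⁻¹) (n * g) * u (z * n'⁻¹ * (n * g))

lemma sum_shift_le (f : G → ℝ) (P Q : Finset G) (h : G) (hf : ∀ z, 0 ≤ f z)
    (hQ : ∀ Y ∈ P, Y * h ∈ Q ∨ f (Y * h) = 0) :
    ∑ Y ∈ P, f (Y * h) ≤ ∑ z ∈ Q, f z := by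
  have h1 : ∑ Y ∈ P, f (Y * h) = ∑ Y ∈ P.filter (fun Y => Y * h ∈ Q), f (Y * h) := by
    rw [Finset.sum_filter]
    refine Finset.sum_congr rfl fun Y hY => ?_
    rcases hQ Y hY with h2 | h2
    · rw [if_pos h2]
    · by_cases h3 : Y * h ∈ Q
      · rw [if_pos h3]
      · rw [if_neg h3, h2]
  rw [h1]
  have h2 : ∑ Y ∈ P.filter (fun Y => Y * h ∈ Q), f (Y * h)
      = ∑ z ∈ (P.filter (fun Y => Y * h ∈ Q)).image (fun Y => Y * h), f z := by
    rw [Finset.sum_image]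
    intro a _ b _ hab
    exact mul_right_cancel hab
  rw [h2]
  refine Finset.sum_le_sum_of_subset_of_nonneg ?_ fun z _ _ => hf z
  intro z hz
  rw [Finset.mem_image] at hz
  obtain ⟨Y, hY, rfl⟩ := hz
  exact (Finset.mem_filter.1 hY).2

/-- Two-sided bound for one block. -/
lemma blk_sq_le (b : G → G → ℝ) (A' A : Finset G) (g : G) (u : G → ℝ) (Q Q' : Finset G)
    (P' P : ℝ) (hb : ∀ Y h, 0 ≤ b Y h) (hu : ∀ z, 0 ≤ u z)
    (hP' : ∀ Y, ∑ n ∈ A', b Y n ^ 2 ≤ P') (hP : ∀ Y, ∑ n ∈ A, b Y (n * g) ^ 2 ≤ P)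
    (hQ : ∀ z ∈ Q, ∀ n' ∈ A', ∀ n ∈ A, z * n'⁻¹ * (n * g) ∈ Q') :
    ∑ z ∈ Q, blk b A' A g u z ^ 2
      ≤ (P' * A'.card) * (P * A.card) * ∑ z ∈ Q', u z ^ 2 := by
  classical
  set v : G → ℝ := fun z => if z ∈ Q then blk b A' A g u z else 0 with hv
  set X : ℝ := ∑ z ∈ Q, v z ^ 2 with hX
  have hP'0 : 0 ≤ P' := le_trans (Finset.sum_nonneg fun n _ => sq_nonneg _) (hP' 1)
  have hP0 : 0 ≤ P := le_trans (Finset.sum_nonneg fun n _ => sq_nonneg _) (hP 1)
  have hblk0 : ∀ z, 0 ≤ blk b A' A g u z := fun z =>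
    Finset.sum_nonneg fun n' _ => Finset.sum_nonneg fun n _ =>
      mul_nonneg (mul_nonneg (hb _ _) (hb _ _)) (hu _)
  have hv0 : ∀ z, 0 ≤ v z := by
    intro z
    simp only [hv]
    split_ifs
    · exact hblk0 z
    · exact le_refl _
  have hXeq : ∑ z ∈ Q, blk b A' A g u z ^ 2 = X := by
    refine Finset.sum_congr rfl fun z hz => ?_
    simp only [hv, if_pos hz]
  rw [hXeq]
  have hX0 : 0 ≤ X := Finset.sum_nonneg fun z _ => sq_nonneg _
  set P0 : Finset G := Q.biUnion fun z => A'.image fun n' => z * n'⁻¹ with hP0def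
  have hmemP0 : ∀ z ∈ Q, ∀ n' ∈ A', z * n'⁻¹ ∈ P0 := by
    intro z hz n' hn'
    rw [hP0def, Finset.mem_biUnion]
    exact ⟨z, hz, Finset.mem_image.2 ⟨n', hn', rfl⟩⟩
  have hP0Q : ∀ Y ∈ P0, ∀ n ∈ A, Y * (n * g) ∈ Q' := by
    intro Y hY n hn
    rw [hP0def, Finset.mem_biUnion] at hY
    obtain ⟨z, hz, hY⟩ := hY
    obtain ⟨n', hn', rfl⟩ := Finset.mem_image.1 hY
    exact hQ z hz n' hn' n hn
  set Fu : G → ℝ := fun Y => ∑ n ∈ A, b Y (n * g) * u (Y * (n * g)) with hFu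
  set Fv : G → ℝ := fun Y => ∑ n' ∈ A', b Y n' * v (Y * n') with hFv
  have hFu0 : ∀ Y, 0 ≤ Fu Y := fun Y => Finset.sum_nonneg fun n _ => mul_nonneg (hb _ _) (hu _)
  have key1 : X ≤ ∑ Y ∈ P0, Fv Y * Fu Y := by
    have e1 : X = ∑ n' ∈ A', ∑ z ∈ Q, b (z * n'⁻¹) n' * v (z * n'⁻¹ * n') * Fu (z * n'⁻¹) := by
      rw [Finset.sum_comm]
      refine Finset.sum_congr rfl fun z hz => ?_
      have : v z ^ 2 = v z * blk b A' A g u z := by
        rw [sq]; congr 1; simp only [hv, if_pos hz]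
      rw [this]
      unfold blk
      rw [Finset.mul_sum]
      refine Finset.sum_congr rfl fun n' _ => ?_
      rw [inv_mul_cancel_right, hFu, Finset.mul_sum, Finset.mul_sum]
      refine Finset.sum_congr rfl fun n _ => ?_
      ring
    have e2 : ∑ Y ∈ P0, Fv Y * Fu Y = ∑ n' ∈ A', ∑ Y ∈ P0, b Y n' * v (Y * n') * Fu Y := by
      rw [Finset.sum_comm]
      refine Finset.sum_congr rfl fun Y _ => ?_
      rw [hFv, Finset.sum_mul]
    rw [e1, e2]
    refine Finset.sum_le_sum fun n' hn' => ?_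
    refine sum_shift_le (fun Y => b Y n' * v (Y * n') * Fu Y) Q P0 n'⁻¹
      (fun Y => mul_nonneg (mul_nonneg (hb _ _) (hv0 _)) (hFu0 _)) ?_
    intro z hz
    exact Or.inl (hmemP0 z hz n' hn')
  have key2 : ∑ Y ∈ P0, Fv Y ^ 2 ≤ P' * A'.card * X := by
    calc ∑ Y ∈ P0, Fv Y ^ 2 ≤ ∑ Y ∈ P0, P' * ∑ n' ∈ A', v (Y * n') ^ 2 := by
          refine Finset.sum_le_sum fun Y _ => ?_
          refine le_trans (Finset.sum_mul_sq_le_sq_mul_sq A' (fun n' => b Y n')
            (fun n' => v (Y * n'))) ?_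
          exact mul_le_mul_of_nonneg_right (hP' Y) (Finset.sum_nonneg fun n _ => sq_nonneg _)
      _ = P' * ∑ n' ∈ A', ∑ Y ∈ P0, v (Y * n') ^ 2 := by
          rw [← Finset.mul_sum, Finset.sum_comm]
      _ ≤ P' * ∑ n' ∈ A', X := by
          refine mul_le_mul_of_nonneg_left (Finset.sum_le_sum fun n' _ => ?_) hP'0
          refine sum_shift_le (fun z => v z ^ 2) P0 Q n' (fun z => sq_nonneg _) ?_
          intro Y _
          by_cases h : Y * n' ∈ Q
          · exact Or.inl h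
          · right
            simp only [hv, if_neg h]
            norm_num
      _ = P' * A'.card * X := by
          rw [Finset.sum_const, nsmul_eq_mul]; ring
  have key3 : ∑ Y ∈ P0, Fu Y ^ 2 ≤ P * A.card * ∑ z ∈ Q', u z ^ 2 := by
    calc ∑ Y ∈ P0, Fu Y ^ 2 ≤ ∑ Y ∈ P0, P * ∑ n ∈ A, u (Y * (n * g)) ^ 2 := by
          refine Finset.sum_le_sum fun Y _ => ?_
          refine le_trans (Finset.sum_mul_sq_le_sq_mul_sq A (fun n => b Y (n * g))
            (fun n => u (Y * (n * g)))) ?_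
          exact mul_le_mul_of_nonneg_right (hP Y) (Finset.sum_nonneg fun n _ => sq_nonneg _)
      _ = P * ∑ n ∈ A, ∑ Y ∈ P0, u (Y * (n * g)) ^ 2 := by
          rw [← Finset.mul_sum, Finset.sum_comm]
      _ ≤ P * ∑ n ∈ A, ∑ z ∈ Q', u z ^ 2 := by
          refine mul_le_mul_of_nonneg_left (Finset.sum_le_sum fun n hn => ?_) hP0
          refine sum_shift_le (fun z => u z ^ 2) P0 Q' (n * g) (fun z => sq_nonneg _) ?_
          intro Y hY
          exact Or.inl (hP0Q Y hY n hn)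
      _ = P * A.card * ∑ z ∈ Q', u z ^ 2 := by
          rw [Finset.sum_const, nsmul_eq_mul]; ring
  set U : ℝ := ∑ z ∈ Q', u z ^ 2 with hU
  have hU0 : 0 ≤ U := Finset.sum_nonneg fun z _ => sq_nonneg _
  have hsum0 : 0 ≤ ∑ Y ∈ P0, Fv Y * Fu Y := le_trans hX0 key1
  have key4 : X ^ 2 ≤ (P' * A'.card * X) * (P * A.card * U) := by
    calc X ^ 2 ≤ (∑ Y ∈ P0, Fv Y * Fu Y) ^ 2 := pow_le_pow_left₀ hX0 key1 2
      _ ≤ (∑ Y ∈ P0, Fv Y ^ 2) * (∑ Y ∈ P0, Fu Y ^ 2) :=
          Finset.sum_mul_sq_le_sq_mul_sq P0 Fv Fu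
      _ ≤ (P' * A'.card * X) * (P * A.card * U) := by
          apply mul_le_mul key2 key3 (Finset.sum_nonneg fun n _ => sq_nonneg _)
          positivity
  rcases hX0.eq_or_lt with h0 | h0
  · calc X = 0 := h0.symm
      _ ≤ (P' * A'.card) * (P * A.card) * U :=
          mul_nonneg (mul_nonneg (mul_nonneg hP'0 (Nat.cast_nonneg _))
            (mul_nonneg hP0 (Nat.cast_nonneg _))) hU0
  · have h5 : X * X ≤ X * ((P' * A'.card) * (P * A.card) * U) := by
      calc X * X = X ^ 2 := (sq X).symm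
        _ ≤ (P' * A'.card * X) * (P * A.card * U) := key4
        _ = X * ((P' * A'.card) * (P * A.card) * U) := by ring
    exact le_of_mul_le_mul_left h5 h0

/-- Displacement of a chain. -/
def out : (J : ℕ) → (Fin J → G) → (Fin J → G × G) → G
  | 0, _, _ => 1
  | J + 1, g, ω => (ω 0).1⁻¹ * ((ω 0).2 * g 0) * out J (Fin.tail g) (Fin.tail ω)

/-- Product of the values of `b` along a chain. -/
def wt (b : G → G → ℝ) : (J : ℕ) → (Fin J → G) → (Fin J → G × G) → G → ℝ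
  | 0, _, _, _ => 1
  | J + 1, g, ω, z => b (z * (ω 0).1⁻¹) (ω 0).1 * b (z * (ω 0).1⁻¹) ((ω 0).2 * g 0) *
      wt b J (Fin.tail g) (Fin.tail ω) (z * (ω 0).1⁻¹ * ((ω 0).2 * g 0))

/-- The noise space. -/
def noise (A' A : Finset G) (J : ℕ) : Finset (Fin J → G × G) :=
  Fintype.piFinset fun _ => A' ×ˢ A

lemma mem_noise {A' A : Finset G} {J : ℕ} {ω : Fin J → G × G} :
    ω ∈ noise A' A J ↔ ∀ i, (ω i).1 ∈ A' ∧ (ω i).2 ∈ A := by
  unfold noise
  rw [Fintype.mem_piFinset]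
  simp only [Finset.mem_product]

lemma card_noise (A' A : Finset G) (J : ℕ) :
    (noise A' A J).card = (A'.card * A.card) ^ J := by
  unfold noise
  rw [Fintype.card_piFinset]
  simp [Finset.card_product]

lemma sum_noise_succ (A' A : Finset G) (J : ℕ) (f : (Fin (J + 1) → G × G) → ℝ) :
    ∑ ω ∈ noise A' A (J + 1), f ω
      = ∑ n' ∈ A', ∑ n ∈ A, ∑ ω ∈ noise A' A J, f (Fin.cons (n', n) ω) := by
  rw [← Finset.sum_product' A' A (fun n' n => ∑ ω ∈ noise A' A J, f (Fin.cons (n', n) ω)),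
    ← Finset.sum_product' (A' ×ˢ A) (noise A' A J) (fun p ω => f (Fin.cons (p.1, p.2) ω))]
  refine Finset.sum_nbij' (fun ω => (ω 0, Fin.tail ω)) (fun q => Fin.cons q.1 q.2) ?_ ?_ ?_ ?_ ?_
  · intro ω hω
    rw [mem_noise] at hω
    rw [Finset.mem_product, Finset.mem_product, mem_noise]
    exact ⟨hω 0, fun i => hω i.succ⟩
  · rintro ⟨p, ω⟩ h
    rw [Finset.mem_product, Finset.mem_product, mem_noise] at h
    rw [mem_noise]
    intro i
    refine Fin.cases ?_ (fun j => ?_) i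
    · simpa using h.1
    · simpa using h.2 j
  · intro ω _
    exact Fin.cons_self_tail ω
  · rintro ⟨p, ω⟩ _
    simp
  · intro ω _
    simp only [Prod.mk.eta, Fin.cons_self_tail]

lemma sum_wt_succ (b : G → G → ℝ) (A' A : Finset G) (J : ℕ) (g : Fin (J + 1) → G) (z : G) :
    ∑ ω ∈ noise A' A (J + 1), wt b (J + 1) g ω z
      = blk b A' A (g 0) (fun y => ∑ ω ∈ noise A' A J, wt b J (Fin.tail g) ω y) z := by
  rw [sum_noise_succ]
  unfold blk
  refine Finset.sum_congr rfl fun n' _ => Finset.sum_congr rfl fun n _ => ?_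
  rw [Finset.mul_sum]
  refine Finset.sum_congr rfl fun ω _ => ?_
  simp only [wt, Fin.cons_zero, Fin.tail_cons]

lemma wt_nonneg (b : G → G → ℝ) (hb : ∀ Y h, 0 ≤ b Y h) (J : ℕ) (g : Fin J → G)
    (ω : Fin J → G × G) (z : G) : 0 ≤ wt b J g ω z := by
  induction J generalizing z with
  | zero => simp [wt]
  | succ J ih =>
    simp only [wt]
    exact mul_nonneg (mul_nonneg (hb _ _) (hb _ _)) (ih _ _ _)

lemma sum_wt_sq_le (b : G → G → ℝ) (A' A : Finset G) (P' P : ℝ) (hb : ∀ Y h, 0 ≤ b Y h)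
    (J : ℕ) (g : Fin J → G)
    (hP' : ∀ Y, ∑ n ∈ A', b Y n ^ 2 ≤ P') (hP : ∀ i Y, ∑ n ∈ A, b Y (n * g i) ^ 2 ≤ P)
    (Q Q' : Finset G) (hQ : ∀ z ∈ Q, ∀ ω ∈ noise A' A J, z * out J g ω ∈ Q') :
    ∑ z ∈ Q, (∑ ω ∈ noise A' A J, wt b J g ω z) ^ 2
      ≤ ((P' * A'.card) * (P * A.card)) ^ J * Q'.card := by
  induction J generalizing Q with
  | zero =>
    have hcard : (Q.card : ℝ) ≤ Q'.card := by
      have : Q ⊆ Q' := by
        intro z hz
        have := hQ z hz (fun i => i.elim0) (by rw [mem_noise]; intro i; exact i.elim0)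
        simpa [out] using this
      exact_mod_cast Finset.card_le_card this
    have : ∀ z, ∑ ω ∈ noise A' A 0, wt b 0 g ω z = 1 := by
      intro z
      simp only [wt]
      rw [Finset.sum_const, card_noise]
      simp
    simp only [this]
    simpa using hcard
  | succ J ih =>
    have hP'0 : 0 ≤ P' := le_trans (Finset.sum_nonneg fun n _ => sq_nonneg _) (hP' 1)
    have hP0 : 0 ≤ P := le_trans (Finset.sum_nonneg fun n _ => sq_nonneg _) (hP 0 1)
    set Q1 : Finset G := Q.biUnion fun z => A'.biUnion fun n' => A.image fun n =>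
      z * n'⁻¹ * (n * g 0) with hQ1
    have hQ1mem : ∀ z ∈ Q, ∀ n' ∈ A', ∀ n ∈ A, z * n'⁻¹ * (n * g 0) ∈ Q1 := by
      intro z hz n' hn' n hn
      rw [hQ1]
      simp only [Finset.mem_biUnion, Finset.mem_image]
      exact ⟨z, hz, n', hn', n, hn, rfl⟩
    have h1 := ih (Fin.tail g) (fun i Y => hP i.succ Y) Q1 (by
      intro y hy ω hω
      rw [hQ1] at hy
      simp only [Finset.mem_biUnion, Finset.mem_image] at hy
      obtain ⟨z, hz, n', hn', n, hn, rfl⟩ := hy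
      have := hQ z hz (Fin.cons (n', n) ω) (by
        rw [mem_noise] at hω ⊢
        intro i
        refine Fin.cases ?_ (fun j => ?_) i
        · exact ⟨hn', hn⟩
        · simpa using hω j)
      simp only [out, Fin.cons_zero, Fin.tail_cons] at this
      convert this using 1
      group)
    have h2 := blk_sq_le b A' A (g 0) (fun y => ∑ ω ∈ noise A' A J, wt b J (Fin.tail g) ω y)
      Q Q1 P' P hb (fun z => Finset.sum_nonneg fun ω _ => wt_nonneg b hb _ _ _ _) hP'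
      (fun Y => hP 0 Y) hQ1mem
    have h3 : ∑ z ∈ Q, (∑ ω ∈ noise A' A (J + 1), wt b (J + 1) g ω z) ^ 2
        = ∑ z ∈ Q, blk b A' A (g 0)
          (fun y => ∑ ω ∈ noise A' A J, wt b J (Fin.tail g) ω y) z ^ 2 :=
      Finset.sum_congr rfl fun z _ => by rw [sum_wt_succ]
    rw [h3]
    refine le_trans h2 ?_
    rw [pow_succ]
    calc P' * ↑A'.card * (P * ↑A.card) *
          ∑ z ∈ Q1, (∑ ω ∈ noise A' A J, wt b J (Fin.tail g) ω z) ^ 2
        ≤ P' * ↑A'.card * (P * ↑A.card) *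
          ((P' * ↑A'.card * (P * ↑A.card)) ^ J * ↑Q'.card) := by
          apply mul_le_mul_of_nonneg_left h1
          positivity
      _ = (P' * ↑A'.card * (P * ↑A.card)) ^ J * (P' * ↑A'.card * (P * ↑A.card)) *
          ↑Q'.card := by ring

end Agent.P188.H428
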