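import Vale.Agent.P188.H428.BPath2
import Vale.Agent.P188.H789.Abs2
import Vale.Agent.P188.Mean

/-! P188, route B: the additive function obtained by averaging, and (E2'). -/

universe u v w

open Pointwise

namespace Agent.P188.H428

open Vale.Agent.P188 Vale.Agent.P188.H789

section addv

variable {H : Type u} [Group H] {k : ℕ}

/-- The additive function: if the differences `ψ (h x) - ψ h` do not depend on `h` up to a
sublinear error, then `ψ` is an additive function up to a sublinear error. -/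
theorem exists_addv (hH : HasMean H) {S : Set H} (hS : Subgroup.closure S = ⊤)
    (ψ : H → Fin k → ℝ)
    (hES : ∀ ε : ℝ, 0 < ε → ∃ C : ℝ, ∀ n : ℕ, ∀ x ∈ Bl S n, ∀ (h : H) (i : Fin k),
      |ψ (h * x) i - ψ h i - (ψ x i - ψ 1 i)| ≤ ε * n + C) :
    ∃ b : H → Fin k → ℝ, Addv b ∧ ∀ ε : ℝ, 0 < ε → ∃ C : ℝ, ∀ n : ℕ, ∀ x ∈ Bl S n, ∀ i,
      |b x i - ψ x i| ≤ ε * n + C := by
  obtain ⟨μ, hμ, hinv⟩ := hH
  have hbd : ∀ (x : H) (i : Fin k), Bdd (fun h => ψ (h * x) i - ψ h i) := by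
    intro x i
    obtain ⟨C, hC⟩ := hES 1 one_pos
    obtain ⟨n, hn⟩ := exists_mem_Bl (A := S) (x := x) (by rw [hS]; trivial)
    refine ⟨|ψ x i - ψ 1 i| + (1 * n + C), fun h => ?_⟩
    have h1 := hC n x hn h i
    have e : ψ (h * x) i - ψ h i = (ψ x i - ψ 1 i) + (ψ (h * x) i - ψ h i - (ψ x i - ψ 1 i)) := by
      ring
    show |ψ (h * x) i - ψ h i| ≤ _
    rw [e]
    exact (abs_add_le _ _).trans (add_le_add le_rfl h1)
  refine ⟨fun x i => μ fun h => ψ (h * x) i - ψ h i, ⟨fun x y => ?_⟩, fun ε hε => ?_⟩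
  · funext i
    have h1 : (fun h => ψ (h * (x * y)) i - ψ h i) =
        (fun h => ψ (h * x * y) i - ψ (h * x) i) + fun h => ψ (h * x) i - ψ h i := by
      funext h
      simp only [Pi.add_apply, mul_assoc]
      ring
    have h2 : Bdd (fun h => ψ (h * x * y) i - ψ (h * x) i) := (hbd y i).comp fun h => h * x
    show μ (fun h => ψ (h * (x * y)) i - ψ h i) = (μ fun h => ψ (h * x) i - ψ h i) +
      μ fun h => ψ (h * y) i - ψ h i
    rw [h1, hμ.add _ _ h2 (hbd x i), hinv x (fun h => ψ (h * y) i - ψ h i) (hbd y i), add_comm]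
  · obtain ⟨C, hC⟩ := hES ε hε
    refine ⟨C + ∑ j, |ψ 1 j|, fun n x hx i => ?_⟩
    have h1 : (fun h => ψ (h * x) i - ψ h i) =
        (fun h => ψ (h * x) i - ψ h i - (ψ x i - ψ 1 i)) + fun _ => ψ x i - ψ 1 i := by
      funext h
      simp
    have h2 : Bdd (fun h => ψ (h * x) i - ψ h i - (ψ x i - ψ 1 i)) := ⟨_, fun h => hC n x hx h i⟩
    have h3 : |μ (fun h => ψ (h * x) i - ψ h i - (ψ x i - ψ 1 i))| ≤ ε * n + C :=
      hμ.abs_le fun h => hC n x hx h i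
    simp only
    rw [h1, hμ.add _ _ h2 (Bdd.const _), hμ.const]
    have e : (μ fun h => ψ (h * x) i - ψ h i - (ψ x i - ψ 1 i)) + (ψ x i - ψ 1 i) - ψ x i =
        (μ fun h => ψ (h * x) i - ψ h i - (ψ x i - ψ 1 i)) - ψ 1 i := by ring
    rw [e]
    have h4 : |ψ 1 i| ≤ ∑ j, |ψ 1 j| :=
      Finset.single_le_sum (f := fun j => |ψ 1 j|) (fun _ _ => abs_nonneg _) (Finset.mem_univ i)
    refine (abs_sub _ _).trans ?_
    linarith

end addv

section pull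

variable {H : Type u} {G : Type v} [Group H] [Group G] {k : ℕ}

/-- coarse maps are Lipschitz -/
theorem coarse_Bl {F : H → G} (hF : Coarse F) {S : Set H} (hS : S.Finite) {B : Set G}
    (hB : Subgroup.closure B = ⊤) :
    ∃ c : ℕ, ∀ (n : ℕ) (x y : H), x⁻¹ * y ∈ Bl S n → (F x)⁻¹ * F y ∈ Bl B (c * n) := by
  classical
  obtain ⟨B', hB', h1⟩ := hF (Bl S 1) (Bl_finite hS 1)
  obtain ⟨c, hc⟩ := exists_Bl_of_finite (A := B) hB' (fun x _ => by rw [hB]; trivial)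
  refine ⟨c, fun n x y hxy => ?_⟩
  obtain ⟨l, hl1, hl2, hl3⟩ := hxy
  have key : ∀ l : List H, (∀ a ∈ l, a ∈ S ∨ a⁻¹ ∈ S) → ∀ x : H,
      (F x)⁻¹ * F (x * l.prod) ∈ Bl B (c * l.length) := by
    intro l
    induction l with
    | nil => intro _ x; simpa using one_mem_Bl B 0
    | cons a l ih =>
      intro hl x
      have h2 := ih (fun b hb => hl b (List.mem_cons_of_mem _ hb)) (x * a)
      have h3 : (F x)⁻¹ * F (x * a) ∈ Bl B c := hc (h1 _ _ (by
        rw [inv_mul_cancel_left]; exact mem_Bl_one' (hl a List.mem_cons_self)))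
      have h4 := mul_mem_Bl h3 h2
      rw [List.prod_cons, List.length_cons, ← mul_assoc]
      have e : (F x)⁻¹ * F (x * a) * ((F (x * a))⁻¹ * F (x * a * l.prod)) =
        (F x)⁻¹ * F (x * a * l.prod) := by group
      rw [e] at h4
      refine Bl_mono (le_of_eq ?_) h4
      ring
  have h2 := key l hl2 x
  rw [hl3, mul_inv_cancel_left] at h2
  exact Bl_mono (Nat.mul_le_mul_left _ hl1) h2

/-- real coordinates -/
theorem abs_toAdd_le {η : G →* Multiplicative (Fin k → ℤ)} {g : G} {R : ℕ} (h : g ∈ Slab η R)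
    (i : Fin k) : |((Multiplicative.toAdd (η g) i : ℤ) : ℝ)| ≤ R := by
  have h3 := h i
  unfold cz at h3
  rw [dif_pos i.2] at h3
  simp only [Fin.eta] at h3
  rw [← Int.cast_abs, Int.abs_eq_natAbs]
  exact_mod_cast h3

theorem mem_Slab_of_abs {η : G →* Multiplicative (Fin k → ℤ)} {g : G} {R : ℕ}
    (h : ∀ i : Fin k, |((Multiplicative.toAdd (η g) i : ℤ) : ℝ)| ≤ R) : g ∈ Slab η R := by
  intro i
  by_cases hi : i < k
  · unfold cz
    rw [dif_pos hi]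
    have := h ⟨i, hi⟩
    rw [← Int.cast_abs, Int.abs_eq_natAbs] at this
    exact_mod_cast this
  · unfold cz
    rw [dif_neg hi]
    simp

theorem toAdd_mul' (η : G →* Multiplicative (Fin k → ℤ)) (g h : G) (i : Fin k) :
    ((Multiplicative.toAdd (η (g * h)) i : ℤ) : ℝ) =
      ((Multiplicative.toAdd (η g) i : ℤ) : ℝ) + ((Multiplicative.toAdd (η h) i : ℤ) : ℝ) := by
  rw [map_mul, toAdd_mul, Pi.add_apply]
  push_cast
  rfl

/-- **(E2')**: if the height of `F` is additive up to a sublinear error then the slabs of `H` are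
connected up to a sublinear error. -/
theorem subConn_of_near {η : G →* Multiplicative (Fin k → ℤ)} (hη : Function.Surjective η)
    {A : Set G} (hA : A.Finite) (hcl : Subgroup.closure A = η.ker)
    {B : Set G} (hBf : B.Finite) (hB : Subgroup.closure B = ⊤)
    {S : Set H} (hSf : S.Finite) (hS : Subgroup.closure S = ⊤)
    {F : H → G} {F' : G → H} (hF : Coarse F) (hF' : Coarse F') (hc : CloseId (F' ∘ F))
    (hc' : CloseId (F ∘ F')) {b : H → Fin k → ℝ} (hadd : Addv b)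
    (hnear : ∀ ε : ℝ, 0 < ε → ∃ C : ℝ, ∀ n : ℕ, ∀ x ∈ Bl S n, ∀ i,
      |b x i - ((Multiplicative.toAdd (η (F x)) i : ℤ) : ℝ)| ≤ ε * n + C) :
    SubConn b S := by
  classical
  obtain ⟨C₀, hC₀⟩ := slab_path η hη hA hcl hBf hB
  obtain ⟨c₁, hc₁⟩ := coarse_Bl hF hSf hB
  obtain ⟨c₂, hc₂⟩ := coarse_Bl hF' hBf hS
  obtain ⟨E, hE, hEc⟩ := hc
  obtain ⟨E', hE', hEc'⟩ := hc'
  obtain ⟨e, he⟩ := exists_Bl_of_finite (A := S) hE (fun x _ => by rw [hS]; trivial)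
  obtain ⟨ρ', hρ'⟩ := exists_slab_finite η hE'
  obtain ⟨ρ₁, hρ₁⟩ := exists_slab η (F 1)
  obtain ⟨ρ₂, hρ₂⟩ := exists_SH_finite (Bl_finite hSf (c₂ + 2 * e)) b
  intro q hq
  have hq' : (0 : ℝ) < q := Nat.cast_pos.mpr hq
  obtain ⟨C₁, hC₁⟩ := hnear (1 / (2 * q * (C₀ + 1))) (by positivity)
  obtain ⟨C₂, hC₂⟩ := hnear (1 / (2 * q * (c₂ * C₀ * c₁ + 1))) (by positivity)
  -- the final constant
  set K : ℝ := (e + c₂ * C₀) + |C₂| + ρ₁ + C₀ * (ρ₁ + (2 + |C₁|) + 1) + ρ' + ρ₂ + 2 with hK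
  obtain ⟨M, hM⟩ := exists_nat_ge (K + 1)
  refine ⟨M, fun n x hx hxb => ?_⟩
  set Pf := SH b (((n / q + M : ℕ) : ℝ)) with hPf
  have hnq : (n : ℝ) / q ≤ ((n / q : ℕ) : ℝ) + 1 := by
    rw [div_le_iff₀ hq']
    have h1 : n < q * (n / q + 1) := Nat.lt_mul_div_succ n hq
    have h2 : (n : ℝ) < q * (((n / q : ℕ) : ℝ) + 1) := by exact_mod_cast h1
    linarith
  have hfin : ∀ r : ℝ, r ≤ (n : ℝ) / q + K → SH b r ⊆ Pf := by
    intro r hr
    refine SH_mono ?_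
    push_cast
    linarith
  -- the height of `F x`
  obtain ⟨R₀, hR₀, hR₀'⟩ : ∃ R₀ : ℕ, 1 + 1 / (2 * q * (C₀ + 1)) * n + |C₁| ≤ (R₀ : ℝ) ∧
      (R₀ : ℝ) ≤ 1 / (2 * q * (C₀ + 1)) * n + (2 + |C₁|) := by
    refine ⟨⌈1 + 1 / (2 * q * (C₀ + 1)) * n + |C₁|⌉₊, Nat.le_ceil _, ?_⟩
    have := Nat.ceil_lt_add_one (a := 1 + 1 / (2 * q * (C₀ + 1)) * (n : ℝ) + |C₁|) (by positivity)
    linarith
  have hFx : F x ∈ Slab η R₀ := by
    refine mem_Slab_of_abs fun i => ?_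
    have h1 := hC₁ n x hx i
    have h2 := hxb i
    have e1 : ((Multiplicative.toAdd (η (F x)) i : ℤ) : ℝ) =
      b x i - (b x i - ((Multiplicative.toAdd (η (F x)) i : ℤ) : ℝ)) := by ring
    rw [e1]
    refine (abs_sub _ _).trans ?_
    have h3 := le_abs_self C₁
    linarith
  have hgR : (F 1)⁻¹ * F x ∈ Slab η (ρ₁ + R₀) := mul_mem_Slab (inv_mem_Slab hρ₁) hFx
  have hgB : (F 1)⁻¹ * F x ∈ Bl B (c₁ * n) := hc₁ n 1 x (by simpa using hx)
  have h1 := hC₀ _ _ _ hgB hgR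
  -- points of the pulled back path
  have hpt : ∀ p ∈ Slab η (C₀ * (ρ₁ + R₀ + 1)) ∩ Bl B (C₀ * (c₁ * n + 1)), ∀ w ∈ Bl S c₂,
      F' (F 1 * p) * w ∈ Pf := by
    rintro p ⟨hp1, hp2⟩ w hw
    set y := F' (F 1 * p) with hy
    have h2 : (F' (F 1))⁻¹ * y ∈ Bl S (c₂ * (C₀ * (c₁ * n + 1))) :=
      hc₂ _ _ _ (by rw [inv_mul_cancel_left]; exact hp2)
    have h3 : F' (F 1) ∈ Bl S e := by simpa using he (hEc 1)
    have h4 : y ∈ Bl S (e + c₂ * (C₀ * (c₁ * n + 1))) := by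
      have := mul_mem_Bl h3 h2
      rwa [mul_inv_cancel_left] at this
    have h5 := hC₂ _ y h4
    have h6 : F y ∈ Slab η (ρ₁ + C₀ * (ρ₁ + R₀ + 1) + ρ') := by
      have h7 := hρ' (hEc' (F 1 * p))
      have h8 := mul_mem_Slab (mul_mem_Slab hρ₁ hp1) h7
      simp only [Function.comp_apply] at h8
      rwa [mul_inv_cancel_left] at h8
    have h7 : w ∈ SH b ρ₂ := hρ₂ (Bl_mono (by omega) hw)
    have h8 : y * w ∈ SH b ((1 / (2 * q * (c₂ * C₀ * c₁ + 1)) *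
        ((e + c₂ * (C₀ * (c₁ * n + 1)) : ℕ) : ℝ) + C₂) +
        ((ρ₁ + C₀ * (ρ₁ + R₀ + 1) + ρ' : ℕ) : ℝ) + ρ₂) := by
      intro i
      rw [hadd.mul]
      refine (abs_add_le _ _).trans (add_le_add ?_ (h7 i))
      have e1 : b y i = (b y i - ((Multiplicative.toAdd (η (F y)) i : ℤ) : ℝ)) +
        ((Multiplicative.toAdd (η (F y)) i : ℤ) : ℝ) := by ring
      rw [e1]
      exact (abs_add_le _ _).trans (add_le_add (h5 i) (abs_toAdd_le h6 i))
    refine hfin _ ?_ h8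
    push_cast
    have i1 : 1 / (2 * q * (c₂ * C₀ * c₁ + 1)) * ((e : ℝ) + c₂ * (C₀ * (c₁ * n + 1))) ≤
        (n : ℝ) / q / 2 + (e + c₂ * C₀) := by
      have j1 : 1 / (2 * q * ((c₂ : ℝ) * C₀ * c₁ + 1)) ≤ 1 := by
        rw [div_le_one (by positivity)]
        have : (1 : ℝ) ≤ q := by exact_mod_cast hq
        nlinarith [(by positivity : (0 : ℝ) ≤ (c₂ : ℝ) * C₀ * c₁)]
      have j2 : 1 / (2 * q * ((c₂ : ℝ) * C₀ * c₁ + 1)) * (c₂ * C₀ * c₁ * n) ≤ (n : ℝ) / q / 2 := by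
        have : (n : ℝ) / q / 2 = 1 / (2 * q * ((c₂ : ℝ) * C₀ * c₁ + 1)) *
            ((c₂ * C₀ * c₁ + 1) * n) := by
          field_simp
        rw [this]
        refine mul_le_mul_of_nonneg_left ?_ (by positivity)
        nlinarith [(Nat.cast_nonneg n : (0 : ℝ) ≤ n)]
      have e1 : (e : ℝ) + c₂ * (C₀ * (c₁ * n + 1)) = (e + c₂ * C₀) + c₂ * C₀ * c₁ * n := by ring
      rw [e1, mul_add]
      have j3 : 1 / (2 * q * ((c₂ : ℝ) * C₀ * c₁ + 1)) * ((e : ℝ) + c₂ * C₀) ≤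
          1 * (e + c₂ * C₀) := mul_le_mul_of_nonneg_right j1 (by positivity)
      linarith
    have i2 : (C₀ : ℝ) * (ρ₁ + R₀ + 1) ≤ (n : ℝ) / q / 2 + C₀ * (ρ₁ + (2 + |C₁|) + 1) := by
      have j1 : (C₀ : ℝ) * (1 / (2 * q * (C₀ + 1)) * n) ≤ (n : ℝ) / q / 2 := by
        have : (n : ℝ) / q / 2 = (C₀ + 1) * (1 / (2 * q * ((C₀ : ℝ) + 1)) * n) := by
          field_simp
        rw [this]
        refine mul_le_mul_of_nonneg_right ?_ (by positivity)
        linarith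
      have j2 : (C₀ : ℝ) * R₀ ≤ C₀ * (1 / (2 * q * (C₀ + 1)) * n + (2 + |C₁|)) :=
        mul_le_mul_of_nonneg_left hR₀' (by positivity)
      nlinarith
    have i3 := le_abs_self C₂
    rw [hK]
    linarith
  -- pull back
  have h2 := h1.map (P' := Pf) (B' := S ∪ S⁻¹ ∪ {1}) (fun p => F' (F 1 * p)) (by
    intro z hz w hw hzw
    have h3 : (F' (F 1 * z))⁻¹ * F' (F 1 * w) ∈ Bl S (c₂ * 1) := by
      refine hc₂ 1 _ _ ?_
      have e1 : (F 1 * z)⁻¹ * (F 1 * w) = z⁻¹ * w := by group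
      rw [e1]
      rcases hzw with (h | h) | h
      · exact mem_Bl_one h
      · exact mem_Bl_one' (Or.inr h)
      · rw [Set.mem_singleton_iff] at h
        rw [h]
        exact one_mem_Bl _ _
    rw [mul_one] at h3
    have h4 := Conn.of_Bl (B := S ∪ S⁻¹ ∪ {1}) (x := F' (F 1 * z)) (P := Pf) h3 (by
      intro a ha
      left
      rcases ha with ha | ha
      · exact Or.inl ha
      · exact Or.inr ha) (hpt z hz)
    rwa [mul_inv_cancel_left] at h4) (by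
    have := hpt 1 h1.mem_left 1 (one_mem_Bl _ _)
    rwa [mul_one] at this)
  rw [mul_one, mul_inv_cancel_left] at h2
  have hsteps : ∀ a, a ∈ S ∨ a⁻¹ ∈ S → a ∈ S ∪ S⁻¹ ∪ {1} := by
    intro a ha
    left
    rcases ha with ha | ha
    · exact Or.inl ha
    · exact Or.inr ha
  have hK0 : (ρ₂ : ℝ) + 1 ≤ K := by
    rw [hK]
    have := abs_nonneg C₂
    have := abs_nonneg C₁
    have : (0 : ℝ) ≤ C₀ * (ρ₁ + (2 + |C₁|) + 1) := by positivity
    have : (0 : ℝ) ≤ (e : ℝ) + c₂ * C₀ := by positivity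
    linarith [(Nat.cast_nonneg ρ₁ : (0 : ℝ) ≤ ρ₁), (Nat.cast_nonneg ρ' : (0 : ℝ) ≤ ρ')]
  have hnq0 : 0 ≤ (n : ℝ) / q := by positivity
  -- the beginning
  have h3 : Conn Pf (S ∪ S⁻¹ ∪ {1}) 1 (F' (F 1)) := by
    have h4 : F' (F 1) ∈ Bl S e := by simpa using he (hEc 1)
    have h5 := Conn.of_Bl (B := S ∪ S⁻¹ ∪ {1}) (x := 1) (P := Pf) h4 hsteps (by
      intro w hw
      rw [one_mul]
      exact hfin ρ₂ (by linarith) (hρ₂ (Bl_mono (by omega) hw)))
    rwa [one_mul] at h5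
  -- the end
  have h6 : Conn Pf (S ∪ S⁻¹ ∪ {1}) (F' (F x)) x := by
    have h7 : (F' (F x))⁻¹ * x ∈ Bl S e := by
      have := inv_mem_Bl (he (hEc x))
      simpa using this
    have h8 := Conn.of_Bl (B := S ∪ S⁻¹ ∪ {1}) (x := F' (F x)) (P := Pf) h7 hsteps (by
      intro w hw
      have h9 : x⁻¹ * F' (F x) * w ∈ Bl S (2 * e) := by
        have := mul_mem_Bl (he (hEc x)) hw
        simp only [Function.comp_apply] at this
        exact Bl_mono (by omega) this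
      have h10 := hadd.mul_mem hxb (hρ₂ (Bl_mono (by omega) h9))
      have e1 : x * (x⁻¹ * F' (F x) * w) = F' (F x) * w := by group
      rw [e1] at h10
      exact hfin _ (by linarith) h10)
    rwa [mul_inv_cancel_left] at h8
  obtain ⟨m, hm⟩ := (h3.trans h2).trans h6
  exact ⟨m, hm⟩

end pull

end Agent.P188.H428
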