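import Vale.Agent.P188.H789.SlabG2

/-! P188, route B: slab paths inside balls of linear radius (model group). -/

universe u v w

open Pointwise

namespace Agent.P188.H428

open Vale.Agent.P188 Vale.Agent.P188.H789

section conn

variable {X : Type u} [Group X]

/-- connected by a path inside `P` with steps in `B` -/
def Conn (P B : Set X) (x y : X) : Prop := ∃ m, PathTo P B m x y

theorem Conn.refl {P B : Set X} {x : X} (hx : x ∈ P) : Conn P B x x := ⟨0, PathTo.refl hx⟩

theorem Conn.trans {P B : Set X} {x y z : X} (h : Conn P B x y) (h' : Conn P B y z) :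
    Conn P B x z := by
  obtain ⟨m, h⟩ := h
  obtain ⟨n, h'⟩ := h'
  exact ⟨m + n, h.trans h'⟩

theorem Conn.mono {P P' B B' : Set X} {x y : X} (h : Conn P B x y) (hP : P ⊆ P') (hB : B ⊆ B') :
    Conn P' B' x y := by
  obtain ⟨m, h⟩ := h
  exact ⟨m, h.mono hP hB⟩

theorem Conn.step {P B : Set X} {x y : X} (hx : x ∈ P) (hy : y ∈ P) (h : x⁻¹ * y ∈ B) :
    Conn P B x y := ⟨1, PathTo.step hx hy h⟩

theorem Conn.left {P P' B : Set X} {x y : X} (h : Conn P B x y) (g : X)
    (hg : ∀ z ∈ P, g * z ∈ P') : Conn P' B (g * x) (g * y) := by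
  obtain ⟨m, h⟩ := h
  exact ⟨m, h.left g hg⟩

theorem Conn.mem_left {P B : Set X} {x y : X} (h : Conn P B x y) : x ∈ P := by
  obtain ⟨m, p, h0, h1, h2, h3⟩ := h
  exact h0 ▸ h2 0 (Nat.zero_le _)

theorem Conn.mem_right {P B : Set X} {x y : X} (h : Conn P B x y) : y ∈ P := by
  obtain ⟨m, p, h0, h1, h2, h3⟩ := h
  exact h1 ▸ h2 m le_rfl

/-- transport of a path by a map, refining the steps -/
theorem Conn.map {Y : Type v} [Group Y] {P B : Set X} {P' B' : Set Y} {x y : X}
    (h : Conn P B x y) (f : X → Y)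
    (hf : ∀ z ∈ P, ∀ w ∈ P, z⁻¹ * w ∈ B → Conn P' B' (f z) (f w))
    (hx : f x ∈ P') : Conn P' B' (f x) (f y) := by
  obtain ⟨m, p, h0, h1, h2, h3⟩ := h
  have key : ∀ i ≤ m, Conn P' B' (f x) (f (p i)) := by
    intro i
    induction i with
    | zero => intro _; rw [h0]; exact Conn.refl hx
    | succ i ih =>
      intro hi
      exact (ih (by omega)).trans (hf _ (h2 i (by omega)) _ (h2 (i + 1) hi) (h3 i (by omega)))
  rw [← h1]
  exact key m le_rfl

theorem Conn.of_list {P B : Set X} (l : List X) (x : X) (hB : ∀ a ∈ l, a ∈ B)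
    (hP : ∀ j ≤ l.length, x * (l.take j).prod ∈ P) : Conn P B x (x * l.prod) :=
  ⟨_, PathTo.of_list l x hB hP⟩

/-- a word of length `n` stays at distance `n` from its start -/
theorem Conn.of_Bl {P B A : Set X} {x : X} {n : ℕ} {u : X} (hu : u ∈ Bl A n)
    (hB : ∀ a, a ∈ A ∨ a⁻¹ ∈ A → a ∈ B) (hP : ∀ w ∈ Bl A n, x * w ∈ P) : Conn P B x (x * u) := by
  obtain ⟨l, h1, h2, rfl⟩ := hu
  refine Conn.of_list l x (fun a ha => hB a (h2 a ha)) fun j _ => hP _ ⟨l.take j, ?_, ?_, rfl⟩
  · rw [List.length_take]; omega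
  · exact fun a ha => h2 a (List.mem_of_mem_take ha)

end conn

/-- expansion of balls -/
theorem Bl_Bl {X : Type u} [Group X] {A B : Set X} {c : ℕ} (h : A ⊆ Bl B c) {n : ℕ} {x : X}
    (hx : x ∈ Bl A n) : x ∈ Bl B (c * n) := by
  obtain ⟨l, h1, h2, rfl⟩ := hx
  have key : ∀ l : List X, (∀ a ∈ l, a ∈ A ∨ a⁻¹ ∈ A) → l.prod ∈ Bl B (c * l.length) := by
    intro l
    induction l with
    | nil => intro _; exact one_mem_Bl _ _
    | cons a l ih =>
      intro hl
      have h3 : a ∈ Bl B c := by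
        rcases hl a List.mem_cons_self with h' | h'
        · exact h h'
        · simpa using inv_mem_Bl (h h')
      have h4 := mul_mem_Bl h3 (ih fun b hb => hl b (List.mem_cons_of_mem _ hb))
      rw [List.prod_cons, List.length_cons]
      refine Bl_mono (le_of_eq ?_) h4
      ring
  exact Bl_mono (Nat.mul_le_mul_left _ h1) (key l h2)

section perm

variable {G : Type v} [Group G] {k : ℕ} {η : G →* Multiplicative (Fin k → ℤ)}
  {A T : Set G} {c : ℕ}

/-- **Sorting words.** `T` is a set of letters, conjugation by letters distorts `A` by `c`,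
commutators of letters are words of length `c` in `A`. -/
theorem perm_conn (hAT : ∀ n, Bl A n ⊆ Bl T (c * n))
    (hconj : ∀ a ∈ T, ∀ s ∈ Bl A 1, a * s * a⁻¹ ∈ Bl A c)
    (hcomm : ∀ a ∈ T, ∀ b ∈ T, b * a * b⁻¹ * a⁻¹ ∈ Bl A c)
    {L L' : List G} (h : L.Perm L') : (∀ a ∈ L, a ∈ T) → ∀ (v : G) (r : ℕ), v ∈ Bl T r →
      Conn (Bl T (r + (c * c + 2) * (L.length + 1))) (Bl A 1) (v * L.prod⁻¹) (v * L'.prod⁻¹) := by
  induction h with
  | nil =>
    intro _ v r hv
    refine Conn.refl ?_
    simpa using Bl_mono (by omega) hv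
  | @cons a l l' hl ih =>
    intro hT v r hv
    have h1 := ih (fun b hb => hT b (List.mem_cons_of_mem _ hb)) v r hv
    have haT : a ∈ T := hT a List.mem_cons_self
    have hmem : ∀ z ∈ Bl T (r + (c * c + 2) * (l.length + 1)), ∀ w ∈ Bl A c,
        z * a⁻¹ * w ∈ Bl T (r + (c * c + 2) * ((a :: l).length + 1)) := by
      intro z hz w hw
      have h2 := mul_mem_Bl (mul_mem_Bl hz (inv_mem_Bl (mem_Bl_one haT))) (hAT c hw)
      refine Bl_mono ?_ h2
      rw [List.length_cons]
      nlinarith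
    have h2 := h1.map (fun z => z * a⁻¹)
      (P' := Bl T (r + (c * c + 2) * ((a :: l).length + 1))) (B' := Bl A 1) (by
        intro z hz w hw hzw
        have h3 := hconj a haT _ hzw
        have h4 := Conn.of_Bl (B := Bl A 1) (x := z * a⁻¹) h3 (fun _ h => mem_Bl_one' h)
          (hmem z hz)
        have e : z * a⁻¹ * (a * (z⁻¹ * w) * a⁻¹) = w * a⁻¹ := by group
        rwa [e] at h4) (by
        have := hmem _ h1.mem_left 1 (one_mem_Bl _ _)
        rwa [mul_one] at this)
    simpa [List.prod_cons, mul_inv_rev, mul_assoc] using h2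
  | swap a b l =>
    intro hT v r hv
    have hbT : b ∈ T := hT b List.mem_cons_self
    have haT : a ∈ T := hT a (List.mem_cons_of_mem _ List.mem_cons_self)
    have hl : l.prod ∈ Bl T l.length := ⟨l, le_rfl, fun x hx => Or.inl
      (hT x (List.mem_cons_of_mem _ (List.mem_cons_of_mem _ hx))), rfl⟩
    have h1 := hcomm a haT b hbT
    have h2 := Conn.of_Bl (B := Bl A 1) (x := v * (b :: a :: l).prod⁻¹)
      (P := Bl T (r + (c * c + 2) * ((b :: a :: l).length + 1))) h1 (fun _ h => mem_Bl_one' h) (by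
        intro w hw
        have h3 : (b :: a :: l).prod⁻¹ ∈ Bl T (l.length + 1 + 1) := by
          refine inv_mem_Bl ?_
          rw [List.prod_cons, List.prod_cons, ← mul_assoc]
          have := mul_mem_Bl (mul_mem_Bl (mem_Bl_one hbT) (mem_Bl_one haT)) hl
          exact Bl_mono (by omega) this
        have h4 := mul_mem_Bl (mul_mem_Bl hv h3) (hAT c hw)
        refine Bl_mono ?_ h4
        rw [List.length_cons, List.length_cons]
        nlinarith)
    have e : v * (b :: a :: l).prod⁻¹ * (b * a * b⁻¹ * a⁻¹) = v * (a :: b :: l).prod⁻¹ := by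
      rw [List.prod_cons, List.prod_cons, List.prod_cons, List.prod_cons]; group
    rwa [e] at h2
  | @trans l₁ l₂ l₃ h₁ h₂ ih₁ ih₂ =>
    intro hT v r hv
    have h3 := ih₁ hT v r hv
    have h4 := ih₂ (fun a ha => hT a (h₁.mem_iff.mpr ha)) v r hv
    rw [← h₁.length_eq] at h4
    exact h3.trans h4

end perm

end Agent.P188.H428
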