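import Vale.Agent.P188.H428.BPath

/-! P188, route B: slab paths inside balls of linear radius (model group), part 2. -/

universe u v w

open Pointwise

namespace Agent.P188.H428

open Vale.Agent.P188 Vale.Agent.P188.H789

section sort

variable {G : Type v} [Group G] {k : ℕ} {η : G →* Multiplicative (Fin k → ℤ)}
  {A : Set G} {t : ℕ → G}

theorem cz_Bl (hA : A ⊆ η.ker) {n : ℕ} {x : G} (hx : x ∈ Bl A n) (i : ℕ) : cz η x i = 0 := by
  have h1 := Bl_subset_closure A n hx
  have h2 : x ∈ η.ker := (Subgroup.closure_le _).mpr hA h1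
  exact (mem_ker_iff_cz η x).mp h2 i

/-- a letter with nonzero height in direction `j` is `t j` or its inverse -/
theorem St_cz (hA : A ⊆ η.ker) (ht : ∀ i j, j < k → cz η (t j) i = if i = j then 1 else 0)
    {a : G} (ha : a ∈ St A t k) (j : ℕ) :
    cz η a j = 0 ∨ ∃ δ : ℤ, (δ = 1 ∨ δ = -1) ∧ a = t j ^ δ ∧ cz η a j = δ := by
  rcases ha with ha | ⟨j', δ, hj', hδ, rfl⟩
  · exact Or.inl (cz_Bl hA ha j)
  · by_cases h : j = j'
    · subst h
      right
      refine ⟨δ, hδ, rfl, ?_⟩
      rw [cz_zpow, ht j j hj']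
      simp
    · left
      rw [cz_zpow, ht j j' hj', if_neg h, mul_zero]

theorem cz_prod (L : List G) (j : ℕ) : cz η L.prod j = (L.map fun a => cz η a j).sum := by
  induction L with
  | nil => simp [cz_one]
  | cons a L ih => rw [List.prod_cons, cz_mul, ih, List.map_cons, List.sum_cons]

/-- a word of height zero can be sorted to a word in the kernel letters -/
theorem exists_sorted (hA : A ⊆ η.ker)
    (ht : ∀ i j, j < k → cz η (t j) i = if i = j then 1 else 0) (n : ℕ) :
    ∀ L : List G, L.length ≤ n → (∀ a ∈ L, a ∈ St A t k) → (∀ i, cz η L.prod i = 0) →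
      ∃ L' : List G, L.Perm L' ∧ L'.prod ∈ Bl A L.length := by
  classical
  induction n with
  | zero =>
    intro L hL _ _
    have : L = [] := List.length_eq_zero_iff.mp (by omega)
    subst this
    exact ⟨[], List.Perm.refl _, one_mem_Bl _ _⟩
  | succ n ih =>
    intro L hL hT h0
    by_cases hall : ∀ a ∈ L, a ∈ Bl A 1
    · refine ⟨L, List.Perm.refl _, ?_⟩
      have key : ∀ l : List G, (∀ a ∈ l, a ∈ Bl A 1) → l.prod ∈ Bl A l.length := by
        intro l
        induction l with
        | nil => intro _; exact one_mem_Bl _ _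
        | cons a l ih =>
          intro hl
          have := mul_mem_Bl (hl a List.mem_cons_self) (ih fun b hb => hl b
            (List.mem_cons_of_mem _ hb))
          rw [List.prod_cons, List.length_cons]
          exact Bl_mono (by omega) this
      exact key L hall
    · push Not at hall
      obtain ⟨a, haL, ha⟩ := hall
      obtain ⟨j, δ, hj, hδ, haj⟩ : ∃ j δ, j < k ∧ (δ = 1 ∨ δ = -1) ∧ a = t j ^ (δ : ℤ) := by
        rcases hT a haL with h | h
        · exact absurd h ha
        · exact h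
      have hca : cz η a j = δ := by
        rw [haj, cz_zpow, ht j j hj]; simp
      -- the inverse letter occurs
      have hinv : ∃ b ∈ L, b = t j ^ (-δ) := by
        by_contra hcon
        push Not at hcon
        have h1 : ∀ b ∈ L, cz η b j = 0 ∨ cz η b j = δ := by
          intro b hb
          rcases St_cz hA ht (hT b hb) j with h | ⟨δ', hδ', hb', hc⟩
          · exact Or.inl h
          · right
            rw [hc]
            by_contra hne
            have : δ' = -δ := by omega
            exact hcon b hb (this ▸ hb')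
        have h2 : ∀ l : List G, (∀ b ∈ l, cz η b j = 0 ∨ cz η b j = δ) →
            0 ≤ δ * (l.map fun a => cz η a j).sum ∧
            (a ∈ l → 0 < δ * (l.map fun a => cz η a j).sum) := by
          intro l
          induction l with
          | nil => intro _; simp
          | cons b l ih =>
            intro hl
            obtain ⟨i1, i2⟩ := ih fun b hb => hl b (List.mem_cons_of_mem _ hb)
            rw [List.map_cons, List.sum_cons, mul_add]
            have h3 : 0 ≤ δ * cz η b j := by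
              rcases hl b List.mem_cons_self with h | h
              · rw [h]; simp
              · rw [h]; rcases hδ with h | h <;> rw [h] <;> norm_num
            refine ⟨by omega, fun hab => ?_⟩
            rcases List.mem_cons.mp hab with hab | hab
            · subst hab
              have : 0 < δ * cz η a j := by
                rw [hca]; rcases hδ with h | h <;> rw [h] <;> norm_num
              omega
            · have := i2 hab
              omega
        have h3 := (h2 L h1).2 haL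
        rw [← cz_prod, h0 j] at h3
        omega
      obtain ⟨b, hbL, hb⟩ := hinv
      have hab : b ≠ a := by
        intro h
        have h1 : cz η b j = -δ := by
          rw [hb, cz_zpow, ht j j hj]; simp
        rw [h, hca] at h1
        omega
      have hbL' : b ∈ L.erase a := (List.mem_erase_of_ne hab).mpr hbL
      set L₁ := (L.erase a).erase b with hL₁
      have hp1 : L.Perm (a :: b :: L₁) :=
        (List.perm_cons_erase haL).trans ((List.perm_cons_erase hbL').cons a)
      have hlen : L.length = L₁.length + 2 := by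
        rw [hp1.length_eq]; simp
      have hprod : a * b = 1 := by
        rw [haj, hb, zpow_neg]; exact mul_inv_cancel _
      have hcz : ∀ i, cz η L₁.prod i = 0 := by
        intro i
        have h1 := h0 i
        rw [cz_prod, (hp1.map _).sum_eq, ← cz_prod, List.prod_cons, List.prod_cons, ← mul_assoc,
          hprod, one_mul] at h1
        exact h1
      obtain ⟨L', hL', hB⟩ := ih L₁ (by omega) (fun x hx => hT x
        (List.mem_of_mem_erase (List.mem_of_mem_erase hx))) hcz
      refine ⟨a :: b :: L', hp1.trans ((hL'.cons b).cons a), ?_⟩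
      rw [List.prod_cons, List.prod_cons, ← mul_assoc, hprod, one_mul]
      exact Bl_mono (by omega) hB

/-- `tau` as the product of a list of letters -/
theorem tau_list (q : ℕ → ℤ) : ∀ n ≤ k, ∃ L : List G, (∀ a ∈ L, a ∈ St A t k) ∧
    L.length = sz q n ∧ L.prod = tau t q n := by
  intro n
  induction n with
  | zero => intro _; exact ⟨[], by simp, rfl, rfl⟩
  | succ n ih =>
    intro hn
    obtain ⟨L, h1, h2, h3⟩ := ih (by omega)
    have h4 : ∃ δ : ℤ, (δ = 1 ∨ δ = -1) ∧ t n ^ q n = (t n ^ δ) ^ (q n).natAbs := by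
      obtain ⟨j, hj | hj⟩ := (q n).eq_nat_or_neg
      · exact ⟨1, Or.inl rfl, by rw [hj]; simp⟩
      · exact ⟨-1, Or.inr rfl, by rw [hj]; simp⟩
    obtain ⟨δ, hδ, he⟩ := h4
    refine ⟨L ++ List.replicate (q n).natAbs (t n ^ δ), ?_, ?_, ?_⟩
    · intro a ha
      rcases List.mem_append.mp ha with ha | ha
      · exact h1 a ha
      · rw [List.eq_of_mem_replicate ha]
        exact Or.inr ⟨n, δ, by omega, hδ, rfl⟩
    · rw [List.length_append, List.length_replicate, h2]; rfl
    · rw [List.prod_append, List.prod_replicate, h3, ← he]; rfl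

theorem St_inv {a : G} (ha : a ∈ St A t k) : a⁻¹ ∈ St A t k := by
  rcases ha with ha | ⟨j, δ, hj, hδ, rfl⟩
  · exact Or.inl (inv_mem_Bl ha)
  · exact Or.inr ⟨j, -δ, hj, by omega, by rw [zpow_neg]⟩

/-- balls of the letters as lists of letters -/
theorem exists_list_of_Bl {n : ℕ} {x : G} (hx : x ∈ Bl (St A t k) n) :
    ∃ L : List G, L.length ≤ n ∧ (∀ a ∈ L, a ∈ St A t k) ∧ L.prod = x := by
  obtain ⟨l, h1, h2, h3⟩ := hx
  exact ⟨l, h1, fun a ha => (h2 a ha).elim id fun h => by simpa using St_inv h, h3⟩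

theorem natAbs_cz_le (hA : A ⊆ η.ker) (ht : ∀ i j, j < k → cz η (t j) i = if i = j then 1 else 0)
    {n : ℕ} {x : G} (hx : x ∈ Bl (St A t k) n) (i : ℕ) : (cz η x i).natAbs ≤ n := by
  obtain ⟨L, h1, h2, rfl⟩ := exists_list_of_Bl hx
  refine le_trans ?_ h1
  rw [cz_prod]
  clear h1 hx
  induction L with
  | nil => simp
  | cons a L ih =>
    rw [List.map_cons, List.sum_cons, List.length_cons]
    have h3 := ih fun b hb => h2 b (List.mem_cons_of_mem _ hb)
    have h4 : (cz η a i).natAbs ≤ 1 := by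
      rcases St_cz hA ht (h2 a List.mem_cons_self) i with h | ⟨δ, hδ, _, h⟩
      · rw [h]; simp
      · rw [h]; omega
    omega

end sort

section main

variable {G : Type v} [Group G] {k : ℕ}

theorem St_finite {A : Set G} (hA : A.Finite) (t : ℕ → G) (k : ℕ) : (St A t k).Finite := by
  refine (Bl_finite hA 1).union ?_
  have h : {b | ∃ j δ, j < k ∧ (δ = 1 ∨ δ = -1) ∧ b = t j ^ (δ : ℤ)} ⊆
      (fun p : ℕ × ℤ => t p.1 ^ p.2) '' ((Set.Iio k) ×ˢ {1, -1}) := by
    rintro b ⟨j, δ, hj, hδ, rfl⟩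
    exact ⟨(j, δ), ⟨hj, by simpa using hδ⟩, rfl⟩
  exact Set.Finite.subset (((Set.finite_Iio k).prod (by simp)).image _) h

/-- slab paths in the letters `St` -/
theorem slab_path_St (η : G →* Multiplicative (Fin k → ℤ)) {A : Set G} (hA : A.Finite)
    (hcl : Subgroup.closure A = η.ker) {t : ℕ → G}
    (ht : ∀ i j, j < k → cz η (t j) i = if i = j then 1 else 0) :
    ∃ C : ℕ, ∀ n R : ℕ, ∀ g ∈ Bl (St A t k) n, g ∈ Slab η R →
      Conn (Slab η (C * (R + 1)) ∩ Bl (St A t k) (C * (n + 1))) (St A t k) 1 g := by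
  classical
  have hAk : A ⊆ η.ker := by rw [← hcl]; exact Subgroup.subset_closure
  set T := St A t k with hT
  have hTf : T.Finite := St_finite hA t k
  have hBT : ∀ n, Bl A n ⊆ Bl T n := by
    intro n x hx
    obtain ⟨l, h1, h2, h3⟩ := hx
    exact ⟨l, h1, fun a ha => Or.inl (Or.inl (mem_Bl_one' (h2 a ha))), h3⟩
  obtain ⟨c₁, hc₁⟩ := exists_Bl_of_finite (A := A)
    (F := (fun p : G × G => p.1 * p.2 * p.1⁻¹) '' (T ×ˢ Bl A 1))
    ((hTf.prod (Bl_finite hA 1)).image _) (by
      rintro _ ⟨⟨a, s⟩, ⟨_, hs⟩, rfl⟩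
      rw [hcl, mem_ker_iff_cz]
      intro i
      simp only [cz_mul, cz_inv, cz_Bl hAk hs i]
      ring)
  obtain ⟨c₂, hc₂⟩ := exists_Bl_of_finite (A := A)
    (F := (fun p : G × G => p.2 * p.1 * p.2⁻¹ * p.1⁻¹) '' (T ×ˢ T))
    ((hTf.prod hTf).image _) (by
      rintro _ ⟨⟨a, s⟩, -, rfl⟩
      rw [hcl, mem_ker_iff_cz]
      intro i
      simp only [cz_mul, cz_inv]
      ring)
  set c := c₁ + c₂ + 1 with hc
  have hperm : ∀ {L L' : List G}, L.Perm L' → (∀ a ∈ L, a ∈ T) → ∀ (v : G) (r : ℕ), v ∈ Bl T r →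
      Conn (Bl T (r + (c * c + 2) * (L.length + 1))) (Bl A 1) (v * L.prod⁻¹) (v * L'.prod⁻¹) :=
    fun h => perm_conn (c := c) (fun n => (hBT n).trans (Bl_mono (by nlinarith)))
      (fun a ha s hs => Bl_mono (by omega) (hc₁ ⟨(a, s), ⟨ha, hs⟩, rfl⟩))
      (fun a ha b hb => Bl_mono (by omega) (hc₂ ⟨(a, b), ⟨ha, hb⟩, rfl⟩)) h
  set E := (k + 1) * (c * c + 4) with hE
  refine ⟨E + k + 1, fun n R g hg hgR => ?_⟩
  obtain ⟨L, hL1, hL2, rfl⟩ := exists_list_of_Bl hg
  set q := cz η L.prod with hq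
  have hqn : ∀ i, (q i).natAbs ≤ n := fun i =>
    (natAbs_cz_le hAk ht ⟨L, le_rfl, fun a ha => Or.inl (hL2 a ha), rfl⟩ i).trans hL1
  obtain ⟨Lt, hLt1, hLt2, hLt3⟩ := tau_list (A := A) (t := t) (k := k) q k le_rfl
  have hszn : sz q k ≤ k * n := sz_le hqn
  have hszR : sz q k ≤ k * R := sz_le hgR
  -- the word of height zero
  set Li := (Lt.map fun x => x⁻¹).reverse with hLi
  have hLiT : ∀ a ∈ Li, a ∈ T := by
    intro a ha
    rw [hLi, List.mem_reverse, List.mem_map] at ha
    obtain ⟨b, hb, rfl⟩ := ha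
    exact St_inv (hLt1 b hb)
  have hLip : Li.prod = (tau t q k)⁻¹ := by
    rw [hLi, ← hLt3, List.prod_inv_reverse]
  have hLil : Li.length = sz q k := by
    rw [hLi, List.length_reverse, List.length_map, hLt2]
  set M := L ++ Li with hM
  have hMT : ∀ a ∈ M, a ∈ T := by
    intro a ha
    rcases List.mem_append.mp ha with ha | ha
    exacts [hL2 a ha, hLiT a ha]
  have hMp : M.prod = L.prod * (tau t q k)⁻¹ := by rw [hM, List.prod_append, hLip]
  have hMl : M.length ≤ (k + 1) * n := by
    rw [hM, List.length_append, hLil]; nlinarith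
  have hMker := tau_inv_mem_ker η ht L.prod
  rw [← hq, ← hMp] at hMker
  have hM0 : ∀ i, cz η M.prod i = 0 := (mem_ker_iff_cz η _).mp hMker
  obtain ⟨M', hMM', hM'⟩ := exists_sorted hAk ht M.length M le_rfl hMT hM0
  have hMB : M.prod ∈ Bl T M.length := ⟨M, le_rfl, fun a ha => Or.inl (hMT a ha), rfl⟩
  have h1 := hperm hMM' hMT M.prod M.length hMB
  rw [mul_inv_cancel] at h1
  have h2 := Conn.of_Bl (B := Bl A 1) (x := M.prod * M'.prod⁻¹)
    (P := Bl T (M.length + (c * c + 2) * (M.length + 1) + M.length)) hM'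
    (fun _ h => mem_Bl_one' h) (fun w hw => mul_mem_Bl h1.mem_right (hBT _ hw))
  rw [inv_mul_cancel_right] at h2
  -- the path to the kernel part
  have h3 : Conn (Bl T (M.length + (c * c + 2) * (M.length + 1) + M.length)) (Bl A 1) 1 M.prod :=
    (h1.mono (Bl_mono (by omega)) subset_rfl).trans h2
  have h4 : Conn (Slab η 0 ∩ Bl T (M.length + (c * c + 2) * (M.length + 1) + M.length)) (Bl A 1)
      1 M.prod := by
    obtain ⟨m, p, p0, p1, p2, p3⟩ := h3
    refine ⟨m, p, p0, p1, fun i hi => ⟨?_, p2 i hi⟩, p3⟩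
    have key : ∀ i ≤ m, ∀ j, cz η (p i) j = 0 := by
      intro i
      induction i with
      | zero => intro _ j; rw [p0, cz_one]
      | succ i ih =>
        intro hi j
        have h5 := cz_Bl hAk (p3 i (by omega)) j
        rw [cz_mul, cz_inv, ih (by omega) j] at h5
        omega
    intro j
    rw [key i hi j]
    simp
  -- the final part
  have h5 : Conn (Slab η (k * R) ∩ Bl T (M.length + sz q k)) T M.prod (M.prod * Lt.prod) := by
    refine Conn.of_list Lt _ hLt1 fun j hj => ?_
    have h6 : (Lt.take j).prod ∈ Bl T (sz q k) := by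
      refine ⟨Lt.take j, ?_, fun a ha => Or.inl (hLt1 a (List.mem_of_mem_take ha)), rfl⟩
      rw [List.length_take]; omega
    refine ⟨fun i => ?_, mul_mem_Bl hMB h6⟩
    rw [cz_mul, hM0, zero_add]
    exact (natAbs_cz_le hAk ht h6 i).trans hszR
  rw [hLt3, hMp, inv_mul_cancel_right, ← hMp] at h5
  refine (h4.mono ?_ ?_).trans (h5.mono ?_ subset_rfl)
  · refine Set.inter_subset_inter (Slab_mono η (Nat.zero_le _)) (Bl_mono ?_)
    have e1 : M.length + (c * c + 2) * (M.length + 1) + M.length ≤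
        (c * c + 4) * (M.length + 1) := by nlinarith
    refine e1.trans ?_
    have e2 : M.length + 1 ≤ (k + 1) * (n + 1) := by nlinarith
    calc (c * c + 4) * (M.length + 1) ≤ (c * c + 4) * ((k + 1) * (n + 1)) :=
          Nat.mul_le_mul_left _ e2
      _ = E * (n + 1) := by rw [hE]; ring
      _ ≤ _ := Nat.mul_le_mul_right _ (by omega)
  · exact Set.subset_union_left
  · refine Set.inter_subset_inter (Slab_mono η ?_) (Bl_mono ?_)
    · nlinarith [Nat.zero_le (E * (R + 1)), Nat.zero_le R, Nat.zero_le k]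
    · have e3 : M.length + sz q k ≤ (k + 1) * n + k * n := by omega
      refine e3.trans ?_
      have e4 : k ≤ E := by rw [hE]; nlinarith
      nlinarith

/-- the letters generate -/
theorem closure_St (η : G →* Multiplicative (Fin k → ℤ)) {A : Set G}
    (hcl : Subgroup.closure A = η.ker) {t : ℕ → G}
    (ht : ∀ i j, j < k → cz η (t j) i = if i = j then 1 else 0) (g : G) :
    g ∈ Subgroup.closure (St A t k) := by
  obtain ⟨l, hl, rfl⟩ := exists_list_St η hcl ht g
  exact Subgroup.list_prod_mem _ fun a ha => Subgroup.subset_closure (hl a ha)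

/-- **Slab paths in balls of linear radius.** -/
theorem slab_path (η : G →* Multiplicative (Fin k → ℤ)) (hη : Function.Surjective η)
    {A : Set G} (hA : A.Finite) (hcl : Subgroup.closure A = η.ker)
    {B : Set G} (hBf : B.Finite) (hB : Subgroup.closure B = ⊤) :
    ∃ C : ℕ, ∀ n R : ℕ, ∀ g ∈ Bl B n, g ∈ Slab η R →
      Conn (Slab η (C * (R + 1)) ∩ Bl B (C * (n + 1))) (B ∪ B⁻¹ ∪ {1}) 1 g := by
  classical
  obtain ⟨t, ht, -⟩ := exists_t η hη
  obtain ⟨C₀, hC₀⟩ := slab_path_St η hA hcl ht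
  obtain ⟨c₁, hc₁⟩ := exists_Bl_of_finite (A := St A t k) hBf
    (fun x _ => closure_St η hcl ht x)
  obtain ⟨c₂, hc₂⟩ := exists_Bl_of_finite (A := B) (St_finite hA t k)
    (fun x _ => by rw [hB]; trivial)
  obtain ⟨ρ, hρ⟩ := exists_slab_finite η (Bl_finite hBf c₂)
  refine ⟨C₀ * (c₁ + 1) * (c₂ + 1) + c₂ + ρ, fun n R g hg hgR => ?_⟩
  have h1 := hC₀ (c₁ * n) R g (Bl_Bl hc₁ hg) hgR
  set P := Slab η ((C₀ * (c₁ + 1) * (c₂ + 1) + c₂ + ρ) * (R + 1)) ∩
    Bl B ((C₀ * (c₁ + 1) * (c₂ + 1) + c₂ + ρ) * (n + 1)) with hP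
  have hE : C₀ ≤ C₀ * (c₁ + 1) * (c₂ + 1) := by
    rw [mul_assoc]; exact Nat.le_mul_of_pos_right _ (by positivity)
  have hmem : ∀ z ∈ Slab η (C₀ * (R + 1)) ∩ Bl (St A t k) (C₀ * (c₁ * n + 1)),
      ∀ w ∈ Bl B c₂, z * w ∈ P := by
    rintro z ⟨hz1, hz2⟩ w hw
    refine ⟨Slab_mono η ?_ (mul_mem_Slab hz1 (hρ hw)), Bl_mono ?_ (mul_mem_Bl (Bl_Bl hc₂ hz2) hw)⟩
    · nlinarith [Nat.mul_le_mul_right (R + 1) hE, Nat.zero_le R, Nat.zero_le (c₂ * R),
        Nat.zero_le (ρ * R)]
    · have e1 : c₁ * n + 1 ≤ (c₁ + 1) * (n + 1) := by nlinarith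
      have e2 : c₂ * (C₀ * (c₁ * n + 1)) ≤ (c₂ + 1) * (C₀ * ((c₁ + 1) * (n + 1))) :=
        Nat.mul_le_mul (by omega) (Nat.mul_le_mul_left _ e1)
      nlinarith [Nat.zero_le (c₂ * n), Nat.zero_le (ρ * n), Nat.zero_le ρ]
  have h2 := h1.map (fun z => z) (P' := P) (B' := B ∪ B⁻¹ ∪ {1}) (by
    intro z hz w hw hzw
    have h3 := Conn.of_Bl (B := B ∪ B⁻¹ ∪ {1}) (x := z) (P := P) (hc₂ hzw) (by
      intro a ha
      left
      rcases ha with ha | ha
      · exact Or.inl ha
      · exact Or.inr ha) (hmem z hz)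
    rwa [mul_inv_cancel_left] at h3) (by
    have := hmem 1 h1.mem_left 1 (one_mem_Bl _ _)
    rwa [mul_one] at this)
  exact h2

end main

end Agent.P188.H428
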