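import Vale.Agent.P188.H428.PolyInst
import Vale.Agent.P188.H269.Inst
import Vale.Agent.P188.H796.InstA
import Vale.Agent.P188.Z1.RModel

/-!
P188: the field `C_le` of the real model for the concrete group `D.S`.
-/

open scoped commutatorElement

namespace Agent.P188.H428

open Vale.Agent.P188.H269 Vale.Agent.P188.H796 Vale.Agent.P188.H615 Vale.Agent.P188.Z1
open Vale.Agent.P188.H530 (hgt)

section conc

variable {Γ : Type} [Group Γ] {k : ℕ} {η : Γ →* Multiplicative (Fin k → ℤ)} {d n : ℕ}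
  (D : MB η.ker d n)

/-- letters of the Cartan words are uniformly bounded -/
theorem letter_bound (h : Set D.R.V) (τ : (Fin k → ℤ) → D.S) :
    ∃ K : ℝ, 0 ≤ K ∧ ∀ a : D.S, ((∃ v ∈ h, D.nm v ≤ 1 ∧ D.ex v = a) ∨
      (∃ w : Fin k → ℤ, (∀ i, |w i| ≤ 1) ∧ (τ w = a ∨ (τ w)⁻¹ = a))) →
      ‖hgt (D.θ η) a‖ ≤ K ∧ ∀ v, D.nm (D.AdE a v) ≤ K * D.nm v := by
  classical
  obtain ⟨C, hC, h1⟩ := D.Ad_ex_bound
  have hdom : ∀ a : D.S, ∃ K : ℝ, 0 ≤ K ∧ ∀ v, D.nm (D.AdE a v) ≤ K * D.nm v := fun a =>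
    sem_dom D.nm D.nm_zero (D.nm.comp (D.AdE a))
  choose K hK0 hK using hdom
  have hfin : {w : Fin k → ℤ | ∀ i, |w i| ≤ 1}.Finite := by
    refine Set.Finite.subset (Set.Finite.pi' (t := fun _ : Fin k => Set.Icc (-1 : ℤ) 1)
      fun _ => Set.finite_Icc _ _) ?_
    intro w hw i
    exact abs_le.1 (hw i)
  obtain ⟨M, hM⟩ := (hfin.image fun w =>
    max (max (K (τ w)) (K (τ w)⁻¹)) (max ‖hgt (D.θ η) (τ w)‖ ‖hgt (D.θ η) (τ w)⁻¹‖)).bddAbove
  refine ⟨max (C * (1 + 1) ^ (2 * D.R.m)) M, le_max_of_le_left (by positivity), ?_⟩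
  rintro a (⟨v, _, hv1, rfl⟩ | ⟨w, hw, hw'⟩)
  · refine ⟨?_, fun x => ?_⟩
    · rw [D.hgt_ex, norm_zero]
      exact le_max_of_le_left (by positivity)
    · refine (h1 v x).trans (mul_le_mul_of_nonneg_right ?_ (apply_nonneg D.nm _))
      refine le_max_of_le_left (mul_le_mul_of_nonneg_left ?_ hC.le)
      have h0 : 0 ≤ D.nm v := apply_nonneg D.nm _
      exact pow_le_pow_left₀ (by linarith) (by linarith) _
  · have h2 := hM ⟨w, hw, rfl⟩
    simp only at h2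
    rcases hw' with rfl | rfl
    · refine ⟨le_max_of_le_right (le_trans ?_ h2), fun x => (hK _ x).trans
        (mul_le_mul_of_nonneg_right (le_max_of_le_right (le_trans ?_ h2)) (apply_nonneg D.nm _))⟩
      · exact (le_max_left _ _).trans (le_max_right _ _)
      · exact (le_max_left _ _).trans (le_max_left _ _)
    · refine ⟨le_max_of_le_right (le_trans ?_ h2), fun x => (hK _ x).trans
        (mul_le_mul_of_nonneg_right (le_max_of_le_right (le_trans ?_ h2)) (apply_nonneg D.nm _))⟩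
      · exact (le_max_right _ _).trans (le_max_right _ _)
      · exact (le_max_right _ _).trans (le_max_left _ _)

/-- letters of the Cartan words are in the Cartan group -/
theorem letter_mem (habel : ∀ a b : Γ, ⁅a, b⁆ ∈ η.ker) {t : D.S} {τ : (Fin k → ℤ) → D.S}
    (hτ : ∀ w, τ w ∈ (expS D habel).C t) {a : D.S}
    (ha : (∃ v ∈ (W D.AdE t 0 : Set D.R.V), D.nm v ≤ 1 ∧ D.ex v = a) ∨
      (∃ w : Fin k → ℤ, (∀ i, |w i| ≤ 1) ∧ (τ w = a ∨ (τ w)⁻¹ = a))) :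
    a ∈ (expS D habel).C t := by
  rcases ha with ⟨v, hv, _, rfl⟩ | ⟨w, _, rfl | rfl⟩
  · exact (expS D habel).E_mem_C hv
  · exact hτ w
  · exact ((expS D habel).C t).inv_mem (hτ w)

/-- **`C_le`** for one weight -/
theorem C_le_one (habel : ∀ a b : Γ, ⁅a, b⁆ ∈ η.ker) {t : D.S} (hs : Sep D.AdE t)
    {τ : (Fin k → ℤ) → D.S} (hτ : ∀ w, τ w ∈ (expS D habel).C t)
    (b : Ht k →L[ℝ] ℝ) {b' : D.S → ℝ} (hb' : b' ∈ Wts D.AdE ⊤)
    (hb : ∀ c, b' c = b (hgt (D.θ η) c)) :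
    ∃ (C : ℝ) (e : ℕ), 0 ≤ C ∧ ∀ m : ℕ, ∀ c ∈ CBall D.nm (W D.AdE t 0 : Set D.R.V) D.ex τ m,
      ∀ v ∈ W D.AdE t (b (hgt (D.θ η) t)),
      D.nm (D.AdE c v) ≤ C * (1 + m) ^ e * Real.exp (b (hgt (D.θ η) c)) * D.nm v := by
  obtain ⟨K, hK0, hK⟩ := letter_bound D (W D.AdE t 0 : Set D.R.V) τ
  obtain ⟨C, e, hC, h1⟩ := poly_cartan (expS D habel) hs hb' D.nm D.nm_zero
    {a | (∃ v ∈ (W D.AdE t 0 : Set D.R.V), D.nm v ≤ 1 ∧ D.ex v = a) ∨
      (∃ w : Fin k → ℤ, (∀ i, |w i| ≤ 1) ∧ (τ w = a ∨ (τ w)⁻¹ = a))}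
    (K := max K (‖b‖ * K)) (le_max_of_le_left hK0) (by
      intro c hc
      obtain ⟨h2, h3⟩ := hK c hc
      refine ⟨?_, fun v => (h3 v).trans
        (mul_le_mul_of_nonneg_right (le_max_left _ _) (apply_nonneg D.nm _))⟩
      rw [hb c]
      refine le_max_of_le_right ?_
      exact (b.le_opNorm _).trans (mul_le_mul_of_nonneg_left h2 (norm_nonneg _)))
  refine ⟨C, e, hC, ?_⟩
  rintro m c ⟨L, hL1, rfl, hL2⟩ v hv
  have h2 := h1 L (fun a ha => ⟨hL2 a ha, letter_mem D habel hτ (hL2 a ha)⟩) v (by rwa [hb t])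
  rw [hb L.prod] at h2
  refine h2.trans (mul_le_mul_of_nonneg_right (mul_le_mul_of_nonneg_right
    (mul_le_mul_of_nonneg_left ?_ hC) (Real.exp_pos _).le) (apply_nonneg D.nm _))
  refine pow_le_pow_left₀ (by positivity) ?_ _
  have : (L.length : ℝ) ≤ m := by exact_mod_cast hL1
  linarith

/-- **`C_le`** for a finite set of weights -/
theorem C_le (habel : ∀ a b : Γ, ⁅a, b⁆ ∈ η.ker) {t : D.S} (hs : Sep D.AdE t)
    {τ : (Fin k → ℤ) → D.S} (hτ : ∀ w, τ w ∈ (expS D habel).C t)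
    (Wt : Finset (Ht k →L[ℝ] ℝ))
    (hWt : ∀ b ∈ Wt, ∃ b' ∈ Wts D.AdE ⊤, ∀ c, b' c = b (hgt (D.θ η) c)) :
    ∃ (C : ℝ) (e : ℕ), 0 ≤ C ∧ ∀ m : ℕ, ∀ c ∈ CBall D.nm (W D.AdE t 0 : Set D.R.V) D.ex τ m,
      ∀ b ∈ Wt, ∀ v ∈ W D.AdE t (b (hgt (D.θ η) t)),
      D.nm (D.AdE c v) ≤ C * (1 + m) ^ e * Real.exp (b (hgt (D.θ η) c)) * D.nm v := by
  classical
  induction Wt using Finset.induction_on with
  | empty => exact ⟨0, 0, le_rfl, fun m c _ b hb => absurd hb (Finset.notMem_empty b)⟩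
  | insert b0 Wt _ ih =>
    obtain ⟨C, e, hC, h1⟩ := ih fun b hb => hWt b (Finset.mem_insert_of_mem hb)
    obtain ⟨b', hb', hb⟩ := hWt b0 (Finset.mem_insert_self _ _)
    obtain ⟨C', e', hC', h2⟩ := C_le_one D habel hs hτ b0 hb' hb
    refine ⟨C + C', e + e', by positivity, fun m c hc b hbW v hv => ?_⟩
    have hm : (1 : ℝ) ≤ 1 + m := by linarith [(Nat.cast_nonneg m : (0 : ℝ) ≤ m)]
    have key : ∀ (C₁ : ℝ) (e₁ : ℕ), 0 ≤ C₁ → C₁ ≤ C + C' → e₁ ≤ e + e' →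
        C₁ * (1 + m) ^ e₁ * Real.exp (b (hgt (D.θ η) c)) * D.nm v ≤
          (C + C') * (1 + m) ^ (e + e') * Real.exp (b (hgt (D.θ η) c)) * D.nm v := by
      intro C₁ e₁ h0 hc1 he1
      have h3 : (1 + (m : ℝ)) ^ e₁ ≤ (1 + m) ^ (e + e') := pow_le_pow_right₀ hm he1
      have h4 : 0 ≤ D.nm v := apply_nonneg D.nm _
      gcongr
    rcases Finset.mem_insert.1 hbW with rfl | hbW
    · exact (h2 m c hc v hv).trans (key C' e' hC' (by linarith) (by omega))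
    · exact (h1 m c hc b hbW v hv).trans (key C e hC (by linarith) (by omega))

end conc

end Agent.P188.H428
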