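import Vale.Agent.P188.H428.Markov
import Mathlib.GroupTheory.QuotientGroup.Basic

/-!
# From random displacements to a fixed displacement modulo the commutator subgroup
-/

set_option linter.unusedSectionVars false

namespace Agent.P188.H428

open Finset

variable {G : Type*} [Group G] [DecidableEq G]
variable {E : Type*} [NormedAddCommGroup E]

/-- `∏ a_i g_i`. -/
def pr : (J : ℕ) → (Fin J → G) → (Fin J → G) → G
  | 0, _, _ => 1
  | J + 1, a, g => a 0 * g 0 * pr J (Fin.tail a) (Fin.tail g)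

/-- `∏ g_i`. -/
def xp (J : ℕ) (g : Fin J → G) : G := pr J (fun _ => 1) g

lemma out_eq_pr (J : ℕ) (g : Fin J → G) (ω : Fin J → G × G) :
    out J g ω = pr J (fun i => (ω i).1⁻¹ * (ω i).2) g := by
  induction J with
  | zero => rfl
  | succ J ih =>
    simp only [out, pr]
    rw [ih]
    simp only [mul_assoc]
    rfl

lemma pr_xp_mem (N : Subgroup G) [N.Normal] (J : ℕ) (a g : Fin J → G) (ha : ∀ i, a i ∈ N) :
    pr J a g * (xp J g)⁻¹ ∈ N := by
  induction J with
  | zero => simp [pr, xp]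
  | succ J ih =>
    have h := ih (Fin.tail a) (Fin.tail g) (fun i => ha i.succ)
    have h2 : pr (J + 1) a g * (xp (J + 1) g)⁻¹
        = a 0 * (g 0 * (pr J (Fin.tail a) (Fin.tail g) * (xp J (Fin.tail g))⁻¹) * (g 0)⁻¹) := by
      simp only [pr, xp]
      have : (Fin.tail fun _ : Fin (J + 1) => (1 : G)) = fun _ => 1 := rfl
      rw [this]
      group
    rw [h2]
    exact N.mul_mem (ha 0) (‹N.Normal›.conj_mem _ h _)

/-- The key identity modulo commutators. -/
lemma pr_identity {H : Type*} [Group H] (π : G →* H) (N : Subgroup G) [N.Normal]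
    (hN : ∀ a ∈ N, ∀ b ∈ N, π a * π b = π b * π a) (J : ℕ) (a s g : Fin J → G)
    (ha : ∀ i, a i ∈ N) (hs : ∀ i, s i ∈ N) :
    π (pr J (fun i => a i * s i) g) = π (pr J a g) * (π (xp J g))⁻¹ * π (pr J s g) := by
  induction J with
  | zero => simp [pr, xp]
  | succ J ih =>
    have h := ih (Fin.tail a) (Fin.tail s) (Fin.tail g) (fun i => ha i.succ) (fun i => hs i.succ)
    have hm := pr_xp_mem N J (Fin.tail a) (Fin.tail g) (fun i => ha i.succ)
    have hm2 := ‹N.Normal›.conj_mem _ hm (g 0)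
    have hc := hN _ (hs 0) _ hm2
    have e0 : (Fin.tail fun i => a i * s i) = fun i => Fin.tail a i * Fin.tail s i := rfl
    have e1 : xp (J + 1) g = g 0 * xp J (Fin.tail g) := by
      simp only [pr, xp]
      have : (Fin.tail fun _ : Fin (J + 1) => (1 : G)) = fun _ => 1 := rfl
      rw [this]; group
    rw [e1]
    simp only [pr]
    rw [e0]
    simp only [map_mul, h, mul_inv_rev]
    simp only [map_mul, map_inv] at hc
    set A := π (a 0)
    set S := π (s 0)
    set g0 := π (g 0)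
    set P := π (pr J (Fin.tail a) (Fin.tail g))
    set X := π (xp J (Fin.tail g))
    set R := π (pr J (Fin.tail s) (Fin.tail g))
    calc A * S * g0 * (P * X⁻¹ * R) = A * (S * (g0 * (P * X⁻¹) * g0⁻¹)) * g0 * R := by group
      _ = A * (g0 * (P * X⁻¹) * g0⁻¹ * S) * g0 * R := by rw [hc]
      _ = A * g0 * P * (X⁻¹ * g0⁻¹) * (S * g0 * R) := by group

open Classical in
/-- Counting: most noise can be shifted. -/
lemma card_shift (B : Finset G) (J : ℕ) (s : Fin J → G)
    (hs : ∀ i, B.card ≤ 2 * (B.filter fun n => n * s i ∈ B).card) :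
    (noise B B J).card ≤ 2 ^ J * ((noise B B J).filter fun ω => ∀ i, (ω i).2 * s i ∈ B).card := by
  have h1 : ((noise B B J).filter fun ω => ∀ i, (ω i).2 * s i ∈ B)
      = Fintype.piFinset (fun i => B ×ˢ (B.filter fun n => n * s i ∈ B)) := by
    ext ω
    rw [Finset.mem_filter, mem_noise, Fintype.mem_piFinset]
    simp only [Finset.mem_product, Finset.mem_filter]
    constructor
    · rintro ⟨h1, h2⟩ i
      exact ⟨(h1 i).1, (h1 i).2, h2 i⟩
    · intro h
      exact ⟨fun i => ⟨(h i).1, (h i).2.1⟩, fun i => (h i).2.2⟩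
  rw [h1, card_noise, Fintype.card_piFinset]
  have h2 : (B.card * B.card) ^ J = ∏ _i : Fin J, (B.card * B.card) := by simp
  have h3 : (2 : ℕ) ^ J = ∏ _i : Fin J, 2 := by simp
  rw [h2, h3, ← Finset.prod_mul_distrib]
  refine Finset.prod_le_prod' fun i _ => ?_
  rw [Finset.card_product]
  calc B.card * B.card ≤ B.card * (2 * (B.filter fun n => n * s i ∈ B).card) :=
        Nat.mul_le_mul_left _ (hs i)
    _ = 2 * (B.card * (B.filter fun n => n * s i ∈ B).card) := by ring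

open Classical in
/-- Existence of three good pieces of noise. -/
lemma exists_three (B Bs : Finset G) (hB : B.Nonempty) (J : ℕ)
    (hs : ∀ a ∈ Bs, ∀ b ∈ Bs, B.card ≤ 2 * (B.filter fun n => n * (a⁻¹ * b) ∈ B).card)
    (T1 T3 : (Fin J → G × G) → Prop) (q : ℝ) (hq : 2 * q < (1 / 2) ^ J)
    (hT1 : (((noise B B J).filter T1).card : ℝ) ≤ q * (noise B B J).card)
    (hT3 : ((noise Bs Bs J).filter T3).card < (noise Bs Bs J).card) :
    ∃ ω ∈ noise B B J, ∃ ω3 ∈ noise Bs Bs J, ¬ T1 ω ∧ ¬ T3 ω3 ∧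
      (fun i => ((ω i).1, (ω i).2 * ((ω3 i).1⁻¹ * (ω3 i).2))) ∈ noise B B J ∧
      ¬ T1 (fun i => ((ω i).1, (ω i).2 * ((ω3 i).1⁻¹ * (ω3 i).2))) := by
  obtain ⟨ω3, hω3, hT3'⟩ : ∃ ω3 ∈ noise Bs Bs J, ¬ T3 ω3 := by
    by_contra hcon
    push Not at hcon
    rw [Finset.filter_true_of_mem hcon] at hT3
    exact lt_irrefl _ hT3
  have hω3' := mem_noise.1 hω3
  set s : Fin J → G := fun i => (ω3 i).1⁻¹ * (ω3 i).2 with hsdef
  have hcount := card_shift B J s (fun i => hs _ (hω3' i).1 _ (hω3' i).2)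
  set Ω := noise B B J with hΩ
  set sh : (Fin J → G × G) → (Fin J → G × G) := fun ω i => ((ω i).1, (ω i).2 * s i) with hsh
  have hinj : Function.Injective sh := by
    intro ω ω' h
    funext i
    have hi := congrFun h i
    simp only [hsh, Prod.mk.injEq] at hi
    exact Prod.ext hi.1 (mul_right_cancel hi.2)
  set S := Ω.filter fun ω => ∀ i, (ω i).2 * s i ∈ B with hS
  by_contra hcon
  push Not at hcon
  have hsub : S ⊆ (Ω.filter T1) ∪ (S.filter fun ω => T1 (sh ω)) := by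
    intro ω hω
    have hω1 := (Finset.mem_filter.1 hω).1
    have hω2 := (Finset.mem_filter.1 hω).2
    rw [Finset.mem_union]
    by_cases h : T1 ω
    · exact Or.inl (Finset.mem_filter.2 ⟨hω1, h⟩)
    · refine Or.inr (Finset.mem_filter.2 ⟨hω, ?_⟩)
      refine hcon ω hω1 ω3 hω3 h hT3' ?_
      rw [hΩ, mem_noise]
      exact fun i => ⟨((mem_noise.1 hω1) i).1, hω2 i⟩
  have hc2 : (S.filter fun ω => T1 (sh ω)).card ≤ (Ω.filter T1).card := by
    refine Finset.card_le_card_of_injOn sh ?_ (hinj.injOn)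
    intro ω hω
    have h1 := Finset.mem_filter.1 hω
    have h2 := Finset.mem_filter.1 h1.1
    refine Finset.mem_coe.2 (Finset.mem_filter.2 ⟨?_, h1.2⟩)
    rw [hΩ, mem_noise]
    exact fun i => ⟨((mem_noise.1 h2.1) i).1, h2.2 i⟩
  have hc1 : S.card ≤ (Ω.filter T1).card + (Ω.filter T1).card :=
    le_trans (Finset.card_le_card hsub) (le_trans (Finset.card_union_le _ _)
      (Nat.add_le_add_left hc2 _))
  have hpos : 0 < Ω.card := by
    rw [hΩ, card_noise]
    exact pow_pos (Nat.mul_pos hB.card_pos hB.card_pos) J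
  have hposR : (0 : ℝ) < Ω.card := by exact_mod_cast hpos
  have h1 : (Ω.card : ℝ) ≤ 2 ^ J * S.card := by exact_mod_cast hcount
  have h2 : (S.card : ℝ) ≤ 2 * (q * Ω.card) := by
    have : (S.card : ℝ) ≤ (Ω.filter T1).card + (Ω.filter T1).card := by exact_mod_cast hc1
    linarith
  have h3 : (Ω.card : ℝ) ≤ 2 ^ J * (2 * q) * Ω.card := by
    calc (Ω.card : ℝ) ≤ 2 ^ J * S.card := h1
      _ ≤ 2 ^ J * (2 * (q * Ω.card)) := mul_le_mul_of_nonneg_left h2 (by positivity)
      _ = _ := by ring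
  have h4 : (2 : ℝ) ^ J * (2 * q) < 1 := by
    calc (2 : ℝ) ^ J * (2 * q) < 2 ^ J * (1 / 2) ^ J :=
          mul_lt_mul_of_pos_left hq (by positivity)
      _ = 1 := by rw [← mul_pow]; norm_num
  have h5 : (2 : ℝ) ^ J * (2 * q) * Ω.card < 1 * Ω.card := mul_lt_mul_of_pos_right h4 hposR
  linarith

/-- Good displacements. -/
def Gd (l : G → ℕ) (W : G → E) (Q : Finset G) (τ δ : ℝ) (r : ℕ) (x : G) : Prop :=
  l x ≤ r ∧ (devi W Q τ x : ℝ) ≤ δ * Q.card

lemma Gd.mono {l : G → ℕ} {W : G → E} {Q : Finset G} {τ τ' δ δ' : ℝ} {r r' : ℕ} {x : G}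
    (h : Gd l W Q τ δ r x) (hτ : τ ≤ τ') (hδ : δ ≤ δ') (hr : r ≤ r') : Gd l W Q τ' δ' r' x := by
  classical
  refine ⟨h.1.trans hr, ?_⟩
  have h1 : devi W Q τ' x ≤ devi W Q τ x := by
    unfold devi
    refine Finset.card_le_card fun z hz => ?_
    have := Finset.mem_filter.1 hz
    exact Finset.mem_filter.2 ⟨this.1, lt_of_le_of_lt hτ this.2⟩
  calc (devi W Q τ' x : ℝ) ≤ devi W Q τ x := by exact_mod_cast h1
    _ ≤ δ * Q.card := h.2
    _ ≤ δ' * Q.card := mul_le_mul_of_nonneg_right hδ (Nat.cast_nonneg _)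

lemma devi_shift_le (W : G → E) (Q : Finset G) (τ : ℝ) (x y : G) :
    letI := Classical.decPred fun z => τ < ‖W (z * x * y) - W (z * x)‖
    (Q.filter fun z => τ < ‖W (z * x * y) - W (z * x)‖).card
      ≤ devi W Q τ y + ((Q.image fun z => z * x) \ Q).card := by
  classical
  unfold devi
  refine le_trans ?_ (Finset.card_union_le _ _)
  refine Finset.card_le_card_of_injOn (fun z => z * x) ?_ (fun a _ b _ h => mul_right_cancel h)
  intro z hz
  have h1 := Finset.mem_filter.1 hz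
  refine Finset.mem_coe.2 (Finset.mem_union.2 ?_)
  by_cases h : z * x ∈ Q
  · exact Or.inl (Finset.mem_filter.2 ⟨h, h1.2⟩)
  · exact Or.inr (Finset.mem_sdiff.2 ⟨Finset.mem_image_of_mem _ h1.1, h⟩)

lemma Gd.mul {l : G → ℕ} {W : G → E} {Q : Finset G} {τ1 τ2 δ1 δ2 φ : ℝ} {r1 r2 : ℕ} {x y : G}
    (hmul : ∀ x y, l (x * y) ≤ l x + l y)
    (hx : Gd l W Q τ1 δ1 r1 x) (hy : Gd l W Q τ2 δ2 r2 y) (hQ : Fol l Q r1 φ) :
    Gd l W Q (τ1 + τ2) (δ1 + δ2 + φ) (r1 + r2) (x * y) := by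
  classical
  refine ⟨(hmul x y).trans (add_le_add hx.1 hy.1), ?_⟩
  have h1 := devi_shift_le W Q τ2 x y
  have h2 : devi W Q (τ1 + τ2) (x * y) ≤ devi W Q τ1 x +
      (Q.filter fun z => τ2 < ‖W (z * x * y) - W (z * x)‖).card := by
    unfold devi
    refine le_trans (Finset.card_le_card ?_) (Finset.card_union_le _ _)
    intro z hz
    have hz' := Finset.mem_filter.1 hz
    rw [Finset.mem_union, Finset.mem_filter, Finset.mem_filter]
    by_contra hcon
    push Not at hcon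
    have e1 := hcon.1 hz'.1
    have e2 := hcon.2 hz'.1
    have e3 : ‖W (z * (x * y)) - W z‖ ≤ τ1 + τ2 := by
      calc ‖W (z * (x * y)) - W z‖ = ‖(W (z * x) - W z) + (W (z * x * y) - W (z * x))‖ := by
            rw [mul_assoc]; congr 1; abel
        _ ≤ ‖W (z * x) - W z‖ + ‖W (z * x * y) - W (z * x)‖ := norm_add_le _ _
        _ ≤ τ1 + τ2 := add_le_add e1 e2
    exact absurd hz'.2 (not_lt.2 e3)
  have h3 : devi W Q (τ1 + τ2) (x * y) ≤ devi W Q τ1 x +
      (devi W Q τ2 y + ((Q.image fun z => z * x) \ Q).card) := by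
    refine le_trans h2 (Nat.add_le_add_left ?_ _)
    convert h1 using 3
  have h4 : (devi W Q (τ1 + τ2) (x * y) : ℝ) ≤ devi W Q τ1 x +
      (devi W Q τ2 y + ((Q.image fun z => z * x) \ Q).card) := by exact_mod_cast h3
  have h5 := hQ x hx.1
  have h6 := hx.2
  have h7 := hy.2
  nlinarith

lemma Gd.inv {l : G → ℕ} {W : G → E} {Q : Finset G} {τ δ φ : ℝ} {r : ℕ} {x : G}
    (hinv : ∀ x, l x⁻¹ = l x) (hx : Gd l W Q τ δ r x) (hQ : Fol l Q r φ) :
    Gd l W Q τ (δ + φ) r x⁻¹ := by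
  classical
  have hlx : l x⁻¹ ≤ r := by rw [hinv]; exact hx.1
  refine ⟨hlx, ?_⟩
  have h1 : devi W Q τ x⁻¹ ≤ devi W Q τ x + ((Q.image fun z => z * x⁻¹) \ Q).card := by
    unfold devi
    refine le_trans ?_ (Finset.card_union_le _ _)
    refine Finset.card_le_card_of_injOn (fun z => z * x⁻¹) ?_
      (fun a _ b _ h => mul_right_cancel h)
    intro z hz
    have h1 := Finset.mem_filter.1 hz
    refine Finset.mem_coe.2 (Finset.mem_union.2 ?_)
    by_cases h : z * x⁻¹ ∈ Q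
    · refine Or.inl (Finset.mem_filter.2 ⟨h, ?_⟩)
      rw [inv_mul_cancel_right, norm_sub_rev]
      exact h1.2
    · exact Or.inr (Finset.mem_sdiff.2 ⟨Finset.mem_image_of_mem _ h1.1, h⟩)
  have h2 : (devi W Q τ x⁻¹ : ℝ) ≤ devi W Q τ x + ((Q.image fun z => z * x⁻¹) \ Q).card := by
    exact_mod_cast h1
  have h3 := hQ x⁻¹ hlx
  have h4 := hx.2
  linarith

end Agent.P188.H428
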