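import Vale.Agent.P188.H428.LocE
import Vale.Agent.P188.H329.Cnt

/-!
P188, route B, **LOC** : the constants do not change when one ray is extended.
-/

open MeasureTheory Set
open scoped ENNReal

namespace Agent.P188.H428

open Vale.P188.H532

variable {S E V ι L : Type} [Group S] [Group E] [MeasurableSpace E] [NormedAddCommGroup V]
    [NormedSpace ℝ V] [Fintype ι] [DecidableEq ι] [Fintype L]
    {G : Geo S E V ι L}

theorem lowCount (G : Geo S E V ι L) (Λ : ℝ) : LowCount G Λ := low_count G Λ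

theorem bumpCount (G : Geo S E V ι L) (Λ : ℝ) : BumpCount G Λ := by
  obtain ⟨K, δ1, hK, hδ1, h⟩ := bump_count G Λ
  refine ⟨K, δ1, hK, hδ1, ?_⟩
  intro Ψ hQ g a0 i x ρ s M Ω h1 h2 h3 h4 h5 h6 h7
  have her : 0 ≤ G.er x := le_trans (C_pos G).le (G.er_ge x)
  refine ⟨M, le_rfl, ?_, h Ψ hQ g a0 i x ρ s M Ω h1 h2 h3 h4 h5 h6 h7⟩
  have : 0 ≤ K * (1 + s + G.er x) := by positivity
  linarith

/-- the unimodularity relation: lower bounds give upper bounds -/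
theorem exists_upper (G : Geo S E V ι L) : ∃ K : ℝ, 1 ≤ K ∧ ∀ (v : V) (i : ι) (r : ℝ), 0 ≤ r →
    (∀ j, j ≠ i → -r ≤ G.b j v) → G.b i v ≤ K * r := by
  have hw := G.w_pos
  set K : ℝ := 1 + ∑ i, (∑ j, G.w j) / G.w i with hK
  have hW : 0 ≤ ∑ j, G.w j := Finset.sum_nonneg fun j _ => (hw j).le
  refine ⟨K, ?_, ?_⟩
  · have : 0 ≤ ∑ i, (∑ j, G.w j) / G.w i := Finset.sum_nonneg fun i _ =>
      div_nonneg hW (hw i).le
    linarith
  · intro v i r hr h
    have h1 := G.w_sum v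
    rw [← Finset.add_sum_erase _ _ (Finset.mem_univ i)] at h1
    have h2 : -((∑ j, G.w j) * r) ≤ ∑ j ∈ Finset.univ.erase i, G.w j * G.b j v := by
      have h3 : ∑ j ∈ Finset.univ.erase i, G.w j * (-r) ≤
          ∑ j ∈ Finset.univ.erase i, G.w j * G.b j v := by
        refine Finset.sum_le_sum fun j hj => ?_
        exact mul_le_mul_of_nonneg_left (h j (Finset.ne_of_mem_erase hj)) (hw j).le
      refine le_trans ?_ h3
      rw [← Finset.sum_mul]
      have h4 : ∑ j ∈ Finset.univ.erase i, G.w j ≤ ∑ j, G.w j :=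
        Finset.sum_le_sum_of_subset_of_nonneg (Finset.erase_subset _ _) fun j _ _ => (hw j).le
      nlinarith
    have h3 : G.w i * G.b i v ≤ (∑ j, G.w j) * r := by linarith
    have h4 : G.b i v ≤ (∑ j, G.w j) * r / G.w i := by
      rw [le_div_iff₀ (hw i)]
      linarith
    refine h4.trans ?_
    have h5 : (∑ j, G.w j) / G.w i ≤ K := by
      have := Finset.single_le_sum (f := fun i => (∑ j, G.w j) / G.w i)
        (fun i _ => div_nonneg hW (hw i).le) (Finset.mem_univ i)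
      linarith
    calc (∑ j, G.w j) * r / G.w i = (∑ j, G.w j) / G.w i * r := by ring
      _ ≤ K * r := mul_le_mul_of_nonneg_right h5 hr

/-- LOC for one ray -/
theorem loc_i (G : Geo S E V ι L) (Λ C' : ℝ) (i : ι) : ∃ K δ1 : ℝ, 1 ≤ K ∧
    0 < δ1 ∧ δ1 ≤ 1 ∧ ∀ (Ψ : S → S) (ρ : Option ι → ℝ) (x ω ε1 : ℝ) (n : ℕ) (lk : ℕ → ℝ)
    (c : ℕ → V) (A : ℕ → Set E) (X : ℕ → Finset E) (g : S), Sc G K x ω (ρ none) →
    LocData G Λ Ψ i ρ x ω C' ε1 n lk c A X g → lk n ≤ δ1 * x → (n + 1) * ε1 ≤ 1 / 8 → 0 ≤ ε1 →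
    ∀ k ≤ n, ‖c k - c 0‖ ≤ K * ω := by
  obtain ⟨K1, δ1, hK1, hδ1, hδ11, haj⟩ := aj G Λ C' i (lowCount G Λ)
  obtain ⟨K2, δ2, hK2, hδ2, hδ21, hbi⟩ := bi G Λ C' i (bumpCount G Λ)
  obtain ⟨K4, hK4, hcd⟩ := cdiff G Λ C' i
  obtain ⟨Kw, hKw, hup⟩ := exists_upper G
  have hC := C_pos G
  have hC1 := G.one_le_C
  -- upper bound for `b_i`
  obtain ⟨K5, hK5⟩ : ∃ K5 : ℝ, K5 = Kw * K1 := ⟨_, rfl⟩
  have hK50 : 0 ≤ K5 := by rw [hK5]; positivity
  obtain ⟨K7, hK7⟩ : ∃ K7 : ℝ, K7 = K2 + G.C * (K4 * (K5 + K2 + 1)) := ⟨_, rfl⟩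
  have hK70 : 0 ≤ K7 := by rw [hK7]; positivity
  obtain ⟨K8, hK8⟩ : ∃ K8 : ℝ, K8 = K1 + K7 := ⟨_, rfl⟩
  have hK80 : 0 ≤ K8 := by rw [hK8]; positivity
  have hKwK8 : 0 ≤ Kw * K8 := by positivity
  obtain ⟨K, hK⟩ : ∃ K : ℝ, K = K1 + K2 + K4 + G.C * (Kw * K8) := ⟨_, rfl⟩
  have hCK : 0 ≤ G.C * (Kw * K8) := by positivity
  have hKK1 : K1 ≤ K := by linarith only [hK, hK1, hK2, hK4, hCK]
  have hKK2 : K2 ≤ K := by linarith only [hK, hK1, hK2, hK4, hCK]
  have hKK4 : K4 ≤ K := by linarith only [hK, hK1, hK2, hK4, hCK]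
  have hKK8 : G.C * (Kw * K8) ≤ K := by linarith only [hK, hK1, hK2, hK4, hCK]
  refine ⟨K, min δ1 δ2, by linarith only [hKK1, hK1], lt_min hδ1 hδ2,
    (min_le_left _ _).trans hδ11, ?_⟩
  intro Ψ ρ x ω ε1 n lk c A X g hs hd hlx hn hε k hk
  have hω := sc_ω hs
  have hω0 : 0 ≤ ω := by linarith only [hω]
  have hωx := sc_x hs
  have hx0 : 0 ≤ x := by linarith only [hω, hωx]
  have hlx1 : lk n ≤ δ1 * x := hlx.trans (mul_le_mul_of_nonneg_right (min_le_left _ _) hx0)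
  have hlx2 : lk n ≤ δ2 * x := hlx.trans (mul_le_mul_of_nonneg_right (min_le_right _ _) hx0)
  have hlxx : lk n ≤ x := hlx1.trans (by
    have := mul_le_mul_of_nonneg_right hδ11 hx0
    linarith only [this])
  have hne := Gd_nonempty hd hε hn hx0 hs.r0_nonneg
  have hA : ∀ k' ≤ n, ∀ j, j ≠ i → -(K1 * ω) ≤ G.b j (c k' - c 0) := fun k' hk' j hj =>
    haj Ψ ρ x ω ε1 n lk c A X g (hs.mono hK1 hKK1) hd hlx1 hn hε k' hk' j hj
  have hK1ω : 0 ≤ K1 * ω := by positivity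
  have hU : ∀ k' ≤ n, G.b i (c k' - c 0) ≤ K5 * ω := by
    intro k' hk'
    have h1 := hup (c k' - c 0) i (K1 * ω) hK1ω (hA k' hk')
    rw [hK5]
    linarith only [h1]
  -- the level of maximal height
  obtain ⟨k0, hk0, h0⟩ := Finset.exists_max_image (Finset.range (k + 1))
    (fun k' => lk k' + G.b i (c k' - c 0)) ⟨0, by simp⟩
  have hk0' : k0 ≤ k := by
    have := Finset.mem_range.1 hk0
    omega
  have hB := hbi Ψ ρ x ω ε1 n lk c A X g (hs.mono hK2 hKK2) hd hlx2 hn hε k hk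
    (lk k0 + G.b i (c k0 - c 0)) (fun k' hk' => h0 k' (Finset.mem_range.2 (by omega)))
  have h1 := hU k0 (hk0'.trans hk)
  have h2 := hd.lk_mono hk0'
  have h3 : lk k - lk k0 ≤ (K5 + K2) * ω := by linarith only [hB, h1]
  have h4 : -(K2 * ω) ≤ G.b i (c k0 - c 0) := by linarith only [hB, h2]
  have h5 := hcd Ψ ρ x ω ε1 n lk c A X g (hs.mono hK4 hKK4) hd hlxx hne k hk k0 hk0'
  have h6 : ‖c k - c k0‖ ≤ K4 * (K5 + K2 + 1) * ω := by
    refine h5.trans ?_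
    have : K4 * (lk k - lk k0 + ω) ≤ K4 * ((K5 + K2) * ω + ω) :=
      mul_le_mul_of_nonneg_left (by linarith only [h3]) (by linarith only [hK4])
    linarith only [this]
  have h7 : -(K7 * ω) ≤ G.b i (c k - c 0) := by
    have h8 := b_sub_ge G i h6
    have h9 : G.b i (c k - c 0) = G.b i (c k) - G.b i (c k0) + G.b i (c k0 - c 0) := by
      rw [map_sub, map_sub]
      ring
    rw [h9, hK7]
    have h10 : (K2 + G.C * (K4 * (K5 + K2 + 1))) * ω =
      K2 * ω + G.C * (K4 * (K5 + K2 + 1) * ω) := by ring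
    rw [h10]
    linarith only [h8, h4]
  have h8 : ∀ j, -(K8 * ω) ≤ G.b j (c k - c 0) := by
    intro j
    have e1 : 0 ≤ K7 * ω := by positivity
    have e2 : K8 * ω = K1 * ω + K7 * ω := by rw [hK8]; ring
    by_cases hj : j = i
    · rw [hj]
      linarith only [h7, e1, e2, hK1ω]
    · have := hA k hk j hj
      linarith only [this, e1, e2, hK1ω]
  have hK8ω : 0 ≤ K8 * ω := by positivity
  have h9 : ∀ j, |G.b j (c k - c 0)| ≤ Kw * K8 * ω := by
    intro j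
    rw [abs_le]
    constructor
    · have e1 : K8 * ω ≤ Kw * K8 * ω := by
        have : 1 * (K8 * ω) ≤ Kw * (K8 * ω) := mul_le_mul_of_nonneg_right hKw hK8ω
        linarith only [this]
      linarith only [h8 j, e1]
    · have := hup (c k - c 0) j (K8 * ω) hK8ω (fun j' _ => h8 j')
      linarith only [this]
  have h10 := G.b_span (c k - c 0) (Kw * K8 * ω) (by positivity) h9
  refine h10.trans ?_
  have := mul_le_mul_of_nonneg_right hKK8 hω0
  linarith only [this]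

/-- **LOC** -/
theorem loc (G : Geo S E V ι L) (Λ C' : ℝ) : LOC G Λ C' := by
  classical
  choose K δ hK hδ hδ1 h using fun i => loc_i G Λ C' i
  rcases isEmpty_or_nonempty ι with hι | hι
  · exact ⟨1, 1, one_pos, fun Ψ i => (hι.false i).elim⟩
  obtain ⟨i1, _, hi1⟩ := Finset.exists_max_image Finset.univ K Finset.univ_nonempty
  obtain ⟨i2, _, hi2⟩ := Finset.exists_min_image Finset.univ δ Finset.univ_nonempty
  refine ⟨K i1, δ i2, hδ i2, ?_⟩
  intro Ψ i ρ x ω ε1 n lk c A X g hs hd hlx hn hε k hk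
  have hKi : K i ≤ K i1 := hi1 i (Finset.mem_univ _)
  have hx0 : 0 ≤ x := by linarith [sc_x hs, sc_ω hs]
  refine (h i Ψ ρ x ω ε1 n lk c A X g (hs.mono (hK i) hKi) hd (hlx.trans
    (mul_le_mul_of_nonneg_right (hi2 i (Finset.mem_univ _)) hx0)) hn hε k hk).trans ?_
  exact mul_le_mul_of_nonneg_right hKi (by linarith [sc_ω hs])

end Agent.P188.H428
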