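import Vale.Agent.P188.H532.Loc

/-!
P188, route B, LOC, part A: confined paths over 532's interface `Geo`.
-/

open MeasureTheory Set

namespace Agent.P188.H428

open Vale.P188.H532

variable {S E V ι L : Type} [Group S] [Group E] [MeasurableSpace E] [NormedAddCommGroup V]
    [NormedSpace ℝ V] [Fintype ι] [DecidableEq ι] [Fintype L]
    {G : Geo S E V ι L}

section basic

theorem C_pos (G : Geo S E V ι L) : 0 < G.C := lt_of_lt_of_le one_pos G.one_le_C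

theorem θ_one (G : Geo S E V ι L) : G.θ 1 = 0 := by
  have h := G.θ_mul 1 1
  rw [mul_one] at h
  simpa using h

theorem θ_inv (G : Geo S E V ι L) (g : S) : G.θ g⁻¹ = - G.θ g := by
  have h := G.θ_mul g g⁻¹
  rw [mul_inv_cancel, θ_one] at h
  exact (neg_eq_of_add_eq_zero_right h.symm).symm

theorem θ_div (G : Geo S E V ι L) (u v : S) : G.θ (u⁻¹ * v) = G.θ v - G.θ u := by
  rw [G.θ_mul, θ_inv]
  abel

theorem θ_pow (G : Geo S E V ι L) (g : S) (m : ℕ) : G.θ (g ^ m) = (m : ℝ) • G.θ g := by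
  induction m with
  | zero => simp [θ_one]
  | succ m ih =>
    rw [pow_succ, G.θ_mul, ih]
    push_cast
    rw [add_smul, one_smul]

theorem l_pow (G : Geo S E V ι L) (g : S) (m : ℕ) : G.l (g ^ m) ≤ m * G.l g := by
  induction m with
  | zero => simp [G.l_one]
  | succ m ih =>
    rw [pow_succ]
    refine (G.l_mul _ _).trans ?_
    push_cast
    linarith

theorem θΨ (G : Geo S E V ι L) (Ψ : S → S) (z : S) : G.θ (Ψ z) = Wd G Ψ z + G.θ z := by
  simp [Wd]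

theorem θ_line (G : Geo S E V ι L) (g : S) (e : E) (i : ι) (m : ℕ) :
    G.θ (g * G.inc e * G.t i ^ m) = G.θ g + (m : ℝ) • G.θ (G.t i) := by
  rw [G.θ_mul, G.θ_mul, G.θ_inc, θ_pow, add_zero]

theorem b_line (G : Geo S E V ι L) (g : S) (e : E) (i : ι) (m : ℕ) (j : ι) :
    G.b j (G.θ (g * G.inc e * G.t i ^ m)) = G.b j (G.θ g) + m * G.b j (G.θ (G.t i)) := by
  rw [θ_line, map_add, map_smul, smul_eq_mul]

theorem b_sub_le (G : Geo S E V ι L) (j : ι) {v w : V} {r : ℝ} (h : ‖v - w‖ ≤ r) :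
    G.b j v ≤ G.b j w + G.C * r := by
  have h1 := G.b_le j (v - w)
  rw [map_sub] at h1
  have h2 := (abs_le.1 h1).2
  have h3 : G.C * ‖v - w‖ ≤ G.C * r := mul_le_mul_of_nonneg_left h (C_pos G).le
  linarith

theorem b_sub_ge (G : Geo S E V ι L) (j : ι) {v w : V} {r : ℝ} (h : ‖v - w‖ ≤ r) :
    G.b j w - G.C * r ≤ G.b j v := by
  have h1 := G.b_le j (v - w)
  rw [map_sub] at h1
  have h2 := (abs_le.1 h1).1
  have h3 : G.C * ‖v - w‖ ≤ G.C * r := mul_le_mul_of_nonneg_left h (C_pos G).le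
  linarith

/-- `Ψ` is Lipschitz in the heights -/
theorem θΨ_lip {Λ : ℝ} {Ψ : S → S} (hQ : QIe G Λ Ψ) (z h : S) :
    ‖G.θ (Ψ (z * h)) - G.θ (Ψ z)‖ ≤ G.C * (Λ * (G.l h + 1)) := by
  rw [← θ_div]
  exact (G.θ_le _).trans (mul_le_mul_of_nonneg_left (hQ.lip z h) (C_pos G).le)

theorem Wd_lip {Λ : ℝ} {Ψ : S → S} (hQ : QIe G Λ Ψ) (z h : S) :
    ‖Wd G Ψ (z * h) - Wd G Ψ z‖ ≤ G.C * (Λ + 1) * (G.l h + 1) := by
  have h1 := θΨ_lip hQ z h
  have h2 : Wd G Ψ (z * h) - Wd G Ψ z = (G.θ (Ψ (z * h)) - G.θ (Ψ z)) - G.θ h := by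
    unfold Wd
    rw [G.θ_mul]
    abel
  rw [h2]
  refine (norm_sub_le _ _).trans ?_
  have h3 := G.θ_le h
  have h4 : G.C * G.l h ≤ G.C * (G.l h + 1) :=
    mul_le_mul_of_nonneg_left (by linarith) (C_pos G).le
  calc _ ≤ G.C * (Λ * (G.l h + 1)) + G.C * (G.l h + 1) := add_le_add h1 (h3.trans h4)
    _ = _ := by ring

theorem Wd_line_lip {Λ : ℝ} {Ψ : S → S} (hQ : QIe G Λ Ψ) (z : S) (i : ι) (m m' : ℕ) :
    ‖Wd G Ψ (z * G.t i ^ m) - Wd G Ψ (z * G.t i ^ m')‖ ≤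
      G.C * (Λ + 1) * (G.C * |(m : ℝ) - m'| + 1) := by
  have key : ∀ a b : ℕ, b ≤ a → ‖Wd G Ψ (z * G.t i ^ a) - Wd G Ψ (z * G.t i ^ b)‖ ≤
      G.C * (Λ + 1) * (G.C * |(a : ℝ) - b| + 1) := by
    intro a b hab
    obtain ⟨d, rfl⟩ := Nat.exists_eq_add_of_le hab
    have h := Wd_lip hQ (z * G.t i ^ b) (G.t i ^ d)
    rw [mul_assoc, ← pow_add] at h
    refine h.trans (mul_le_mul_of_nonneg_left ?_ ?_)
    · have h1 := l_pow G (G.t i) d
      have h2 : |((b + d : ℕ) : ℝ) - b| = d := by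
        push_cast
        rw [add_sub_cancel_left, abs_of_nonneg (Nat.cast_nonneg _)]
      rw [h2]
      have h3 : (d : ℝ) * G.l (G.t i) ≤ d * G.C :=
        mul_le_mul_of_nonneg_left (G.t_le i) (Nat.cast_nonneg _)
      linarith
    · have := hQ.one_le
      exact mul_nonneg (C_pos G).le (by linarith)
  rcases le_total m' m with h | h
  · exact key m m' h
  · rw [norm_sub_rev, abs_sub_comm]
    exact key m' m h

end basic

section cp

variable {A A' M M' : ℝ} {H H' : ι → ℝ} {u v w : S}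

theorem cp_mono (h : CP G A H M u v) (hA : A ≤ A') (hH : ∀ j, H j ≤ H' j) (hM : M ≤ M') :
    CP G A' H' M' u v := by
  obtain ⟨m, p, h1, h2, h3, h4, h5⟩ := h
  exact ⟨m, p, h1.trans hM, h2, h3, fun i hi => (h4 i hi).trans hA,
    fun i hi j => (h5 i hi j).trans (hH j)⟩

theorem cp_trans (h : CP G A H M u v) (h' : CP G A H M' v w) : CP G A H (M + M') u w := by
  obtain ⟨m, p, h1, h2, h3, h4, h5⟩ := h
  obtain ⟨m', p', h1', h2', h3', h4', h5'⟩ := h'
  let q : ℕ → S := fun k => if k ≤ m then p k else p' (k - m)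
  have hq1 : ∀ k, k ≤ m → q k = p k := fun k hk => by simp [q, hk]
  have hq2 : ∀ k, m ≤ k → q k = p' (k - m) := by
    intro k hk
    rcases eq_or_lt_of_le hk with h | h
    · subst h
      simp [q, h3, h2']
    · have : ¬ k ≤ m := by omega
      simp [q, this]
  refine ⟨m + m', q, ?_, ?_, ?_, ?_, ?_⟩
  · push_cast
    linarith
  · rw [hq1 0 (Nat.zero_le _), h2]
  · rw [hq2 _ (by omega), Nat.add_sub_cancel_left, h3']
  · intro k hk
    rcases lt_or_ge k m with h | h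
    · rw [hq1 k h.le, hq1 (k + 1) h]
      exact h4 k h
    · rw [hq2 k h, hq2 (k + 1) (by omega)]
      have : k + 1 - m = (k - m) + 1 := by omega
      rw [this]
      exact h4' _ (by omega)
  · intro k hk j
    rcases le_total k m with h | h
    · rw [hq1 k h]
      exact h5 k h j
    · rw [hq2 k h]
      exact h5' _ (by omega) j

theorem cp_symm (h : CP G A H M u v) : CP G A H M v u := by
  obtain ⟨m, p, h1, h2, h3, h4, h5⟩ := h
  refine ⟨m, fun k => p (m - k), h1, by simpa using h3, by simpa using h2, ?_, ?_⟩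
  · intro k hk
    have h6 : m - k = (m - (k + 1)) + 1 := by omega
    show G.l ((p (m - k))⁻¹ * p (m - (k + 1))) ≤ A
    rw [h6, ← G.l_inv]
    have h7 := h4 (m - (k + 1)) (by omega)
    have h8 : ((p (m - (k + 1) + 1))⁻¹ * p (m - (k + 1)))⁻¹ =
        (p (m - (k + 1)))⁻¹ * p (m - (k + 1) + 1) := by group
    rw [h8]
    exact h7
  · intro k hk j
    exact h5 _ (Nat.sub_le _ _) j

/-- a path `k ↦ Ψ (z * p k)` -/
theorem cp_path {Λ : ℝ} {Ψ : S → S} (hQ : QIe G Λ Ψ) (z : S) (p : ℕ → S) (m : ℕ)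
    (hp : ∀ k < m, G.l ((p k)⁻¹ * p (k + 1)) ≤ G.C)
    (hH : ∀ k ≤ m, ∀ j, G.b j (G.θ (Ψ (z * p k))) ≤ H j) :
    CP G (Λ * (G.C + 1)) H (m + 1) (Ψ (z * p 0)) (Ψ (z * p m)) := by
  refine ⟨m, fun k => Ψ (z * p k), le_rfl, rfl, rfl, ?_, hH⟩
  intro k hk
  have h1 : z * p (k + 1) = z * p k * ((p k)⁻¹ * p (k + 1)) := by group
  show G.l ((Ψ (z * p k))⁻¹ * Ψ (z * p (k + 1))) ≤ _
  rw [h1]
  refine (hQ.lip _ _).trans (mul_le_mul_of_nonneg_left ?_ (by linarith [hQ.one_le]))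
  linarith [hp k hk]

/-- the line `k ↦ Ψ (z t_i^k)` -/
theorem cp_line {Λ : ℝ} {Ψ : S → S} (hQ : QIe G Λ Ψ) (z : S) (i : ι) (m : ℕ)
    (hH : ∀ k ≤ m, ∀ j, G.b j (G.θ (Ψ (z * G.t i ^ k))) ≤ H j) :
    CP G (Λ * (G.C + 1)) H (m + 1) (Ψ z) (Ψ (z * G.t i ^ m)) := by
  have h := cp_path hQ z (fun k => G.t i ^ k) m (fun k _ => ?_) hH
  · simpa using h
  · have : (G.t i ^ k)⁻¹ * G.t i ^ (k + 1) = G.t i := by
      rw [pow_succ]
      group
    show G.l ((G.t i ^ k)⁻¹ * G.t i ^ (k + 1)) ≤ _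
    rw [this]
    exact G.t_le i

/-- short moves -/
theorem cp_short {Λ : ℝ} {Ψ : S → S} (hQ : QIe G Λ Ψ) (z h : S) (r : ℝ) (hr : G.l h ≤ r)
    (hH : ∀ j, G.b j (G.θ (Ψ z)) + G.C * (G.C * (Λ * (G.C * (r + 1) + 1))) ≤ H j) :
    CP G (Λ * (G.C + 1)) H (r + 2) (Ψ z) (Ψ (z * h)) := by
  obtain ⟨p, hp0, hp1, hp⟩ := G.l_path h
  have hC := C_pos G
  have hΛ : 0 < Λ := lt_of_lt_of_le one_pos hQ.one_le
  have hr0 : 0 ≤ r := (G.l_nonneg h).trans hr
  have hl : ∀ k, G.l (p k) ≤ G.C * k := by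
    intro k
    induction k with
    | zero => simp [hp0, G.l_one]
    | succ k ih =>
      have h1 : p (k + 1) = p k * ((p k)⁻¹ * p (k + 1)) := by group
      rw [h1]
      refine (G.l_mul _ _).trans ?_
      push_cast
      linarith [hp k]
  have hm : (⌈G.l h⌉₊ : ℝ) ≤ r + 1 :=
    (Nat.ceil_lt_add_one (G.l_nonneg h)).le.trans (by linarith)
  have h1 := cp_path (H := H) hQ z p ⌈G.l h⌉₊ (fun k _ => hp k) ?_
  · rw [hp0, hp1, mul_one] at h1
    exact cp_mono h1 le_rfl (fun _ => le_rfl) (by linarith)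
  · intro k hk j
    refine le_trans (b_sub_le G j (θΨ_lip hQ z (p k))) (le_trans ?_ (hH j))
    have h2 : G.l (p k) ≤ G.C * (r + 1) := by
      refine (hl k).trans (mul_le_mul_of_nonneg_left ?_ hC.le)
      exact (Nat.cast_le.2 hk).trans hm
    gcongr

/-- a confined path gives containment in a box -/
theorem cp_box (G : Geo S E V ι L) (A : ℝ) : ∃ K : ℝ, 0 ≤ K ∧ ∀ (H : ι → ℝ) (M : ℝ) (u v : S)
    (ρ : Option ι → ℝ), CP G A H M u v → (∀ j, 0 ≤ ρ j) →
    (∀ j : ι, H j - G.b j (G.θ u) ≤ ρ (some j)) →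
    ∃ n ∈ G.N (sh ρ (K * (1 + Real.log M))), ∃ κ ∈ G.Ca, u⁻¹ * v = G.inc n * κ := by
  obtain ⟨K, hK, hPC⟩ := G.PC A
  refine ⟨K, hK, fun H M u v ρ h hρ hH => ?_⟩
  obtain ⟨m, p, h1, h2, h3, h4, h5⟩ := h
  obtain ⟨n, hn, κ, hκ, he⟩ := hPC m p ρ hρ h4 (fun i hi j => by
    rw [θ_div, map_sub, h2]
    have := h5 i hi j
    have := hH j
    linarith)
  refine ⟨n, G.N_mono _ _ (fun j => ?_) hn, κ, hκ, by rw [← he, h2, h3]⟩
  unfold sh
  have h6 : Real.log (1 + m) ≤ Real.log M :=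
    Real.log_le_log (by positivity) (by linarith)
  have := mul_le_mul_of_nonneg_left (add_le_add_right h6 1) hK
  linarith

theorem D_one (G : Geo S E V ι L) (j : ι) : G.D j 1 = 0 := by
  have h := G.D_mul j 1 1
  have h1 : G.χ j 1 = 1 := by
    have := G.χ_inc j 1
    rwa [map_one] at this
  rw [mul_one, h1, one_mul] at h
  simpa using h

/-- the crossed homomorphism along a confined path -/
theorem cp_D (h : CP G A H M u v) (j : ι) :
    ‖G.D j (u⁻¹ * v)‖ ≤ M * (G.C * Real.exp (G.C * A)) * Real.exp (H j - G.b j (G.θ u)) := by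
  obtain ⟨m, p, h1, h2, h3, h4, h5⟩ := h
  have hC := C_pos G
  have key : ∀ k ≤ m, ‖G.D j ((p 0)⁻¹ * p k)‖ ≤
      k * (G.C * Real.exp (G.C * A)) * Real.exp (H j - G.b j (G.θ u)) := by
    intro k hk
    induction k with
    | zero => simp [D_one]
    | succ k ih =>
      have h6 : (p 0)⁻¹ * p (k + 1) = (p 0)⁻¹ * p k * ((p k)⁻¹ * p (k + 1)) := by group
      rw [h6, G.D_mul]
      refine (norm_add_le _ _).trans ?_
      rw [norm_mul, G.χ_norm, θ_div, map_sub, h2]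
      have h7 := ih (by omega)
      rw [h2] at h7
      have h8 := G.D_le j ((p k)⁻¹ * p (k + 1))
      have h9 : Real.exp (G.C * G.l ((p k)⁻¹ * p (k + 1))) ≤ Real.exp (G.C * A) :=
        Real.exp_le_exp.2 (mul_le_mul_of_nonneg_left (h4 k (by omega)) hC.le)
      have h10 : Real.exp (G.b j (G.θ (p k)) - G.b j (G.θ u)) ≤
          Real.exp (H j - G.b j (G.θ u)) :=
        Real.exp_le_exp.2 (by linarith [h5 k (by omega) j])
      have h11 : ‖G.D j ((p k)⁻¹ * p (k + 1))‖ ≤ G.C * Real.exp (G.C * A) :=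
        h8.trans (mul_le_mul_of_nonneg_left h9 hC.le)
      have h12 := mul_le_mul h10 h11 (norm_nonneg _) (Real.exp_pos _).le
      push_cast
      linarith
  have h6 := key m le_rfl
  rw [h2, h3] at h6
  refine h6.trans ?_
  have h7 : 0 ≤ G.C * Real.exp (G.C * A) := mul_nonneg hC.le (Real.exp_pos _).le
  gcongr
  linarith

end cp

end Agent.P188.H428
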