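import Vale.Agent.P188.H428.LocA

/-!
P188, route B, LOC, part B: lines, the good set, and the confined path from `a` to `a y`.
-/

open MeasureTheory Set

namespace Agent.P188.H428

open Vale.P188.H532

variable {S E V ι L : Type} [Group S] [Group E] [MeasurableSpace E] [NormedAddCommGroup V]
    [NormedSpace ℝ V] [Fintype ι] [DecidableEq ι] [Fintype L]
    {G : Geo S E V ι L}

section sc

variable {K x ω r0 : ℝ}

theorem sc_ω (h : Sc G K x ω r0) : 1 ≤ ω := h.one_le.trans h.ω_ge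

theorem sc_r0 (h : Sc G K x ω r0) : r0 + 1 ≤ ω := by
  have h1 := h.r0_le
  have h2 : 1 * (r0 + 1) ≤ K * (r0 + 1) :=
    mul_le_mul_of_nonneg_right h.one_le (by linarith [h.r0_nonneg])
  linarith

theorem sc_x (h : Sc G K x ω r0) : ω ≤ x := by
  have h1 := h.x_ge
  have h2 : 1 * ω ≤ K * ω := mul_le_mul_of_nonneg_right h.one_le (by linarith [sc_ω h])
  linarith

theorem sc_er (h : Sc G K x ω r0) {y : ℝ} (hy : y ≤ K * x) : G.er y ≤ ω := by
  have h1 := h.er_le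
  have h0 : 0 ≤ G.er (K * x) := le_trans (C_pos G).le (G.er_ge _)
  have h2 : 1 * G.er (K * x) ≤ K * G.er (K * x) := mul_le_mul_of_nonneg_right h.one_le h0
  have h3 := G.er_mono hy
  linarith

end sc

section line

variable {Λ C' : ℝ} {i : ι}

/-- the points of `A k` are typical on the whole line, up to the merging height -/
theorem line2 (G : Geo S E V ι L) (Λ C' : ℝ) (i : ι) : ∃ K : ℝ, 1 ≤ K ∧ ∀ (Ψ : S → S)
    (ρ : Option ι → ℝ) (x ω ε1 : ℝ) (n : ℕ) (lk : ℕ → ℝ) (c : ℕ → V) (A : ℕ → Set E)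
    (X : ℕ → Finset E) (g : S), Sc G K x ω (ρ none) →
    LocData G Λ Ψ i ρ x ω C' ε1 n lk c A X g → ∀ k ≤ n, ∀ e ∈ A k, ∀ m : ℕ,
    m * G.b i (G.θ (G.t i)) ≤
      ρ (some i) + lk k + G.C * ρ none + G.b i (G.θ (G.t i)) →
    ‖Wd G Ψ (g * G.inc e * G.t i ^ m) - c k‖ ≤ K * ω := by
  set β := G.b i (G.θ (G.t i)) with hβ
  have hβ0 : 0 < β := G.t_pos i
  have hC := C_pos G
  set K1 : ℝ := G.C * (|Λ| + 1) * (G.C * ((G.C + β) / β) + 1) with hK1
  have hK10 : 0 ≤ K1 := by positivity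
  refine ⟨1 + K1, by linarith, ?_⟩
  intro Ψ ρ x ω ε1 n lk c A X g hs hd k hk e he m hm
  have hω := sc_ω hs
  have hr := sc_r0 hs
  have hr0 := hs.r0_nonneg
  have hline := hd.line k hk e he i
  rw [← hβ] at hline
  simp only [bump, if_true] at hline
  rcases le_or_gt (m * β) (ρ (some i) + lk k + β) with h | h
  · refine (hline m h).trans ?_
    nlinarith
  · have hρ0 : 0 ≤ (ρ (some i) + lk k + β) / β ∨ (ρ (some i) + lk k + β) / β < 0 := le_or_gt _ _
    rcases hρ0 with hρ0 | hρ0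
    · set m' := ⌊(ρ (some i) + lk k + β) / β⌋₊ with hm'
      have h1 : (m' : ℝ) * β ≤ ρ (some i) + lk k + β := by
        have := Nat.floor_le hρ0
        rwa [← hm', le_div_iff₀ hβ0] at this
      have h2 : ρ (some i) + lk k + β < (m' + 1) * β := by
        have := Nat.lt_floor_add_one ((ρ (some i) + lk k + β) / β)
        rwa [← hm', div_lt_iff₀ hβ0] at this
      have h3 := hline m' h1
      have h4 := Wd_line_lip hd.qi (g * G.inc e) i m m'
      have h5 : |(m : ℝ) - m'| ≤ (G.C + β) / β * ω := by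
        rw [div_mul_eq_mul_div, le_div_iff₀ hβ0]
        have h6 : 0 ≤ (m : ℝ) - m' := by
          by_contra h7
          push Not at h7
          have : (m : ℝ) * β < m' * β := mul_lt_mul_of_pos_right (by linarith) hβ0
          linarith
        rw [abs_of_nonneg h6]
        nlinarith
      have hΛ : Λ ≤ |Λ| := le_abs_self _
      have hΛ1 := hd.qi.one_le
      have h6 : ‖Wd G Ψ (g * G.inc e * G.t i ^ m) - Wd G Ψ (g * G.inc e * G.t i ^ m')‖ ≤
          K1 * ω := by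
        refine h4.trans ?_
        have h7 : G.C * |(m : ℝ) - m'| + 1 ≤ (G.C * ((G.C + β) / β) + 1) * ω := by
          have := mul_le_mul_of_nonneg_left h5 hC.le
          linarith
        have h8 : 0 ≤ G.C * |(m : ℝ) - m'| + 1 := by positivity
        have h9 : G.C * (Λ + 1) ≤ G.C * (|Λ| + 1) :=
          mul_le_mul_of_nonneg_left (by linarith) hC.le
        calc _ ≤ G.C * (|Λ| + 1) * (G.C * |(m : ℝ) - m'| + 1) :=
              mul_le_mul_of_nonneg_right h9 h8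
          _ ≤ G.C * (|Λ| + 1) * ((G.C * ((G.C + β) / β) + 1) * ω) :=
              mul_le_mul_of_nonneg_left h7 (by positivity)
          _ = K1 * ω := by rw [hK1]; ring
      calc _ ≤ ‖Wd G Ψ (g * G.inc e * G.t i ^ m) - Wd G Ψ (g * G.inc e * G.t i ^ m')‖ +
            ‖Wd G Ψ (g * G.inc e * G.t i ^ m') - c k‖ := norm_sub_le_norm_sub_add_norm_sub _ _ _
        _ ≤ K1 * ω + ω := add_le_add h6 h3
        _ = _ := by ring
    · exfalso
      rw [div_lt_iff₀ hβ0, zero_mul] at hρ0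
      have h1 := hd.win i
      have h2 := G.p_lb i
      have h3 := sc_x hs
      have h4 : 0 < x := by linarith
      have h5 := (abs_le.1 h1).1
      have h6 := G.c1_pos
      have h7 := G.δ0_pos
      have h8 : 0 ≤ lk k := by
        rw [← hd.lk_zero]
        exact hd.lk_mono (Nat.zero_le _)
      nlinarith

/-- the extents are bounded by a multiple of `x` -/
theorem ext_bounds {Ψ : S → S} {ρ : Option ι → ℝ} {x ω ε1 : ℝ} {n : ℕ} {lk : ℕ → ℝ} {c : ℕ → V}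
    {A : ℕ → Set E} {X : ℕ → Finset E} {g : S} (hd : LocData G Λ Ψ i ρ x ω C' ε1 n lk c A X g)
    (hx : 0 ≤ x) (j : ι) : G.c1 * x ≤ ρ (some j) ∧ ρ (some j) ≤ G.C * x := by
  have h1 := abs_le.1 (hd.win j)
  have h2 := G.p_lb j
  have h3 := G.p_ub j
  have h4 := G.δ0_pos
  constructor <;> nlinarith [h1.1, h1.2]

/-- the good points of the box -/
def Gdp (G : Geo S E V ι L) (ρ : Option ι → ℝ) (n : ℕ) (A : ℕ → Set E) (X : ℕ → Finset E) :
    Set E :=
  {a | a ∈ G.N ρ ∧ a ∈ A 0 ∧ ∀ k ≤ n, ∃ y ∈ X k, a * y ∈ A k}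

/-- **merging** : at the merging height of `X k` the line over a good point has the constant
`c k`. -/
theorem top (G : Geo S E V ι L) (Λ C' : ℝ) (i : ι) : ∃ K : ℝ, 1 ≤ K ∧ ∀ (Ψ : S → S)
    (ρ : Option ι → ℝ) (x ω ε1 : ℝ) (n : ℕ) (lk : ℕ → ℝ) (c : ℕ → V) (A : ℕ → Set E)
    (X : ℕ → Finset E) (g : S), Sc G K x ω (ρ none) →
    LocData G Λ Ψ i ρ x ω C' ε1 n lk c A X g → lk n ≤ x → ∀ a ∈ Gdp G ρ n A X, ∀ k ≤ n,
    ∀ m : ℕ, ρ (some i) + lk k + G.C * ρ none ≤ m * G.b i (G.θ (G.t i)) →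
    m * G.b i (G.θ (G.t i)) ≤
      ρ (some i) + lk k + G.C * ρ none + G.b i (G.θ (G.t i)) →
    ‖Wd G Ψ (g * G.inc a * G.t i ^ m) - c k‖ ≤ K * ω := by
  obtain ⟨K1, hK1, hl2⟩ := line2 G Λ C' i
  set β := G.b i (G.θ (G.t i)) with hβ
  have hβ0 : 0 < β := G.t_pos i
  have hC := C_pos G
  set K2 : ℝ := G.C * (|Λ| + 1) * 2 with hK2
  have hK20 : 0 ≤ K2 := by positivity
  set K : ℝ := K1 + K2 + β + (2 * G.C + 2) / β with hK
  have h20 : 0 ≤ (2 * G.C + 2) / β := by positivity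
  have hKK1 : K1 ≤ K := by linarith
  refine ⟨K, by linarith, ?_⟩
  intro Ψ ρ x ω ε1 n lk c A X g hs hd hlx a ha k hk m hm1 hm2
  have hω := sc_ω hs
  have hr := sc_r0 hs
  have hr0 := hs.r0_nonneg
  have hωx := sc_x hs
  obtain ⟨haN, ha0, hak⟩ := ha
  obtain ⟨y, hy, hay⟩ := hak k hk
  have hlk0 : 0 ≤ lk k := by
    rw [← hd.lk_zero]
    exact hd.lk_mono (Nat.zero_le _)
  have hlkx : lk k ≤ x := (hd.lk_mono hk).trans hlx
  have hb := ext_bounds hd (by linarith) i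
  have hc1 := G.c1_pos
  have hρi : 0 ≤ ρ (some i) := by nlinarith [hb.1]
  -- merging
  have hmer := G.U_merge i (ρ (some i) + lk k) (ρ none) (by linarith) hr0 y (hd.X_U k hk y hy) m hm1
  have hmx : (m : ℝ) ≤ K * x := by
    have h1 : (m : ℝ) ≤ (2 * G.C + 2) * x / β := by
      rw [le_div_iff₀ hβ0]
      have h2 : β ≤ x := by linarith [hs.ω_ge]
      nlinarith [hb.2]
    refine h1.trans ?_
    have h3 : (2 * G.C + 2) * x / β = (2 * G.C + 2) / β * x := by ring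
    rw [h3]
    exact mul_le_mul_of_nonneg_right (by linarith) (by linarith)
  have her := sc_er hs hmx
  have h1 : ‖Wd G Ψ (g * G.inc (a * y) * G.t i ^ m) - Wd G Ψ (g * G.inc a * G.t i ^ m)‖ ≤
      K2 * ω := by
    have h2 := Wd_lip hd.qi (g * G.inc a * G.t i ^ m) ((G.t i ^ m)⁻¹ * G.inc y * G.t i ^ m)
    have h3 : g * G.inc a * G.t i ^ m * ((G.t i ^ m)⁻¹ * G.inc y * G.t i ^ m) =
        g * G.inc (a * y) * G.t i ^ m := by
      rw [map_mul]
      group
    rw [h3] at h2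
    refine h2.trans ?_
    have h4 : G.l ((G.t i ^ m)⁻¹ * G.inc y * G.t i ^ m) + 1 ≤ 2 * ω := by linarith
    have h5 : 0 ≤ G.l ((G.t i ^ m)⁻¹ * G.inc y * G.t i ^ m) + 1 := by
      linarith [G.l_nonneg ((G.t i ^ m)⁻¹ * G.inc y * G.t i ^ m)]
    have h9 : G.C * (Λ + 1) ≤ G.C * (|Λ| + 1) :=
      mul_le_mul_of_nonneg_left (by linarith [le_abs_self Λ]) hC.le
    calc _ ≤ G.C * (|Λ| + 1) * (G.l ((G.t i ^ m)⁻¹ * G.inc y * G.t i ^ m) + 1) :=
          mul_le_mul_of_nonneg_right h9 h5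
      _ ≤ G.C * (|Λ| + 1) * (2 * ω) := mul_le_mul_of_nonneg_left h4 (by positivity)
      _ = K2 * ω := by rw [hK2]; ring
  have h2 := hl2 Ψ ρ x ω ε1 n lk c A X g (hs.mono hK1 hKK1) hd k hk (a * y) hay m hm2
  calc _ ≤ ‖Wd G Ψ (g * G.inc a * G.t i ^ m) - Wd G Ψ (g * G.inc (a * y) * G.t i ^ m)‖ +
        ‖Wd G Ψ (g * G.inc (a * y) * G.t i ^ m) - c k‖ := norm_sub_le_norm_sub_add_norm_sub _ _ _
    _ ≤ K2 * ω + K1 * ω := by
        rw [norm_sub_rev (Wd G Ψ (g * G.inc a * G.t i ^ m))]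
        exact add_le_add h1 h2
    _ ≤ K * ω := by
        rw [← add_mul]
        exact mul_le_mul_of_nonneg_right (by linarith) (by linarith)

/-- the top of the line of level `k` -/
noncomputable def mt (G : Geo S E V ι L) (i : ι) (ρ : Option ι → ℝ) (l : ℝ) : ℕ :=
  ⌈(ρ (some i) + l + G.C * ρ none) / G.b i (G.θ (G.t i))⌉₊

theorem mt_ge (i : ι) (ρ : Option ι → ℝ) (l : ℝ) :
    ρ (some i) + l + G.C * ρ none ≤ mt G i ρ l * G.b i (G.θ (G.t i)) := by
  rw [← div_le_iff₀ (G.t_pos i)]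
  exact Nat.le_ceil _

theorem mt_le (i : ι) (ρ : Option ι → ℝ) (l : ℝ) (h : 0 ≤ ρ (some i) + l + G.C * ρ none) :
    mt G i ρ l * G.b i (G.θ (G.t i)) ≤
      ρ (some i) + l + G.C * ρ none + G.b i (G.θ (G.t i)) := by
  have hβ0 := G.t_pos i
  have h1 := (Nat.ceil_lt_add_one
    (div_nonneg h hβ0.le : 0 ≤ (ρ (some i) + l + G.C * ρ none) / G.b i (G.θ (G.t i)))).le
  have h2 := mul_le_mul_of_nonneg_right h1 hβ0.le
  rw [add_mul, div_mul_cancel₀ _ hβ0.ne', one_mul] at h2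
  exact h2

/-- the line over a good point, all heights up to the top -/
theorem up (G : Geo S E V ι L) (Λ C' : ℝ) (i : ι) : ∃ K : ℝ, 1 ≤ K ∧ ∀ (Ψ : S → S)
    (ρ : Option ι → ℝ) (x ω ε1 : ℝ) (n : ℕ) (lk : ℕ → ℝ) (c : ℕ → V) (A : ℕ → Set E)
    (X : ℕ → Finset E) (g : S), Sc G K x ω (ρ none) →
    LocData G Λ Ψ i ρ x ω C' ε1 n lk c A X g → lk n ≤ x → ∀ a ∈ Gdp G ρ n A X, ∀ k ≤ n,
    ∀ m : ℕ, m * G.b i (G.θ (G.t i)) ≤
      ρ (some i) + lk k + G.C * ρ none + G.b i (G.θ (G.t i)) →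
    ∃ k' ≤ k, ‖Wd G Ψ (g * G.inc a * G.t i ^ m) - c k'‖ ≤ K * ω ∧
      m * G.b i (G.θ (G.t i)) ≤ ρ (some i) + lk k' + K * ω := by
  obtain ⟨K1, hK1, hl2⟩ := line2 G Λ C' i
  obtain ⟨K3, hK3, htop⟩ := top G Λ C' i
  set β := G.b i (G.θ (G.t i)) with hβ
  have hβ0 : 0 < β := G.t_pos i
  have hC := C_pos G
  set K2 : ℝ := G.C * (|Λ| + 1) * (G.C * ((1 + β) / β) + 1) with hK2
  have hK20 : 0 ≤ K2 := by positivity
  set K : ℝ := K1 + K2 + K3 + β + G.C with hK
  refine ⟨K, by linarith, ?_⟩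
  intro Ψ ρ x ω ε1 n lk c A X g hs hd hlx a ha k hk
  have hω := sc_ω hs
  have hr := sc_r0 hs
  have hr0 := hs.r0_nonneg
  have hωx := sc_x hs
  have hb := ext_bounds hd (by linarith) i
  have hc1 := G.c1_pos
  have hρi : 0 ≤ ρ (some i) := by nlinarith [hb.1]
  have hCr : G.C * ρ none + β ≤ (G.C + β) * ω := by nlinarith
  have hKω : (G.C + β) * ω ≤ K * ω := mul_le_mul_of_nonneg_right (by linarith) (by linarith)
  induction k with
  | zero =>
    intro m hm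
    refine ⟨0, le_rfl, ?_, ?_⟩
    · have h1 := hl2 Ψ ρ x ω ε1 n lk c A X g (hs.mono hK1 (by linarith)) hd 0 hk a ha.2.1 m hm
      exact h1.trans (mul_le_mul_of_nonneg_right (by linarith) (by linarith))
    · linarith
  | succ k ih =>
    intro m hm
    rcases le_or_gt (m * β) (ρ (some i) + lk k + G.C * ρ none + β) with h | h
    · obtain ⟨k', hk', h1, h2⟩ := ih (by omega) m h
      exact ⟨k', by omega, h1, h2⟩
    · refine ⟨k + 1, le_rfl, ?_, by linarith⟩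
      have hlk0 : 0 ≤ lk (k + 1) := by
        rw [← hd.lk_zero]
        exact hd.lk_mono (Nat.zero_le _)
      have hstep := hd.lk_step k
      set m' := mt G i ρ (lk (k + 1)) with hm'
      have h1 := mt_ge (G := G) i ρ (lk (k + 1))
      have h2 := mt_le (G := G) i ρ (lk (k + 1)) (by positivity)
      rw [← hβ, ← hm'] at h1 h2
      have h3 := htop Ψ ρ x ω ε1 n lk c A X g (hs.mono hK3 (by linarith)) hd hlx a ha (k + 1) hk
        m' h1 h2
      have h4 := Wd_line_lip hd.qi (g * G.inc a) i m m'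
      have h5 : |(m : ℝ) - m'| ≤ (1 + β) / β * ω := by
        rw [div_mul_eq_mul_div, le_div_iff₀ hβ0, ← abs_of_pos hβ0, ← abs_mul, abs_of_pos hβ0,
          abs_le]
        constructor <;> nlinarith
      have h6 : ‖Wd G Ψ (g * G.inc a * G.t i ^ m) - Wd G Ψ (g * G.inc a * G.t i ^ m')‖ ≤
          K2 * ω := by
        refine h4.trans ?_
        have h7 : G.C * |(m : ℝ) - m'| + 1 ≤ (G.C * ((1 + β) / β) + 1) * ω := by
          have := mul_le_mul_of_nonneg_left h5 hC.le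
          linarith
        have h8 : 0 ≤ G.C * |(m : ℝ) - m'| + 1 := by positivity
        have h9 : G.C * (Λ + 1) ≤ G.C * (|Λ| + 1) :=
          mul_le_mul_of_nonneg_left (by linarith [le_abs_self Λ]) hC.le
        calc _ ≤ G.C * (|Λ| + 1) * (G.C * |(m : ℝ) - m'| + 1) :=
              mul_le_mul_of_nonneg_right h9 h8
          _ ≤ G.C * (|Λ| + 1) * ((G.C * ((1 + β) / β) + 1) * ω) :=
              mul_le_mul_of_nonneg_left h7 (by positivity)
          _ = K2 * ω := by rw [hK2]; ring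
      calc _ ≤ ‖Wd G Ψ (g * G.inc a * G.t i ^ m) - Wd G Ψ (g * G.inc a * G.t i ^ m')‖ +
            ‖Wd G Ψ (g * G.inc a * G.t i ^ m') - c (k + 1)‖ :=
              norm_sub_le_norm_sub_add_norm_sub _ _ _
        _ ≤ K2 * ω + K3 * ω := add_le_add h6 h3
        _ ≤ K * ω := by
            rw [← add_mul]
            exact mul_le_mul_of_nonneg_right (by linarith) (by linarith)

/-- the constants of the levels vary Lipschitz in the extent -/
theorem cdiff (G : Geo S E V ι L) (Λ C' : ℝ) (i : ι) : ∃ K : ℝ, 1 ≤ K ∧ ∀ (Ψ : S → S)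
    (ρ : Option ι → ℝ) (x ω ε1 : ℝ) (n : ℕ) (lk : ℕ → ℝ) (c : ℕ → V) (A : ℕ → Set E)
    (X : ℕ → Finset E) (g : S), Sc G K x ω (ρ none) →
    LocData G Λ Ψ i ρ x ω C' ε1 n lk c A X g → lk n ≤ x → (Gdp G ρ n A X).Nonempty →
    ∀ k ≤ n, ∀ k' ≤ k, ‖c k - c k'‖ ≤ K * (lk k - lk k' + ω) := by
  obtain ⟨K3, hK3, htop⟩ := top G Λ C' i
  set β := G.b i (G.θ (G.t i)) with hβ
  have hβ0 : 0 < β := G.t_pos i
  have hC := C_pos G
  set K2 : ℝ := G.C * (|Λ| + 1) * (G.C * ((1 + β) / β) + 1) with hK2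
  have hK20 : 0 ≤ K2 := by positivity
  set K : ℝ := 2 * K3 + K2 with hK
  refine ⟨K, by linarith, ?_⟩
  intro Ψ ρ x ω ε1 n lk c A X g hs hd hlx ⟨a, ha⟩ k hk k' hk'
  have hω := sc_ω hs
  have hr0 := hs.r0_nonneg
  have hωx := sc_x hs
  have hb := ext_bounds hd (by linarith) i
  have hc1 := G.c1_pos
  have hρi : 0 ≤ ρ (some i) := by nlinarith [hb.1]
  have hlk0 : ∀ k, 0 ≤ lk k := fun k => by
    rw [← hd.lk_zero]
    exact hd.lk_mono (Nat.zero_le _)
  have hdiff : 0 ≤ lk k - lk k' := by linarith [hd.lk_mono hk']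
  have hlk := hlk0 k
  have hlk' := hlk0 k'
  have h1 := mt_ge (G := G) i ρ (lk k)
  have h2 := mt_le (G := G) i ρ (lk k) (by positivity)
  have h1' := mt_ge (G := G) i ρ (lk k')
  have h2' := mt_le (G := G) i ρ (lk k') (by positivity)
  have h3 := htop Ψ ρ x ω ε1 n lk c A X g (hs.mono hK3 (by linarith)) hd hlx a ha k hk _ h1 h2
  have h3' := htop Ψ ρ x ω ε1 n lk c A X g (hs.mono hK3 (by linarith)) hd hlx a ha k'
    (hk'.trans hk) _ h1' h2'
  rw [← hβ] at h1 h2 h1' h2'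
  set m := mt G i ρ (lk k) with hm
  set m' := mt G i ρ (lk k') with hm'
  have h4 := Wd_line_lip hd.qi (g * G.inc a) i m m'
  have h5 : |(m : ℝ) - m'| ≤ (1 + β) / β * (lk k - lk k' + ω) := by
    rw [div_mul_eq_mul_div, le_div_iff₀ hβ0, ← abs_of_pos hβ0, ← abs_mul, abs_of_pos hβ0,
      abs_le]
    constructor <;> nlinarith
  have h6 : ‖Wd G Ψ (g * G.inc a * G.t i ^ m) - Wd G Ψ (g * G.inc a * G.t i ^ m')‖ ≤
      K2 * (lk k - lk k' + ω) := by
    refine h4.trans ?_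
    have h7 : G.C * |(m : ℝ) - m'| + 1 ≤ (G.C * ((1 + β) / β) + 1) * (lk k - lk k' + ω) := by
      have := mul_le_mul_of_nonneg_left h5 hC.le
      linarith
    have h8 : 0 ≤ G.C * |(m : ℝ) - m'| + 1 := by positivity
    have h9 : G.C * (Λ + 1) ≤ G.C * (|Λ| + 1) :=
      mul_le_mul_of_nonneg_left (by linarith [le_abs_self Λ]) hC.le
    calc _ ≤ G.C * (|Λ| + 1) * (G.C * |(m : ℝ) - m'| + 1) :=
          mul_le_mul_of_nonneg_right h9 h8
      _ ≤ G.C * (|Λ| + 1) * ((G.C * ((1 + β) / β) + 1) * (lk k - lk k' + ω)) :=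
          mul_le_mul_of_nonneg_left h7 (by positivity)
      _ = K2 * (lk k - lk k' + ω) := by rw [hK2]; ring
  have h7 : ‖c k - c k'‖ ≤ K3 * ω + K2 * (lk k - lk k' + ω) + K3 * ω := by
    have e : c k - c k' = -(Wd G Ψ (g * G.inc a * G.t i ^ m) - c k) +
        (Wd G Ψ (g * G.inc a * G.t i ^ m) - Wd G Ψ (g * G.inc a * G.t i ^ m')) +
        (Wd G Ψ (g * G.inc a * G.t i ^ m') - c k') := by abel
    rw [e]
    refine (norm_add_le _ _).trans (add_le_add ((norm_add_le _ _).trans (add_le_add ?_ h6)) h3')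
    rw [norm_neg]
    exact h3
  refine h7.trans ?_
  have h8 : K3 * ω ≤ K3 * (lk k - lk k' + ω) :=
    mul_le_mul_of_nonneg_left (by linarith) (by linarith)
  rw [hK]
  linarith

end line

end Agent.P188.H428
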