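import Vale.Agent.P188.H428.LocB

/-!
P188, route B, LOC, part C: the measure of the good set; the confined path from `a` to `a y`.
-/

open MeasureTheory Set
open scoped ENNReal

namespace Agent.P188.H428

open Vale.P188.H532

variable {S E V ι L : Type} [Group S] [Group E] [MeasurableSpace E] [NormedAddCommGroup V]
    [NormedSpace ℝ V] [Fintype ι] [DecidableEq ι] [Fintype L]
    {G : Geo S E V ι L}

section meas

variable {Λ C' : ℝ} {i : ι} {Ψ : S → S} {ρ : Option ι → ℝ} {x ω ε1 : ℝ} {n : ℕ} {lk : ℕ → ℝ}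
  {c : ℕ → V} {A : ℕ → Set E} {X : ℕ → Finset E} {g : S}

theorem X_pos (hd : LocData G Λ Ψ i ρ x ω C' ε1 n lk c A X g) {k : ℕ} (hk : k ≤ n) :
    0 < (X k).card := by
  have h1 := hd.X_card k hk
  have h2 : (0 : ℝ) < (X k).card := lt_of_lt_of_le (Real.exp_pos _) h1
  exact_mod_cast h2

theorem shift_meas (G : Geo S E V ι L) {A : Set E} (hA : MeasurableSet A) (y : E) :
    MeasurableSet {e | e * y ∈ A} := by
  have := G.ν_mm
  exact (measurable_mul_const y) hA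

/-- the points without a partner of level `k` -/
theorem bad_le (hd : LocData G Λ Ψ i ρ x ω C' ε1 n lk c A X g) (hε : 0 ≤ ε1) {k : ℕ}
    (hk : k ≤ n) :
    G.ν (G.N ρ \ {e | ∃ y ∈ X k, e * y ∈ A k}) ≤ ENNReal.ofReal ε1 * G.ν (G.N ρ) := by
  have hp := X_pos hd hk
  have h1 : ((X k).card : ℝ≥0∞) * G.ν (G.N ρ \ {e | ∃ y ∈ X k, e * y ∈ A k}) ≤
      ∑ y ∈ X k, G.ν (G.N ρ \ {e | e * y ∈ A k}) := by
    rw [← nsmul_eq_mul, ← Finset.sum_const]
    refine Finset.sum_le_sum fun y hy => measure_mono ?_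
    intro e he
    exact ⟨he.1, fun h => he.2 ⟨y, hy, h⟩⟩
  have h2 := h1.trans (hd.link k hk)
  rw [ENNReal.ofReal_mul hε, ENNReal.ofReal_natCast, mul_comm (ENNReal.ofReal ε1),
    mul_assoc] at h2
  exact (ENNReal.mul_le_mul_iff_right (by exact_mod_cast hp.ne') (ENNReal.natCast_ne_top _)).1 h2

theorem Gd_meas (hd : LocData G Λ Ψ i ρ x ω C' ε1 n lk c A X g) :
    MeasurableSet (Gdp G ρ n A X) := by
  have h : Gdp G ρ n A X = G.N ρ ∩ (A 0 ∩ ⋂ k ∈ Finset.range (n + 1), ⋃ y ∈ X k,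
      {e | e * y ∈ A k}) := by
    ext a
    simp only [Gdp, mem_ofPred_eq, mem_inter_iff, mem_iInter, mem_iUnion, Finset.mem_range,
      exists_prop]
    constructor
    · rintro ⟨h1, h2, h3⟩
      exact ⟨h1, h2, fun k hk => h3 k (by omega)⟩
    · rintro ⟨h1, h2, h3⟩
      exact ⟨h1, h2, fun k hk => h3 k (by omega)⟩
  rw [h]
  refine (G.N_meas _).inter ((hd.meas 0).inter (Finset.measurableSet_biInter _ fun k _ =>
    Finset.measurableSet_biUnion _ fun y _ => shift_meas G (hd.meas k) y))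

theorem Gd_compl (hd : LocData G Λ Ψ i ρ x ω C' ε1 n lk c A X g) (hε : 0 ≤ ε1)
    (hn : (n + 1) * ε1 ≤ 1 / 8) :
    G.ν (G.N ρ \ Gdp G ρ n A X) ≤ ENNReal.ofReal (1 / 4) * G.ν (G.N ρ) := by
  have h1 : G.N ρ \ Gdp G ρ n A X ⊆ (G.N ρ \ A 0) ∪ ⋃ k ∈ Finset.range (n + 1),
      (G.N ρ \ {e | ∃ y ∈ X k, e * y ∈ A k}) := by
    rintro a ⟨haN, ha⟩
    by_cases h0 : a ∈ A 0
    · right
      by_contra h
      simp only [mem_iUnion, Finset.mem_range, exists_prop, not_exists, not_and] at h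
      refine ha ⟨haN, h0, fun k hk => ?_⟩
      by_contra h2
      exact h k (by omega) ⟨haN, h2⟩
    · left
      exact ⟨haN, h0⟩
  calc G.ν (G.N ρ \ Gdp G ρ n A X) ≤ G.ν (G.N ρ \ A 0) + G.ν (⋃ k ∈ Finset.range (n + 1),
        (G.N ρ \ {e | ∃ y ∈ X k, e * y ∈ A k})) := (measure_mono h1).trans (measure_union_le _ _)
    _ ≤ ENNReal.ofReal (1 / 8) * G.ν (G.N ρ) + ∑ k ∈ Finset.range (n + 1),
        ENNReal.ofReal ε1 * G.ν (G.N ρ) := by
        refine add_le_add hd.h0 ((measure_biUnion_finset_le _ _).trans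
          (Finset.sum_le_sum fun k hk => bad_le hd hε ?_))
        have := Finset.mem_range.1 hk
        omega
    _ = (ENNReal.ofReal (1 / 8) + ENNReal.ofReal ((n + 1) * ε1)) * G.ν (G.N ρ) := by
        rw [Finset.sum_const, Finset.card_range, nsmul_eq_mul, add_mul, ← mul_assoc]
        congr 2
        rw [ENNReal.ofReal_mul (by positivity)]
        congr 1
        have : ((n : ℝ) + 1) = ((n + 1 : ℕ) : ℝ) := by push_cast; rfl
        rw [this, ENNReal.ofReal_natCast]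
    _ ≤ ENNReal.ofReal (1 / 4) * G.ν (G.N ρ) := by
        rw [← ENNReal.ofReal_add (by norm_num) (by positivity)]
        gcongr
        linarith

/-- most good points have their partner `a y` in `A k`, for one fixed `y ∈ X k` -/
theorem exists_y (hd : LocData G Λ Ψ i ρ x ω C' ε1 n lk c A X g) (hε : 0 ≤ ε1)
    {k : ℕ} (hk : k ≤ n) : ∃ y ∈ X k, G.ν (G.N ρ \ {e | e * y ∈ A k}) ≤
      ENNReal.ofReal ε1 * G.ν (G.N ρ) := by
  by_contra h
  push Not at h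
  have hp := X_pos hd hk
  have hne : (X k).Nonempty := Finset.card_pos.1 hp
  have h1 : ∑ _y ∈ X k, ENNReal.ofReal ε1 * G.ν (G.N ρ) <
      ∑ y ∈ X k, G.ν (G.N ρ \ {e | e * y ∈ A k}) :=
    ENNReal.sum_lt_sum_of_nonempty hne h
  have h2 := h1.trans_le (hd.link k hk)
  rw [Finset.sum_const, nsmul_eq_mul, ENNReal.ofReal_mul hε, ENNReal.ofReal_natCast,
    mul_comm (ENNReal.ofReal ε1) ((X k).card : ℝ≥0∞), mul_assoc] at h2
  exact lt_irrefl _ h2

theorem ν_split (G : Geo S E V ι L) (N A : Set E) {δ : ℝ} (hδ : 0 ≤ δ)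
    (hδ1 : δ ≤ 1) (h : G.ν (N \ A) ≤ ENNReal.ofReal δ * G.ν N) (hN : G.ν N < ⊤) :
    ENNReal.ofReal (1 - δ) * G.ν N ≤ G.ν (N ∩ A) := by
  have h1 : G.ν N ≤ G.ν (N ∩ A) + G.ν (N \ A) := by
    refine (measure_mono ?_).trans (measure_union_le _ _)
    rw [inter_union_sdiff]
  have h2 : ENNReal.ofReal (1 - δ) * G.ν N + ENNReal.ofReal δ * G.ν N = G.ν N := by
    rw [← add_mul, ← ENNReal.ofReal_add (by linarith) hδ]
    simp
  have h3 : ENNReal.ofReal (1 - δ) * G.ν N + ENNReal.ofReal δ * G.ν N ≤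
      G.ν (N ∩ A) + ENNReal.ofReal δ * G.ν N := by
    rw [h2]
    exact h1.trans (add_le_add le_rfl h)
  exact (ENNReal.add_le_add_iff_right (ENNReal.mul_ne_top ENNReal.ofReal_ne_top hN.ne)).1 h3

theorem ρ_nonneg (hd : LocData G Λ Ψ i ρ x ω C' ε1 n lk c A X g) (hx : 0 ≤ x)
    (h0 : 0 ≤ ρ none) : ∀ o, 0 ≤ ρ o := by
  intro o
  rcases o with _ | j
  · exact h0
  · have h1 := (ext_bounds hd hx j).1
    have h2 := G.c1_pos
    nlinarith

theorem Gd_nonempty (hd : LocData G Λ Ψ i ρ x ω C' ε1 n lk c A X g) (hε : 0 ≤ ε1)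
    (hn : (n + 1) * ε1 ≤ 1 / 8) (hx : 0 ≤ x) (h0 : 0 ≤ ρ none) : (Gdp G ρ n A X).Nonempty := by
  by_contra h
  rw [not_nonempty_iff_eq_empty] at h
  have h1 := Gd_compl hd hε hn
  rw [h, sdiff_empty] at h1
  have h2 := G.ν_N_pos ρ (ρ_nonneg hd hx h0)
  have h3 := G.ν_N_top ρ
  have h4 : ENNReal.ofReal (1 / 4) * G.ν (G.N ρ) < 1 * G.ν (G.N ρ) := by
    refine ENNReal.mul_lt_mul_left h2.ne' h3.ne ?_
    rw [← ENNReal.ofReal_one]
    exact (ENNReal.ofReal_lt_ofReal_iff (by norm_num)).2 (by norm_num)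
  rw [one_mul] at h4
  exact absurd h1 (not_le.2 h4)

end meas

section path

theorem height_i (G : Geo S E V ι L) {i : ι} {v c' c0 θg : V} {r r' l' Mx ρi mβ : ℝ}
    (hv : ‖v - c'‖ ≤ r) (hMx : l' + G.b i (c' - c0) ≤ Mx) (hm : mβ ≤ ρi + l' + r') :
    G.b i v + (G.b i θg + mβ) ≤ G.b i (θg + c0) + (ρi + Mx + (G.C * r + r')) := by
  have h1 := b_sub_le G i hv
  rw [map_sub] at hMx
  rw [map_add]
  linarith only [h1, hMx, hm]

theorem height_j (G : Geo S E V ι L) {j : ι} {v c' c0 θg : V} {r r2 ρj mβ : ℝ}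
    (hv : ‖v - c'‖ ≤ r) (hc : ‖c' - c0‖ ≤ r2) (hm : mβ ≤ ρj) :
    G.b j v + (G.b j θg + mβ) ≤ G.b j (θg + c0) + (ρj + (G.C * r + G.C * r2)) := by
  have h1 := b_sub_le G j hv
  have h2 := b_sub_le G j hc
  rw [map_add]
  linarith only [h1, h2, hm]

/-- the heights of a point of the line over a good point -/
theorem height (G : Geo S E V ι L) (i : ι) {K3 K4 Q Q2 K x ω δ1 : ℝ} {c : ℕ → V} {lk : ℕ → ℝ}
    {ρ : Option ι → ℝ} {Mx : ℝ} {θg v : V} {m : ℕ} {k' : ℕ} {e2 : ℝ}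
    (hω : 0 ≤ ω) (hK4 : 0 ≤ K4)
    (hv : ‖v - c k'‖ ≤ Q * ω) (hMx : lk k' + G.b i (c k' - c 0) ≤ Mx)
    (hm : m * G.b i (G.θ (G.t i)) ≤ ρ (some i) + lk k' + K3 * ω)
    (hc : ‖c k' - c 0‖ ≤ K4 * (lk k' + ω)) (hlk : lk k' ≤ δ1 * x)
    (hδ1 : G.C * K4 * δ1 ≤ G.c1 / 8) (he2 : e2 ≤ Q2 * ω)
    (hdir : ∀ j, j ≠ i → m * G.b j (G.θ (G.t i)) ≤ ρ (some j) - G.c1 * x)
    (hx : 0 ≤ x) (hK : G.C * Q + K3 + Q2 ≤ K) (hn1 : (G.C * Q + G.C * K4 + Q2) * ω ≤ G.c1 / 8 * x)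
    (j : ι) :
    G.b j v + (G.b j θg + m * G.b j (G.θ (G.t i))) + e2 ≤
      G.b j (θg + c 0) +
        if j = i then ρ (some i) + Mx + K * ω else ρ (some j) - G.c1 / 2 * x := by
  by_cases hj : j = i
  · subst hj
    rw [if_pos rfl]
    have h1 := height_i G (θg := θg) hv hMx hm
    have h2 : (G.C * Q + K3 + Q2) * ω ≤ K * ω := mul_le_mul_of_nonneg_right hK hω
    have h3 : (G.C * Q + K3 + Q2) * ω = G.C * (Q * ω) + K3 * ω + Q2 * ω := by ring
    linarith only [h1, h2, h3, he2]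
  · rw [if_neg hj]
    have h1 := height_j G (j := j) (θg := θg) hv hc (hdir j hj)
    have h2 : G.C * (K4 * (lk k' + ω)) ≤ G.c1 / 8 * x + G.C * K4 * ω := by
      have h3 : G.C * K4 * lk k' ≤ G.C * K4 * (δ1 * x) :=
        mul_le_mul_of_nonneg_left hlk (mul_nonneg (C_pos G).le hK4)
      have h4 : G.C * K4 * (δ1 * x) = G.C * K4 * δ1 * x := by ring
      have h5 : G.C * K4 * δ1 * x ≤ G.c1 / 8 * x := mul_le_mul_of_nonneg_right hδ1 hx
      have h6 : G.C * (K4 * (lk k' + ω)) = G.C * K4 * lk k' + G.C * K4 * ω := by ring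
      linarith only [h3, h4, h5, h6]
    have h3 : (G.C * Q + G.C * K4 + Q2) * ω = G.C * (Q * ω) + G.C * K4 * ω + Q2 * ω := by ring
    have h4 : 0 ≤ G.c1 * x := mul_nonneg G.c1_pos.le hx
    linarith only [h1, h2, h3, hn1, he2, h4]

/-- **the confined path from `a` to `a y`** -/
theorem pathi (G : Geo S E V ι L) (Λ C' : ℝ) (i : ι) : ∃ K δ1 : ℝ, 1 ≤ K ∧ 0 < δ1 ∧ δ1 ≤ 1 ∧
    ∀ (Ψ : S → S) (ρ : Option ι → ℝ) (x ω ε1 : ℝ) (n : ℕ) (lk : ℕ → ℝ) (c : ℕ → V)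
    (A : ℕ → Set E) (X : ℕ → Finset E) (g : S), Sc G K x ω (ρ none) →
    LocData G Λ Ψ i ρ x ω C' ε1 n lk c A X g → lk n ≤ δ1 * x →
    ∀ a ∈ Gdp G ρ n A X, ∀ k ≤ n, ∀ y ∈ X k, a * y ∈ A k → ∀ Mx : ℝ,
    (∀ k' ≤ k, lk k' + G.b i (c k' - c 0) ≤ Mx) →
    CP G (Λ * (G.C + 1)) (fun j => G.b j (G.θ g + c 0) +
      if j = i then ρ (some i) + Mx + K * ω else ρ (some j) - G.c1 / 2 * x) (K * x)
      (Ψ (g * G.inc a)) (Ψ (g * G.inc (a * y))) := by
  obtain ⟨K1, hK1, hl2⟩ := line2 G Λ C' i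
  obtain ⟨K3, hK3, hup⟩ := up G Λ C' i
  obtain ⟨K4, hK4, hcd⟩ := cdiff G Λ C' i
  have hβ0 : 0 < G.b i (G.θ (G.t i)) := G.t_pos i
  have hC := C_pos G
  have hC1 := G.one_le_C
  have hc1 := G.c1_pos
  have hδ0 := G.δ0_pos
  have hδ0' := G.δ0_le
  -- constants
  obtain ⟨Q2, hQ2⟩ : ∃ Q2 : ℝ, Q2 = G.C * (G.C * (|Λ| * (2 * G.C + 1))) := ⟨_, rfl⟩
  have hQ20 : 0 ≤ Q2 := by rw [hQ2]; positivity
  obtain ⟨δ1, hδ1⟩ : ∃ δ1 : ℝ, δ1 = min (G.δ0 / 4) (G.c1 / (8 * (G.C * K4))) := ⟨_, rfl⟩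
  have hδ1pos : 0 < δ1 := by
    rw [hδ1]
    exact lt_min (by positivity) (by positivity)
  have hδ1a : δ1 ≤ G.δ0 / 4 := by rw [hδ1]; exact min_le_left _ _
  have hδ1b : G.C * K4 * δ1 ≤ G.c1 / 8 := by
    have h1 : δ1 ≤ G.c1 / (8 * (G.C * K4)) := by rw [hδ1]; exact min_le_right _ _
    rw [le_div_iff₀ (by positivity)] at h1
    linarith only [h1]
  obtain ⟨β, hβ⟩ : ∃ β : ℝ, β = G.b i (G.θ (G.t i)) := ⟨_, rfl⟩
  rw [← hβ] at hβ0
  obtain ⟨P1, hP1⟩ : ∃ P1 : ℝ, P1 = G.C * (K1 + K3) + (K3 + G.C + β) + Q2 := ⟨_, rfl⟩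
  obtain ⟨P2, hP2⟩ : ∃ P2 : ℝ, P2 = 8 * (G.C * (K1 + K3) + G.C * K4 + Q2) / G.c1 := ⟨_, rfl⟩
  obtain ⟨P3, hP3⟩ : ∃ P3 : ℝ, P3 = 4 * (K3 + G.C + β) / G.δ0 := ⟨_, rfl⟩
  obtain ⟨P4, hP4⟩ : ∃ P4 : ℝ, P4 = (2 * G.C + 2) / β := ⟨_, rfl⟩
  have hP1' : 0 ≤ P1 := by rw [hP1]; positivity
  have hP2' : 0 ≤ P2 := by rw [hP2]; positivity
  have hP3' : 0 ≤ P3 := by rw [hP3]; positivity
  have hP4' : 0 ≤ P4 := by rw [hP4]; positivity
  obtain ⟨K, hK⟩ : ∃ K : ℝ, K = P1 + P2 + P3 + 2 * P4 + 5 + K1 + K3 + K4 + β := ⟨_, rfl⟩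
  have hKK1 : K1 ≤ K := by linarith only [hK, hP1', hP2', hP3', hP4', hK1, hK3, hK4, hβ0]
  have hKK3 : K3 ≤ K := by linarith only [hK, hP1', hP2', hP3', hP4', hK1, hK3, hK4, hβ0]
  have hKK4 : K4 ≤ K := by linarith only [hK, hP1', hP2', hP3', hP4', hK1, hK3, hK4, hβ0]
  have hKP1 : P1 ≤ K := by linarith only [hK, hP1', hP2', hP3', hP4', hK1, hK3, hK4, hβ0]
  have hKP2 : P2 ≤ K := by linarith only [hK, hP1', hP2', hP3', hP4', hK1, hK3, hK4, hβ0]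
  have hKP3 : P3 ≤ K := by linarith only [hK, hP1', hP2', hP3', hP4', hK1, hK3, hK4, hβ0]
  have hKP4 : 2 * P4 + 5 ≤ K := by linarith only [hK, hP1', hP2', hP3', hP4', hK1, hK3, hK4, hβ0]
  have hKβ : β ≤ K := by linarith only [hK, hP1', hP2', hP3', hP4', hK1, hK3, hK4, hβ0]
  refine ⟨K, δ1, by linarith only [hKK1, hK1], hδ1pos, by linarith only [hδ1a, hδ0'], ?_⟩
  intro Ψ ρ x ω ε1 n lk c A X g hs hd hlx a ha k hk y hy hay Mx hMx
  have hω := sc_ω hs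
  have hω0 : 0 ≤ ω := by linarith only [hω]
  have hr := sc_r0 hs
  have hr0 := hs.r0_nonneg
  have hωx := sc_x hs
  have hx0 : 0 < x := by linarith only [hω, hωx]
  have hb := ext_bounds hd hx0.le i
  have hρi : 0 ≤ ρ (some i) := le_trans (mul_nonneg hc1.le hx0.le) hb.1
  have hlk0 : ∀ k, 0 ≤ lk k := fun k => by
    rw [← hd.lk_zero]
    exact hd.lk_mono (Nat.zero_le _)
  have hlkk := hlk0 k
  have hlkx : ∀ k ≤ n, lk k ≤ δ1 * x := fun k hk => (hd.lk_mono hk).trans hlx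
  have hδx : δ1 * x ≤ G.δ0 / 4 * x := mul_le_mul_of_nonneg_right hδ1a hx0.le
  have hδx1 : G.δ0 * x ≤ 1 * x := mul_le_mul_of_nonneg_right hδ0' hx0.le
  have hδx0 : 0 ≤ G.δ0 * x := mul_nonneg hδ0.le hx0.le
  have hlx1 : lk n ≤ x := by linarith only [hlx, hδx, hδx1, hδx0]
  have hne : (Gdp G ρ n A X).Nonempty := ⟨a, ha⟩
  -- numerical facts
  have hxω : K * ω ≤ x := hs.x_ge
  have hn1 : (G.C * (K1 + K3) + G.C * K4 + Q2) * ω ≤ G.c1 / 8 * x := by
    have h1 : P2 * ω ≤ x := le_trans (mul_le_mul_of_nonneg_right hKP2 hω0) hxω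
    rw [hP2, div_mul_eq_mul_div, div_le_iff₀ hc1] at h1
    linarith only [h1]
  have hn2 : (K3 + G.C + β) * ω ≤ G.δ0 / 4 * x := by
    have h1 : P3 * ω ≤ x := le_trans (mul_le_mul_of_nonneg_right hKP3 hω0) hxω
    rw [hP3, div_mul_eq_mul_div, div_le_iff₀ hδ0] at h1
    linarith only [h1]
  have hCr : G.C * ρ none + β ≤ (G.C + β) * ω := by
    have h1 : G.C * ρ none ≤ G.C * ω := mul_le_mul_of_nonneg_left (by linarith only [hr]) hC.le
    have h2 : β * 1 ≤ β * ω := mul_le_mul_of_nonneg_left hω hβ0.le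
    linarith only [h1, h2]
  have hQ2' : G.C * (G.C * (Λ * (G.C * (ω + 1) + 1))) ≤ Q2 * ω := by
    have h1 : G.C * (ω + 1) + 1 ≤ (2 * G.C + 1) * ω := by nlinarith only [hω, hC]
    have h2 : 0 ≤ G.C * (ω + 1) + 1 := by positivity
    have h3 : Λ * (G.C * (ω + 1) + 1) ≤ |Λ| * ((2 * G.C + 1) * ω) :=
      mul_le_mul (le_abs_self _) h1 h2 (abs_nonneg _)
    calc _ ≤ G.C * (G.C * (|Λ| * ((2 * G.C + 1) * ω))) := by gcongr
      _ = Q2 * ω := by rw [hQ2]; ring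
  have hQ2pos : 0 ≤ G.C * (G.C * (Λ * (G.C * (ω + 1) + 1))) := by
    have := hd.qi.one_le
    positivity
  -- heights
  have hgt : ∀ (v : V) (m : ℕ) (k' : ℕ), k' ≤ k → ‖v - c k'‖ ≤ (K1 + K3) * ω →
      m * G.b i (G.θ (G.t i)) ≤ ρ (some i) + lk k' + (K3 + G.C + β) * ω → ∀ j : ι,
      G.b j v + (G.b j (G.θ g) + m * G.b j (G.θ (G.t i))) +
        G.C * (G.C * (Λ * (G.C * (ω + 1) + 1))) ≤
      G.b j (G.θ g + c 0) +
        if j = i then ρ (some i) + Mx + K * ω else ρ (some j) - G.c1 / 2 * x := by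
    intro v m k' hk' hv hm
    have hk'n : k' ≤ n := hk'.trans hk
    have h2 := hcd Ψ ρ x ω ε1 n lk c A X g (hs.mono hK4 hKK4) hd hlx1 hne k' hk'n 0
      (Nat.zero_le _)
    rw [hd.lk_zero, sub_zero] at h2
    refine height G i hω0 (by linarith only [hK4]) hv (hMx k' hk') hm h2 (hlkx k' hk'n) hδ1b hQ2'
      (fun j hj => ?_) hx0.le (by linarith only [hP1, hKP1]) hn1
    refine G.dir i j hj x ρ hx0.le (fun j' => (hd.win j').trans ?_) m ?_
    · linarith only [hδx0]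
    · have h5 := hlkx k' hk'n
      linarith only [h5, hm, hn2, hδx, hδx0]
  -- the top
  obtain ⟨mk, hmk⟩ : ∃ mk : ℕ, mk = mt G i ρ (lk k) := ⟨_, rfl⟩
  have hm1 := mt_ge (G := G) i ρ (lk k)
  have hm2 := mt_le (G := G) i ρ (lk k) (by positivity)
  rw [← hmk] at hm1 hm2
  have hm2' : mk * β ≤ ρ (some i) + lk k + G.C * ρ none + β := by rw [hβ]; exact hm2
  have hmx : (mk : ℝ) ≤ P4 * x := by
    rw [hP4, div_mul_eq_mul_div, le_div_iff₀ hβ0]
    have h2 : β ≤ x := by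
      have : β * 1 ≤ K * ω := mul_le_mul hKβ hω zero_le_one (by linarith only [hKβ, hβ0])
      linarith only [this, hxω]
    have h3 : G.C * ρ none ≤ G.C * x := mul_le_mul_of_nonneg_left
      (by linarith only [hr, hωx]) hC.le
    have h4 := hb.2
    have h5 : lk k ≤ x := (hd.lk_mono hk).trans hlx1
    linarith only [hm2', h2, h3, h4, h5]
  have hmx' : (mk : ℝ) ≤ K * x := hmx.trans (mul_le_mul_of_nonneg_right
    (by linarith only [hKP4, hP4']) hx0.le)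
  have hmle : ∀ m ≤ mk, (m : ℝ) * G.b i (G.θ (G.t i)) ≤
      ρ (some i) + lk k + G.C * ρ none + G.b i (G.θ (G.t i)) := fun m hm =>
    le_trans (mul_le_mul_of_nonneg_right (by exact_mod_cast hm) (G.t_pos i).le) hm2
  have hK3ω : K3 * ω ≤ (K3 + G.C + β) * ω :=
    mul_le_mul_of_nonneg_right (by linarith only [hC, hβ0]) hω0
  have hup' : ∀ m ≤ mk, ∀ j : ι,
      G.b j (Wd G Ψ (g * G.inc a * G.t i ^ m)) +
        (G.b j (G.θ g) + m * G.b j (G.θ (G.t i))) +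
        G.C * (G.C * (Λ * (G.C * (ω + 1) + 1))) ≤
      G.b j (G.θ g + c 0) +
        if j = i then ρ (some i) + Mx + K * ω else ρ (some j) - G.c1 / 2 * x := by
    intro m hm
    obtain ⟨k', hk', h2, h3⟩ := hup Ψ ρ x ω ε1 n lk c A X g (hs.mono hK3 hKK3) hd hlx1 a
      ha k hk m (hmle m hm)
    exact hgt _ m k' hk' (h2.trans (mul_le_mul_of_nonneg_right (by linarith only [hK1]) hω0))
      (h3.trans (by linarith only [hK3ω]))
  -- segment 1: up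
  have seg1 := cp_line hd.qi (g * G.inc a) i mk (H := fun j => G.b j (G.θ g + c 0) +
      if j = i then ρ (some i) + Mx + K * ω else ρ (some j) - G.c1 / 2 * x) (by
    intro m hm j
    rw [θΨ, map_add, b_line]
    have h4 := hup' m hm j
    linarith only [h4, hQ2pos])
  -- segment 3: up over `a y`
  have seg3 := cp_line hd.qi (g * G.inc (a * y)) i mk (H := fun j => G.b j (G.θ g + c 0) +
      if j = i then ρ (some i) + Mx + K * ω else ρ (some j) - G.c1 / 2 * x) (by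
    intro m hm j
    have h1 := hmle m hm
    have h2 := hl2 Ψ ρ x ω ε1 n lk c A X g (hs.mono hK1 hKK1) hd k hk (a * y) hay m h1
    rw [θΨ, map_add, b_line]
    have h4 := hgt (Wd G Ψ (g * G.inc (a * y) * G.t i ^ m)) m k le_rfl
      (h2.trans (mul_le_mul_of_nonneg_right (by linarith only [hK3]) hω0))
      (h1.trans (by
        have : (G.C + β) * ω ≤ (K3 + G.C + β) * ω :=
          mul_le_mul_of_nonneg_right (by linarith only [hK3]) hω0
        rw [← hβ]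
        linarith only [this, hCr])) j
    linarith only [h4, hQ2pos])
  -- segment 2: merging
  have hmer := G.U_merge i (ρ (some i) + lk k) (ρ none) (by linarith only [hρi, hlkk]) hr0 y
    (hd.X_U k hk y hy) mk hm1
  have her := sc_er hs hmx'
  have seg2 := cp_short hd.qi (g * G.inc a * G.t i ^ mk)
    ((G.t i ^ mk)⁻¹ * G.inc y * G.t i ^ mk) ω (hmer.trans her)
    (H := fun j => G.b j (G.θ g + c 0) +
      if j = i then ρ (some i) + Mx + K * ω else ρ (some j) - G.c1 / 2 * x) (by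
    intro j
    rw [θΨ, map_add, b_line]
    exact hup' mk le_rfl j)
  have h3 : g * G.inc a * G.t i ^ mk * ((G.t i ^ mk)⁻¹ * G.inc y * G.t i ^ mk) =
      g * G.inc (a * y) * G.t i ^ mk := by
    rw [map_mul]
    group
  rw [h3] at seg2
  refine cp_mono (cp_trans (cp_trans seg1 seg2) (cp_symm seg3)) le_rfl (fun _ => le_rfl) ?_
  have h4 : (2 * P4 + 5) * x ≤ K * x := mul_le_mul_of_nonneg_right hKP4 hx0.le
  linarith only [h4, hmx, hω, hωx]

end path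

end Agent.P188.H428
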