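import Vale.Agent.P188.H428.LocC

/-!
P188, route B, LOC, part D: the lower bound (A_j).
-/

open MeasureTheory Set
open scoped ENNReal

namespace Agent.P188.H428

open Vale.P188.H532

variable {S E V ι L : Type} [Group S] [Group E] [MeasurableSpace E] [NormedAddCommGroup V]
    [NormedSpace ℝ V] [Fintype ι] [DecidableEq ι] [Fintype L]
    {G : Geo S E V ι L}

/-- lower bound for the spread of `D j` (the count (L2)) -/
def LowCount (G : Geo S E V ι L) (Λ : ℝ) : Prop :=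
  ∃ K : ℝ, 1 ≤ K ∧ ∀ Ψ : S → S, QIe G Λ Ψ → ∀ (g : S) (a0 : E) (j : ι) (ρ : Option ι → ℝ)
    (s R : ℝ) (Z : Set E), (∀ o, 0 ≤ ρ o) → 0 ≤ s → 0 ≤ R →
    (∀ a ∈ Z, ∃ n ∈ G.N (sh ρ s), ∃ κ ∈ G.Ca, ‖G.θ κ‖ ≤ s ∧
      (Ψ (g * G.inc a0))⁻¹ * Ψ (g * G.inc a) = G.inc n * κ) →
    (∀ a ∈ Z, ‖G.D j ((Ψ (g * G.inc a0))⁻¹ * Ψ (g * G.inc a))‖ ≤ Real.exp R) →
    ENNReal.ofReal (1 / 2) * G.ν (G.N ρ) ≤ G.ν Z → ρ (some j) ≤ R + K * (1 + s + G.er s)

section common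

variable {Λ C' : ℝ} {i : ι} {Ψ : S → S} {ρ : Option ι → ℝ} {x ω ε1 : ℝ} {n : ℕ} {lk : ℕ → ℝ}
  {c : ℕ → V} {A : ℕ → Set E} {X : ℕ → Finset E} {g : S}

theorem lk_nonneg (hd : LocData G Λ Ψ i ρ x ω C' ε1 n lk c A X g) (k : ℕ) : 0 ≤ lk k := by
  rw [← hd.lk_zero]
  exact hd.lk_mono (Nat.zero_le _)

/-- at the base points -/
theorem W_base (hd : LocData G Λ Ψ i ρ x ω C' ε1 n lk c A X g) (hx : 0 ≤ x) {k : ℕ} (hk : k ≤ n)
    {e : E} (he : e ∈ A k) : ‖Wd G Ψ (g * G.inc e) - c k‖ ≤ ω := by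
  have h := hd.line k hk e he i 0 (by
    have h1 := (ext_bounds hd hx i).1
    have h2 := mul_nonneg G.c1_pos.le hx
    have h3 := lk_nonneg hd k
    have h4 := (G.t_pos i).le
    simp only [bump, if_true]
    push_cast
    linarith)
  simpa using h

theorem bθΨ (G : Geo S E V ι L) (Ψ : S → S) (g : S) (e : E) (j : ι) :
    G.b j (G.θ (Ψ (g * G.inc e))) = G.b j (Wd G Ψ (g * G.inc e)) + G.b j (G.θ g) := by
  rw [θΨ, map_add, G.θ_mul, G.θ_inc, add_zero]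

/-- the height of `Ψ (g e)` -/
theorem base_ge (hd : LocData G Λ Ψ i ρ x ω C' ε1 n lk c A X g) (hx : 0 ≤ x) {k : ℕ} (hk : k ≤ n)
    {e : E} (he : e ∈ A k) (j : ι) :
    G.b j (G.θ g + c k) - G.C * ω ≤ G.b j (G.θ (Ψ (g * G.inc e))) := by
  have h1 := b_sub_ge G j (W_base hd hx hk he)
  rw [bθΨ, map_add]
  linarith

theorem diff_le (hd : LocData G Λ Ψ i ρ x ω C' ε1 n lk c A X g) (hx : 0 ≤ x) {k k' : ℕ}
    (hk : k ≤ n) (hk' : k' ≤ n) {e e' : E} (he : e ∈ A k) (he' : e' ∈ A k') :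
    ‖G.θ ((Ψ (g * G.inc e))⁻¹ * Ψ (g * G.inc e')) - (c k' - c k)‖ ≤ 2 * ω := by
  have h1 := W_base hd hx hk he
  have h2 := W_base hd hx hk' he'
  rw [θ_div, θΨ G Ψ (g * G.inc e'), θΨ G Ψ (g * G.inc e), G.θ_mul g (G.inc e'),
    G.θ_mul g (G.inc e), G.θ_inc, G.θ_inc]
  have h3 : Wd G Ψ (g * G.inc e') + (G.θ g + 0) - (Wd G Ψ (g * G.inc e) + (G.θ g + 0)) -
      (c k' - c k) = (Wd G Ψ (g * G.inc e') - c k') - (Wd G Ψ (g * G.inc e) - c k) := by abel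
  rw [h3]
  refine (norm_sub_le _ _).trans ?_
  linarith

end common

/-- **containment in the box at level 0** -/
theorem box0 (G : Geo S E V ι L) (Λ C' : ℝ) (i : ι) : ∃ K : ℝ, 1 ≤ K ∧ ∀ (Ψ : S → S)
    (ρ : Option ι → ℝ) (x ω ε1 : ℝ) (n : ℕ) (lk : ℕ → ℝ) (c : ℕ → V) (A : ℕ → Set E)
    (X : ℕ → Finset E) (g : S), Sc G K x ω (ρ none) →
    LocData G Λ Ψ i ρ x ω C' ε1 n lk c A X g → ∀ a ∈ A 0, ∀ a' ∈ A 0,
    ∃ m ∈ G.N (sh ρ (K * ω)), ∃ κ ∈ G.Ca, ‖G.θ κ‖ ≤ 2 * ω ∧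
      (Ψ (g * G.inc a))⁻¹ * Ψ (g * G.inc a') = G.inc m * κ := by
  obtain ⟨Kp, hKp, hbox⟩ := cp_box G (Λ * (G.C + 1))
  have hC := C_pos G
  refine ⟨1 + G.C + 2 * Kp, by linarith, ?_⟩
  intro Ψ ρ x ω ε1 n lk c A X g hs hd a ha a' ha'
  have hω := sc_ω hs
  have hω0 : 0 ≤ ω := by linarith
  have hωx := sc_x hs
  have hx0 : 0 ≤ x := by linarith
  have hρ := ρ_nonneg hd hx0 hs.r0_nonneg
  obtain ⟨m, hm, κ, hκ, he⟩ := hbox _ _ _ _ (sh ρ ((1 + G.C) * ω))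
    (hd.conn 0 (Nat.zero_le _) a ha a' ha') (fun j => by
      unfold sh
      have := hρ j
      positivity) (fun j => by
      have h1 := base_ge hd hx0 (Nat.zero_le n) ha j
      rw [hd.lk_zero]
      have h2 : bump ρ (some i) 0 0 (some j) = ρ (some j) := by
        unfold bump
        split_ifs <;> simp
      rw [h2]
      unfold sh
      linarith)
  refine ⟨m, G.N_mono _ _ (fun j => ?_) hm, κ, hκ, ?_, he⟩
  · unfold sh
    rw [Real.log_exp]
    nlinarith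
  · have h1 := diff_le hd hx0 (Nat.zero_le n) (Nat.zero_le n) ha ha'
    rw [he, sub_self, sub_zero, G.θ_mul, G.θ_inc, zero_add] at h1
    exact h1

/-- **(A_j)** -/
theorem aj (G : Geo S E V ι L) (Λ C' : ℝ) (i : ι) (hL : LowCount G Λ) : ∃ K δ1 : ℝ, 1 ≤ K ∧
    0 < δ1 ∧ δ1 ≤ 1 ∧ ∀ (Ψ : S → S) (ρ : Option ι → ℝ) (x ω ε1 : ℝ) (n : ℕ) (lk : ℕ → ℝ)
    (c : ℕ → V) (A : ℕ → Set E) (X : ℕ → Finset E) (g : S), Sc G K x ω (ρ none) →
    LocData G Λ Ψ i ρ x ω C' ε1 n lk c A X g → lk n ≤ δ1 * x → (n + 1) * ε1 ≤ 1 / 8 → 0 ≤ ε1 →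
    ∀ k ≤ n, ∀ j, j ≠ i → -(K * ω) ≤ G.b j (c k - c 0) := by
  obtain ⟨K1, δ1, hK1, hδ1, hδ11, hpath⟩ := pathi G Λ C' i
  obtain ⟨K2, hK2, hbox⟩ := box0 G Λ C' i
  obtain ⟨K3, hK3, hlow⟩ := hL
  have hC := C_pos G
  have hC1 := G.one_le_C
  have hc1 := G.c1_pos
  -- the constant of `cp_D`
  obtain ⟨q, hq⟩ : ∃ q : ℝ, q = Real.log (3 * (G.C * Real.exp (G.C * (Λ * (G.C + 1))))) :=
    ⟨_, rfl⟩
  have hqe : Real.exp q = 3 * (G.C * Real.exp (G.C * (Λ * (G.C + 1)))) := by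
    rw [hq, Real.exp_log (by positivity)]
  obtain ⟨P, hP⟩ : ∃ P : ℝ, P = |q| + 2 + G.C := ⟨_, rfl⟩
  have hP0 : 0 ≤ P := by rw [hP]; positivity
  obtain ⟨Q, hQ⟩ : ∃ Q : ℝ, Q = K3 * (2 + (K2 + 2)) := ⟨_, rfl⟩
  have hQ0 : 0 ≤ Q := by rw [hQ]; positivity
  obtain ⟨T, hT⟩ : ∃ T : ℝ, T = 4 * (P + Q) / G.c1 := ⟨_, rfl⟩
  have hT0 : 0 ≤ T := by rw [hT]; positivity
  obtain ⟨K, hK⟩ : ∃ K : ℝ, K = K1 + K2 + P + Q + T + 2 := ⟨_, rfl⟩
  have hKK1 : K1 ≤ K := by linarith only [hK, hK1, hK2, hP0, hQ0, hT0]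
  have hKK2 : K2 + 2 ≤ K := by linarith only [hK, hK1, hK2, hP0, hQ0, hT0]
  have hKT : T + 1 ≤ K := by linarith only [hK, hK1, hK2, hP0, hQ0, hT0]
  have hKPQ : P + Q ≤ K := by linarith only [hK, hK1, hK2, hP0, hQ0, hT0]
  refine ⟨K, δ1, by linarith only [hKK1, hK1], hδ1, hδ11, ?_⟩
  intro Ψ ρ x ω ε1 n lk c A X g hs hd hlx hn hε k hk j hj
  have hω := sc_ω hs
  have hω0 : 0 ≤ ω := by linarith only [hω]
  have hωx := sc_x hs
  have hx0 : 0 < x := by linarith only [hω, hωx]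
  have hρ := ρ_nonneg hd hx0.le hs.r0_nonneg
  have hb := ext_bounds hd hx0.le j
  obtain ⟨y, hy, hyA⟩ := exists_y hd hε hk
  -- the set Z
  obtain ⟨Z, hZ⟩ : ∃ Z : Set E, Z = Gdp G ρ n A X ∩ {e | e * y ∈ A k} := ⟨_, rfl⟩
  have hε1 : ε1 ≤ 1 / 8 := by
    have : (0 : ℝ) ≤ n := Nat.cast_nonneg _
    nlinarith
  have hZc : G.ν (G.N ρ \ Z) ≤ ENNReal.ofReal (1 / 2) * G.ν (G.N ρ) := by
    calc G.ν (G.N ρ \ Z) ≤ G.ν (G.N ρ \ Gdp G ρ n A X) + G.ν (G.N ρ \ {e | e * y ∈ A k}) := by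
          refine (measure_mono ?_).trans (measure_union_le _ _)
          rintro a ⟨h1, h2⟩
          by_cases h3 : a ∈ Gdp G ρ n A X
          · right
            refine ⟨h1, fun h4 => h2 ?_⟩
            rw [hZ]
            exact ⟨h3, h4⟩
          · left
            exact ⟨h1, h3⟩
      _ ≤ ENNReal.ofReal (1 / 4) * G.ν (G.N ρ) + ENNReal.ofReal ε1 * G.ν (G.N ρ) :=
          add_le_add (Gd_compl hd hε hn) hyA
      _ ≤ ENNReal.ofReal (1 / 2) * G.ν (G.N ρ) := by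
          rw [← add_mul, ← ENNReal.ofReal_add (by norm_num) hε]
          gcongr
          linarith
  have hZN : Z ⊆ G.N ρ := by
    rw [hZ]
    exact fun a ha => ha.1.1
  have hZν : ENNReal.ofReal (1 / 2) * G.ν (G.N ρ) ≤ G.ν Z := by
    have h1 := ν_split G (G.N ρ) Z (δ := 1 / 2) (by norm_num) (by norm_num) hZc (G.ν_N_top ρ)
    rw [inter_eq_right.2 hZN] at h1
    norm_num at h1 ⊢
    exact h1
  have hZne : Z.Nonempty := by
    rw [nonempty_iff_ne_empty]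
    intro h
    rw [h, measure_empty] at hZν
    have h1 := G.ν_N_pos ρ hρ
    have h2 : 0 < ENNReal.ofReal (1 / 2) * G.ν (G.N ρ) :=
      ENNReal.mul_pos (by norm_num) h1.ne'
    exact absurd hZν (not_le.2 h2)
  obtain ⟨a0, ha0⟩ := hZne
  have hmem : ∀ a ∈ Z, a ∈ Gdp G ρ n A X ∧ a ∈ A 0 ∧ a * y ∈ A k := by
    intro a ha
    rw [hZ] at ha
    exact ⟨ha.1, ha.1.2.1, ha.2⟩
  -- the maximal height
  obtain ⟨Mx, hMx⟩ : ∃ Mx : ℝ, ∀ k' ≤ k, lk k' + G.b i (c k' - c 0) ≤ Mx := by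
    obtain ⟨k0, _, h0⟩ := Finset.exists_max_image (Finset.range (k + 1))
      (fun k' => lk k' + G.b i (c k' - c 0)) ⟨0, by simp⟩
    exact ⟨_, fun k' hk' => h0 k' (Finset.mem_range.2 (by omega))⟩
  -- heights
  obtain ⟨B, hB⟩ : ∃ B : ℝ, B = max (-(G.c1 / 2 * x)) (G.b j (c k - c 0)) := ⟨_, rfl⟩
  have hDle : ∀ a ∈ Z, ‖G.D j ((Ψ (g * G.inc a0))⁻¹ * Ψ (g * G.inc a))‖ ≤
      Real.exp (ρ (some j) + B + P * ω) := by
    intro a ha
    have p1 := hpath Ψ ρ x ω ε1 n lk c A X g (hs.mono hK1 hKK1) hd hlx a0 (hmem a0 ha0).1 k hk y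
      hy (hmem a0 ha0).2.2 Mx hMx
    have p2 := hpath Ψ ρ x ω ε1 n lk c A X g (hs.mono hK1 hKK1) hd hlx a (hmem a ha).1 k hk y
      hy (hmem a ha).2.2 Mx hMx
    have p3 := hd.conn k hk (a0 * y) (hmem a0 ha0).2.2 (a * y) (hmem a ha).2.2
    set H1 : ι → ℝ := fun j => G.b j (G.θ g + c 0) +
      if j = i then ρ (some i) + Mx + K1 * ω else ρ (some j) - G.c1 / 2 * x with hH1
    set H2 : ι → ℝ := fun j => G.b j (G.θ g + c k) + bump ρ (some i) (lk k) 0 (some j) + ω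
      with hH2
    have p1' := cp_mono (H' := fun j => max (H1 j) (H2 j)) p1 le_rfl (fun _ => le_max_left _ _)
      le_rfl
    have p2' := cp_mono (H' := fun j => max (H1 j) (H2 j)) p2 le_rfl (fun _ => le_max_left _ _)
      le_rfl
    have p3' := cp_mono (H' := fun j => max (H1 j) (H2 j)) p3 le_rfl (fun _ => le_max_right _ _)
      le_rfl
    have p := cp_D (cp_trans (cp_trans p1' p3') (cp_symm p2')) j
    refine p.trans ?_
    have h1 : K1 * x ≤ Real.exp ω := by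
      have h2 : K1 * x ≤ K * x := mul_le_mul_of_nonneg_right hKK1 hx0.le
      refine h2.trans (hs.x_exp.trans (Real.exp_le_exp.2 ?_))
      exact div_le_self hω0 (by linarith only [hKK1, hK1])
    have h2 : K1 * x + Real.exp ω + K1 * x ≤ 3 * Real.exp ω := by linarith only [h1]
    have h3 : max (H1 j) (H2 j) - G.b j (G.θ (Ψ (g * G.inc a0))) ≤
        ρ (some j) + B + (1 + G.C) * ω := by
      have h4 := base_ge hd hx0.le (Nat.zero_le n) (hmem a0 ha0).2.1 j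
      have h5 : H1 j ≤ G.b j (G.θ g + c 0) + ρ (some j) + B := by
        rw [hH1]
        simp only [if_neg hj]
        have := le_max_left (-(G.c1 / 2 * x)) (G.b j (c k - c 0))
        rw [← hB] at this
        linarith only [this]
      have h6 : H2 j ≤ G.b j (G.θ g + c 0) + ρ (some j) + B + ω := by
        rw [hH2]
        have h7 : bump ρ (some i) (lk k) 0 (some j) = ρ (some j) := by
          have : some i ≠ some j := fun h => hj (Option.some.inj h).symm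
          simp [bump, this]
        have h8 := le_max_right (-(G.c1 / 2 * x)) (G.b j (c k - c 0))
        rw [← hB, map_sub] at h8
        simp only [h7, map_add]
        linarith only [h8]
      have h7 : max (H1 j) (H2 j) ≤ G.b j (G.θ g + c 0) + ρ (some j) + B + ω :=
        max_le (by linarith only [h5, hω0]) h6
      linarith only [h4, h7]
    calc (K1 * x + Real.exp ω + K1 * x) * (G.C * Real.exp (G.C * (Λ * (G.C + 1)))) *
          Real.exp (max (H1 j) (H2 j) - G.b j (G.θ (Ψ (g * G.inc a0))))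
        ≤ (3 * Real.exp ω) * (G.C * Real.exp (G.C * (Λ * (G.C + 1)))) *
          Real.exp (ρ (some j) + B + (1 + G.C) * ω) := by
          have := Real.exp_le_exp.2 h3
          gcongr
      _ = Real.exp q * Real.exp ω * Real.exp (ρ (some j) + B + (1 + G.C) * ω) := by
          rw [hqe]; ring
      _ = Real.exp (q + ω + (ρ (some j) + B + (1 + G.C) * ω)) := by
          rw [← Real.exp_add, ← Real.exp_add]
      _ ≤ Real.exp (ρ (some j) + B + P * ω) := by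
          refine Real.exp_le_exp.2 ?_
          have h8 : q ≤ |q| * ω := (le_abs_self q).trans (by
            have := mul_le_mul_of_nonneg_left hω (abs_nonneg q)
            linarith only [this])
          rw [hP]
          linarith only [h8]
  have hkey := hlow Ψ hd.qi g a0 j ρ ((K2 + 2) * ω) (max 0 (ρ (some j) + B + P * ω)) Z hρ
    (by positivity) (le_max_left _ _) (fun a ha => by
      obtain ⟨m, hm, κ, hκ, hκ2, he⟩ := hbox Ψ ρ x ω ε1 n lk c A X g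
        (hs.mono hK2 (by linarith only [hKK2])) hd a0 (hmem a0 ha0).2.1 a (hmem a ha).2.1
      refine ⟨m, G.N_mono _ _ (fun j => ?_) hm, κ, hκ, ?_, he⟩
      · unfold sh
        linarith only [hω0]
      · nlinarith only [hκ2, hω0, hK2]) (fun a ha => (hDle a ha).trans
      (Real.exp_le_exp.2 (le_max_right _ _))) hZν
  have her : G.er ((K2 + 2) * ω) ≤ ω := sc_er hs (mul_le_mul hKK2 hωx hω0
    (by linarith only [hKK1, hK1]))
  have hkey2 : K3 * (1 + (K2 + 2) * ω + G.er ((K2 + 2) * ω)) ≤ Q * ω := by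
    have h1 : 1 + (K2 + 2) * ω + G.er ((K2 + 2) * ω) ≤ (2 + (K2 + 2)) * ω := by
      linarith only [her, hω]
    calc _ ≤ K3 * ((2 + (K2 + 2)) * ω) := mul_le_mul_of_nonneg_left h1 (by linarith only [hK3])
      _ = Q * ω := by rw [hQ]; ring
  have hxT : 4 * ((P + Q) * ω) < G.c1 * x := by
    have h1 : (T + 1) * ω ≤ x :=
      le_trans (mul_le_mul_of_nonneg_right hKT hω0) hs.x_ge
    have h2 : T * ω * G.c1 = 4 * ((P + Q) * ω) := by
      rw [hT]
      field_simp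
    have h3 : T * ω < x := by linarith only [h1, hω]
    have h4 := mul_lt_mul_of_pos_right h3 hc1
    linarith only [h2, h4]
  have hPω : 0 ≤ P * ω := by positivity
  have hQω : 0 ≤ Q * ω := by positivity
  rcases le_total (ρ (some j) + B + P * ω) 0 with h | h
  · rw [max_eq_left h] at hkey
    exfalso
    linarith only [hkey, hkey2, hb.1, hxT, hPω, hQω]
  · rw [max_eq_right h] at hkey
    have h1 : 0 ≤ B + (P + Q) * ω := by linarith only [hkey, hkey2]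
    rcases le_total (-(G.c1 / 2 * x)) (G.b j (c k - c 0)) with h2 | h2
    · rw [hB, max_eq_right h2] at h1
      have h3 : (P + Q) * ω ≤ K * ω := mul_le_mul_of_nonneg_right hKPQ hω0
      linarith only [h1, h3]
    · rw [hB, max_eq_left h2] at h1
      exfalso
      linarith only [h1, hxT, hPω, hQω]

end Agent.P188.H428
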