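import Vale.Agent.P188.H428.LocD

/-!
P188, route B, LOC, part E: the upper bound (B_i) and the end of LOC.
-/

open MeasureTheory Set
open scoped ENNReal

namespace Agent.P188.H428

open Vale.P188.H532

variable {S E V ι L : Type} [Group S] [Group E] [MeasurableSpace E] [NormedAddCommGroup V]
    [NormedSpace ℝ V] [Fintype ι] [DecidableEq ι] [Fintype L]
    {G : Geo S E V ι L}

/-- the count (L3) -/
def BumpCount (G : Geo S E V ι L) (Λ : ℝ) : Prop :=
  ∃ K δ1 : ℝ, 1 ≤ K ∧ 0 < δ1 ∧ ∀ Ψ : S → S, QIe G Λ Ψ → ∀ (g : S) (a0 : E) (i : ι) (x : ℝ)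
    (ρ : Option ι → ℝ) (s M : ℝ) (Ω : Set E),
    (∀ j, |ρ (some j) - x * G.p j| ≤ (G.δ0 / 2) * x) → 0 ≤ ρ none → 0 ≤ s → 0 ≤ M →
    M ≤ δ1 * x → K * (1 + s + ρ none + G.er x) ≤ x →
    (∀ a ∈ Ω, ∃ m1 ∈ G.N (sh ρ s), ∃ κ1 ∈ G.Ca,
      ∃ m2 ∈ G.N (sh (bump ρ (some i) M (G.c1 / 2 * x)) s), ∃ κ2 ∈ G.Ca,
      ‖G.θ κ1‖ ≤ s ∧ ‖G.θ κ2‖ ≤ δ1 * x ∧ G.b i (G.θ κ2) ≤ M + s ∧
      (Ψ (g * G.inc a0))⁻¹ * Ψ (g * G.inc a) = G.inc m1 * κ1 * (G.inc m2 * κ2)) →
    ∃ l, M ≤ l ∧ l ≤ M + K * (1 + s + G.er x) ∧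
      G.ν Ω ≤ ENNReal.ofReal (Real.exp (G.H (some i) ρ l + K * (1 + s + G.er x))) * G.ν (G.N ρ)

section vol

variable {Λ C' : ℝ} {i : ι} {Ψ : S → S} {ρ : Option ι → ℝ} {x ω ε1 : ℝ} {n : ℕ} {lk : ℕ → ℝ}
  {c : ℕ → V} {A : ℕ → Set E} {X : ℕ → Finset E} {g : S}

/-- the set of the points `a y` of level `k` -/
def Om (G : Geo S E V ι L) (ρ : Option ι → ℝ) (n : ℕ) (A : ℕ → Set E) (X : ℕ → Finset E)
    (k : ℕ) : Set E :=
  ⋃ y ∈ X k, {e | e * y⁻¹ ∈ Gdp G ρ n A X ∩ {a | a * y ∈ A k}}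

theorem Om_vol (hd : LocData G Λ Ψ i ρ x ω C' ε1 n lk c A X g) (hε : 0 ≤ ε1)
    (hn : (n + 1) * ε1 ≤ 1 / 8) {k : ℕ} (hk : k ≤ n) :
    ENNReal.ofReal ((X k).card / 2) * G.ν (G.N ρ) ≤ G.ν (Om G ρ n A X k) := by
  have hmm := G.ν_mm
  have hri := G.ν_right
  have hmeas : ∀ y, MeasurableSet (Gdp G ρ n A X ∩ {a | a * y ∈ A k}) := fun y =>
    (Gd_meas hd).inter (shift_meas G (hd.meas k) y)
  have h1 : G.ν (Om G ρ n A X k) =
      ∑ y ∈ X k, G.ν {e | e * y⁻¹ ∈ Gdp G ρ n A X ∩ {a | a * y ∈ A k}} := by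
    refine measure_biUnion_finset ?_ fun y _ => shift_meas G (hmeas y) y⁻¹
    intro y hy y' hy' hne
    refine Set.disjoint_left.2 fun e he he' => ?_
    have h2 := hd.X_dis k hk y hy y' hy' hne (e * y⁻¹) he.1.1 (e * y'⁻¹) he'.1.1
    exact h2 (by simp)
  have h2 : ∀ y, G.ν {e | e * y⁻¹ ∈ Gdp G ρ n A X ∩ {a | a * y ∈ A k}} =
      G.ν (Gdp G ρ n A X ∩ {a | a * y ∈ A k}) := fun y =>
    measure_preimage_mul_right G.ν y⁻¹ _
  rw [h1]
  have hN := G.ν_N_top ρ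
  have hGd : ENNReal.ofReal (1 - 1 / 4) * G.ν (G.N ρ) ≤ G.ν (Gdp G ρ n A X) := by
    have h3 := ν_split G (G.N ρ) (Gdp G ρ n A X) (δ := 1 / 4) (by norm_num) (by norm_num)
      (Gd_compl hd hε hn) hN
    rwa [inter_eq_right.2 (fun a ha => ha.1)] at h3
  have h3 : ∀ y, G.ν (Gdp G ρ n A X) ≤ G.ν (Gdp G ρ n A X ∩ {a | a * y ∈ A k}) +
      G.ν (G.N ρ \ {e | e * y ∈ A k}) := by
    intro y
    refine (measure_mono ?_).trans (measure_union_le _ _)
    intro a ha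
    by_cases h : a * y ∈ A k
    · left
      exact ⟨ha, h⟩
    · right
      exact ⟨ha.1, h⟩
  have h4 : ((X k).card : ℝ≥0∞) * (ENNReal.ofReal (1 - 1 / 4) * G.ν (G.N ρ)) ≤
      (∑ y ∈ X k, G.ν {e | e * y⁻¹ ∈ Gdp G ρ n A X ∩ {a | a * y ∈ A k}}) +
      ENNReal.ofReal (ε1 * (X k).card) * G.ν (G.N ρ) := by
    calc ((X k).card : ℝ≥0∞) * (ENNReal.ofReal (1 - 1 / 4) * G.ν (G.N ρ))
        = ∑ _y ∈ X k, ENNReal.ofReal (1 - 1 / 4) * G.ν (G.N ρ) := by
          rw [Finset.sum_const, nsmul_eq_mul]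
      _ ≤ ∑ y ∈ X k, (G.ν {e | e * y⁻¹ ∈ Gdp G ρ n A X ∩ {a | a * y ∈ A k}} +
          G.ν (G.N ρ \ {e | e * y ∈ A k})) := by
          refine Finset.sum_le_sum fun y _ => ?_
          rw [h2]
          exact hGd.trans (h3 y)
      _ ≤ _ := by
          rw [Finset.sum_add_distrib]
          exact add_le_add le_rfl (hd.link k hk)
  have hε1 : ε1 ≤ 1 / 8 := by
    have : (0 : ℝ) ≤ n := Nat.cast_nonneg _
    nlinarith
  have h5 : ENNReal.ofReal ((X k).card / 2) * G.ν (G.N ρ) +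
      ENNReal.ofReal (ε1 * (X k).card) * G.ν (G.N ρ) ≤
      ((X k).card : ℝ≥0∞) * (ENNReal.ofReal (1 - 1 / 4) * G.ν (G.N ρ)) := by
    rw [← mul_assoc, ← add_mul, ← ENNReal.ofReal_natCast, ← ENNReal.ofReal_mul (by positivity),
      ← ENNReal.ofReal_add (by positivity) (by positivity)]
    gcongr
    have : (0 : ℝ) ≤ (X k).card := Nat.cast_nonneg _
    nlinarith
  exact (ENNReal.add_le_add_iff_right
    (ENNReal.mul_ne_top ENNReal.ofReal_ne_top hN.ne)).1 (h5.trans h4)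

end vol

/-- **(B_i)** -/
theorem bi (G : Geo S E V ι L) (Λ C' : ℝ) (i : ι) (hB : BumpCount G Λ) : ∃ K δ1 : ℝ, 1 ≤ K ∧
    0 < δ1 ∧ δ1 ≤ 1 ∧ ∀ (Ψ : S → S) (ρ : Option ι → ℝ) (x ω ε1 : ℝ) (n : ℕ) (lk : ℕ → ℝ)
    (c : ℕ → V) (A : ℕ → Set E) (X : ℕ → Finset E) (g : S), Sc G K x ω (ρ none) →
    LocData G Λ Ψ i ρ x ω C' ε1 n lk c A X g → lk n ≤ δ1 * x → (n + 1) * ε1 ≤ 1 / 8 → 0 ≤ ε1 →
    ∀ k ≤ n, ∀ Mx : ℝ, (∀ k' ≤ k, lk k' + G.b i (c k' - c 0) ≤ Mx) →
    lk k ≤ Mx + K * ω := by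
  obtain ⟨K1, δ1, hK1, hδ1, hδ11, hpath⟩ := pathi G Λ C' i
  obtain ⟨K2, hK2, hbox⟩ := box0 G Λ C' i
  obtain ⟨K3, δ3, hK3, hδ3, hbump⟩ := hB
  obtain ⟨K4, hK4, hcd⟩ := cdiff G Λ C' i
  obtain ⟨Kp, hKp, hcpb⟩ := cp_box G (Λ * (G.C + 1))
  have hC := C_pos G
  have hC1 := G.one_le_C
  have hc1 := G.c1_pos
  -- the shift `s = Ks ω`
  obtain ⟨Ks, hKs⟩ : ∃ Ks : ℝ, Ks = K2 + K1 + 3 * G.C + 2 * Kp + 2 := ⟨_, rfl⟩
  have hKs2 : K2 ≤ Ks := by linarith only [hKs, hK1, hC, hKp]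
  have hKsp : K1 + G.C + 2 * Kp ≤ Ks := by linarith only [hKs, hK2, hC, hKp]
  have hKs3 : 2 * G.C ≤ Ks := by linarith only [hKs, hK2, hC, hKp, hK1]
  have hKs4 : 2 ≤ Ks := by linarith only [hKs, hK2, hC, hKp, hK1]
  obtain ⟨δ, hδ⟩ : ∃ δ : ℝ, δ = min δ1 (min δ3 (δ3 / (4 * K4))) := ⟨_, rfl⟩
  have hδ0 : 0 < δ := by
    rw [hδ]
    exact lt_min hδ1 (lt_min hδ3 (by positivity))
  have hδa : δ ≤ δ1 := by rw [hδ]; exact min_le_left _ _
  have hδb : δ ≤ δ3 := by rw [hδ]; exact (min_le_right _ _).trans (min_le_left _ _)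
  have hδc : K4 * δ ≤ δ3 / 4 := by
    have h1 : δ ≤ δ3 / (4 * K4) := by
      rw [hδ]; exact (min_le_right _ _).trans (min_le_right _ _)
    rw [le_div_iff₀ (by positivity)] at h1
    linarith only [h1]
  obtain ⟨P, hP⟩ : ∃ P : ℝ, P = K3 * (1 + Ks + 1) := ⟨_, rfl⟩
  have hP0 : 0 ≤ P := by rw [hP]; positivity
  obtain ⟨Q, hQ⟩ : ∃ Q : ℝ, Q = G.C * (|C'| + 1 + P + G.C) := ⟨_, rfl⟩
  have hQ0 : 0 ≤ Q := by rw [hQ]; positivity
  obtain ⟨R, hR⟩ : ∃ R : ℝ, R = 4 * (K4 + 2) / δ3 := ⟨_, rfl⟩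
  have hR0 : 0 ≤ R := by rw [hR]; positivity
  obtain ⟨K, hK⟩ : ∃ K : ℝ, K = K1 + K2 + K4 + P + K3 + Q + R + 1 := ⟨_, rfl⟩
  have hKK1 : K1 ≤ K := by linarith only [hK, hK1, hK2, hK3, hK4, hP0, hQ0, hR0]
  have hKK2 : K2 ≤ K := by linarith only [hK, hK1, hK2, hK3, hK4, hP0, hQ0, hR0]
  have hKK4 : K4 ≤ K := by linarith only [hK, hK1, hK2, hK3, hK4, hP0, hQ0, hR0]
  have hKP3 : P + K3 ≤ K := by linarith only [hK, hK1, hK2, hK3, hK4, hP0, hQ0, hR0]
  have hKPQ : P + Q ≤ K := by linarith only [hK, hK1, hK2, hK3, hK4, hP0, hQ0, hR0]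
  have hKR : R ≤ K := by linarith only [hK, hK1, hK2, hK3, hK4, hP0, hQ0, hR0]
  have hK1' : 1 ≤ K := by linarith only [hKK1, hK1]
  refine ⟨K, δ, hK1', hδ0, hδa.trans hδ11, ?_⟩
  intro Ψ ρ x ω ε1 n lk c A X g hs hd hlx hn hε k hk Mx hMx
  have hω := sc_ω hs
  have hω0 : 0 ≤ ω := by linarith only [hω]
  have hωx := sc_x hs
  have hx0 : 0 < x := by linarith only [hω, hωx]
  have hρ := ρ_nonneg hd hx0.le hs.r0_nonneg
  have hKω : 0 ≤ K * ω := by positivity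
  rcases le_or_gt (lk k) Mx with hMk | hMk
  · linarith only [hMk, hKω]
  have hMx0 : 0 ≤ Mx := by
    have h1 := hMx 0 (Nat.zero_le _)
    rw [hd.lk_zero, sub_self, map_zero] at h1
    linarith only [h1]
  have hlkk := lk_nonneg hd k
  have hlkx : lk k ≤ δ * x := (hd.lk_mono hk).trans hlx
  have hlx1 : lk n ≤ x := hlx.trans (by
    have := mul_le_mul_of_nonneg_right (hδa.trans hδ11) hx0.le
    linarith only [this])
  have hlxa : lk n ≤ δ1 * x := hlx.trans (mul_le_mul_of_nonneg_right hδa hx0.le)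
  have hne := Gd_nonempty hd hε hn hx0.le hs.r0_nonneg
  obtain ⟨a0, ha0⟩ := hne
  have hcdk := hcd Ψ ρ x ω ε1 n lk c A X g (hs.mono hK4 hKK4) hd hlx1 ⟨a0, ha0⟩ k hk 0
    (Nat.zero_le _)
  rw [hd.lk_zero, sub_zero] at hcdk
  have her : G.er x ≤ ω := sc_er hs (by
    have := mul_le_mul_of_nonneg_right hK1' hx0.le
    linarith only [this])
  have hs0 : 0 ≤ Ks * ω := by positivity
  have hPω : K3 * (1 + Ks * ω + G.er x) ≤ P * ω := by
    have h1 : 1 + Ks * ω + G.er x ≤ (1 + Ks + 1) * ω := by linarith only [her, hω]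
    calc _ ≤ K3 * ((1 + Ks + 1) * ω) := mul_le_mul_of_nonneg_left h1 (by linarith only [hK3])
      _ = P * ω := by rw [hP]; ring
  have hKxω : K * ω ≤ x := hs.x_ge
  have hlogK : Real.log (K1 * x) ≤ ω := by
    have h1 : K1 * x ≤ Real.exp ω := by
      have h2 : K1 * x ≤ K * x := mul_le_mul_of_nonneg_right hKK1 hx0.le
      refine h2.trans (hs.x_exp.trans (Real.exp_le_exp.2 ?_))
      exact div_le_self hω0 hK1'
    rw [Real.log_le_iff_le_exp (by positivity)]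
    exact h1
  obtain ⟨l, hl1, hl2, hl3⟩ := hbump Ψ hd.qi g a0 i x ρ (Ks * ω) Mx (Om G ρ n A X k) hd.win
    hs.r0_nonneg hs0 hMx0
    (by
      have := mul_le_mul_of_nonneg_right hδb hx0.le
      linarith only [this, hMk, hlkx])
    (by
      have h1 : K3 * (1 + Ks * ω + ρ none + G.er x) = K3 * (1 + Ks * ω + G.er x) +
        K3 * ρ none := by ring
      have h2 : K3 * ρ none ≤ K3 * ω :=
        mul_le_mul_of_nonneg_left (by linarith only [sc_r0 hs]) (by linarith only [hK3])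
      have h3 : (P + K3) * ω ≤ K * ω := mul_le_mul_of_nonneg_right hKP3 hω0
      rw [h1]
      linarith only [h2, h3, hPω, hKxω])
    (by
      intro e he
      simp only [Om, mem_iUnion] at he
      obtain ⟨y, hy, he⟩ := he
      obtain ⟨ha, haA⟩ := he
      obtain ⟨a, haa⟩ : ∃ a, a = e * y⁻¹ := ⟨_, rfl⟩
      rw [← haa] at ha haA
      have hey : e = a * y := by rw [haa]; simp
      rw [hey]
      obtain ⟨m1, hm1, κ1, hκ1, hκ1', he1⟩ := hbox Ψ ρ x ω ε1 n lk c A X g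
        (hs.mono hK2 hKK2) hd a0 ha0.2.1 a ha.2.1
      have p := hpath Ψ ρ x ω ε1 n lk c A X g (hs.mono hK1 hKK1) hd hlxa a ha k hk y hy haA Mx
        hMx
      have hbe := fun j => base_ge hd hx0.le (Nat.zero_le n) ha.2.1 j
      obtain ⟨m2, hm2, κ2, hκ2, he2⟩ := hcpb _ _ _ _
        (sh2 (bump ρ (some i) Mx (G.c1 / 2 * x)) (K1 * ω + G.C * ω) 0) p (fun j => by
          rcases j with _ | j
          · simp only [sh2, bump]
            simpa using hρ none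
          · simp only [sh2, bump]
            have h1 := ext_bounds hd hx0.le j
            have h2 : 0 ≤ K1 * ω + G.C * ω := by positivity
            have h3 : 0 ≤ G.c1 * x := by positivity
            split_ifs
            · linarith only [h1.1, h2, h3, hMx0]
            · linarith only [h1.1, h2, h3]) (fun j => by
          have h1 := hbe j
          simp only [sh2, bump, Option.some.injEq]
          by_cases hj : j = i
          · subst hj
            simp only [if_true]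
            linarith only [h1]
          · have hj' : ¬ i = j := fun h => hj h.symm
            simp only [if_neg hj, if_neg hj']
            have h2 : 0 ≤ K1 * ω := by positivity
            linarith only [h1, h2])
      refine ⟨m1, G.N_mono _ _ (fun j => ?_) hm1, κ1, hκ1, m2, G.N_mono _ _ (fun j => ?_) hm2,
        κ2, hκ2, ?_, ?_, ?_, ?_⟩
      · unfold sh
        have := mul_le_mul_of_nonneg_right hKs2 hω0
        linarith only [this]
      · have h1 : Kp * (1 + Real.log (K1 * x)) ≤ 2 * Kp * ω := by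
          have : Kp * (1 + Real.log (K1 * x)) ≤ Kp * (2 * ω) :=
            mul_le_mul_of_nonneg_left (by linarith only [hlogK, hω]) hKp
          linarith only [this]
        have h2 := mul_le_mul_of_nonneg_right hKsp hω0
        have h3 : 0 ≤ K1 * ω := by positivity
        have h4 : 0 ≤ G.C * ω := by positivity
        rcases j with _ | j
        · simp only [sh, sh2]
          linarith only [h1, h2, h3, h4]
        · simp only [sh, sh2]
          linarith only [h1, h2]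
      · refine hκ1'.trans ?_
        exact mul_le_mul_of_nonneg_right hKs4 hω0
      · have h1 := diff_le hd hx0.le (Nat.zero_le n) hk ha.2.1 haA
        rw [he2, G.θ_mul, G.θ_inc, zero_add] at h1
        have h2 : ‖G.θ κ2‖ ≤ ‖G.θ κ2 - (c k - c 0)‖ + ‖c k - c 0‖ := by
          have := norm_add_le (G.θ κ2 - (c k - c 0)) (c k - c 0)
          rwa [sub_add_cancel] at this
        have h3 : K4 * lk k ≤ K4 * (δ * x) :=
          mul_le_mul_of_nonneg_left hlkx (by linarith only [hK4])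
        have h4 : K4 * (δ * x) ≤ δ3 / 4 * x := by
          have := mul_le_mul_of_nonneg_right hδc hx0.le
          linarith only [this]
        have h5 : (K4 + 2) * ω ≤ δ3 / 4 * x := by
          have h6 : R * ω ≤ x := le_trans (mul_le_mul_of_nonneg_right hKR hω0) hKxω
          rw [hR, div_mul_eq_mul_div, div_le_iff₀ hδ3] at h6
          linarith only [h6]
        have h7 : 0 ≤ δ3 * x := by positivity
        linarith only [h1, h2, h3, h4, h5, hcdk, h7]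
      · have h1 := diff_le hd hx0.le (Nat.zero_le n) hk ha.2.1 haA
        rw [he2, G.θ_mul, G.θ_inc, zero_add] at h1
        have h2 := b_sub_le G i h1
        have h3 := hMx k le_rfl
        have h4 := mul_le_mul_of_nonneg_right hKs3 hω0
        linarith only [h2, h3, h4, hlkk]
      · have : (Ψ (g * G.inc a0))⁻¹ * Ψ (g * G.inc (a * y)) =
            ((Ψ (g * G.inc a0))⁻¹ * Ψ (g * G.inc a)) *
            ((Ψ (g * G.inc a))⁻¹ * Ψ (g * G.inc (a * y))) := by group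
        rw [this, he1, he2])
  -- comparison of the volumes
  have hv := (Om_vol hd hε hn hk).trans hl3
  have hN0 := G.ν_N_pos ρ hρ
  have hNt := G.ν_N_top ρ
  have hv2 : ENNReal.ofReal ((X k).card / 2) ≤
      ENNReal.ofReal (Real.exp (G.H (some i) ρ l + K3 * (1 + Ks * ω + G.er x))) :=
    (ENNReal.mul_le_mul_iff_left hN0.ne' hNt.ne).1 hv
  rw [ENNReal.ofReal_le_ofReal_iff (Real.exp_pos _).le] at hv2
  have hXc := hd.X_card k hk
  have h2e : Real.exp (G.H (some i) ρ (lk k) - C' - 1) ≤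
      Real.exp (G.H (some i) ρ l + K3 * (1 + Ks * ω + G.er x)) := by
    refine le_trans ?_ hv2
    rw [Real.exp_sub]
    have h1 : (2 : ℝ) ≤ Real.exp 1 := by
      have := Real.add_one_le_exp (1 : ℝ)
      linarith only [this]
    have h3 : Real.exp (G.H (some i) ρ (lk k) - C') / Real.exp 1 ≤
        Real.exp (G.H (some i) ρ (lk k) - C') / 2 :=
      div_le_div_of_nonneg_left (Real.exp_pos _).le (by norm_num) h1
    linarith only [h3, hXc]
  have h3 := Real.exp_le_exp.1 h2e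
  have hfin : K3 * (1 + Ks * ω + G.er x) ≤ P * ω := hPω
  rcases le_total (lk k) l with h4 | h4
  · have h5 : P * ω ≤ K * ω := mul_le_mul_of_nonneg_right (by linarith only [hKPQ, hQ0]) hω0
    linarith only [h4, hl2, hfin, h5]
  · have hgr := G.H_grow i ρ (lk k) l hρ (by linarith only [hl1, hMx0]) h4
    have h5 : (lk k - l) / G.C ≤ G.C + |C'| + 1 + P * ω := by
      have := le_abs_self C'
      linarith only [hgr, h3, hfin, this]
    rw [div_le_iff₀ hC] at h5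
    have h6 : (G.C + |C'| + 1 + P * ω) * G.C ≤ Q * ω := by
      have h7 : (G.C + |C'| + 1) * 1 ≤ (G.C + |C'| + 1) * ω :=
        mul_le_mul_of_nonneg_left hω (by positivity)
      have h8 : (G.C + |C'| + 1 + P * ω) ≤ (|C'| + 1 + P + G.C) * ω := by linarith only [h7]
      calc _ ≤ (|C'| + 1 + P + G.C) * ω * G.C := mul_le_mul_of_nonneg_right h8 hC.le
        _ = Q * ω := by rw [hQ]; ring
    have h7 : (P + Q) * ω ≤ K * ω := mul_le_mul_of_nonneg_right hKPQ hω0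
    linarith only [h5, h6, h7, hl2, hfin]

end Agent.P188.H428
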