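import Vale.Agent.P188.H428.Op
import Mathlib.Analysis.SpecialFunctions.Pow.Real
import Mathlib.Analysis.Normed.Group.Basic

/-!
# Exponentially rare large displacements along random chains
-/

set_option linter.unusedSectionVars false

namespace Agent.P188.H428

open Finset

variable {G : Type*} [Group G] [DecidableEq G]
variable {E : Type*} [NormedAddCommGroup E]

/-- `Q` is almost invariant under right translations by elements of length `≤ r`. -/
def Fol (l : G → ℕ) (Q : Finset G) (r : ℕ) (φ : ℝ) : Prop :=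
  ∀ y, l y ≤ r → (((Q.image fun z => z * y) \ Q).card : ℝ) ≤ φ * Q.card

open Classical in
/-- number of points of `Q` where right translation by `x` moves `W` by more than `τ`. -/
noncomputable def devi (W : G → E) (Q : Finset G) (τ : ℝ) (x : G) : ℕ :=
  (Q.filter fun z => τ < ‖W (z * x) - W z‖).card

/-- number of bad events along a chain. -/
def cost (bd : G → G → ℕ) : (J : ℕ) → (Fin J → G) → (Fin J → G × G) → G → ℕ
  | 0, _, _, _ => 0
  | J + 1, g, ω, z => bd (z * (ω 0).1⁻¹) (ω 0).1 + bd (z * (ω 0).1⁻¹) ((ω 0).2 * g 0) +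
      cost bd J (Fin.tail g) (Fin.tail ω) (z * (ω 0).1⁻¹ * ((ω 0).2 * g 0))

lemma wt_eq_pow (bd : G → G → ℕ) (t : ℝ) (J : ℕ) (g : Fin J → G) (ω : Fin J → G × G) (z : G) :
    wt (fun Y h => t ^ bd Y h) J g ω z = t ^ cost bd J g ω z := by
  induction J generalizing z with
  | zero => simp [wt, cost]
  | succ J ih =>
    simp only [wt, cost]
    rw [ih, pow_add, pow_add]

lemma disp_le (W : G → E) (c : G → E) (bd : G → G → ℕ) (α D : ℝ)
    (hbd : ∀ Y h, bd Y h = 0 → ‖W (Y * h) - c Y‖ ≤ α) (hα : 0 ≤ α) (hD : 0 ≤ D)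
    (A' A : Finset G) (J : ℕ) (g : Fin J → G)
    (hW : ∀ i, ∀ n' ∈ A', ∀ n ∈ A, ∀ z, ‖W (z * (n'⁻¹ * (n * g i))) - W z‖ ≤ D)
    (ω : Fin J → G × G) (hω : ω ∈ noise A' A J) (z : G) :
    ‖W (z * out J g ω) - W z‖ ≤ 2 * α * J + D * cost bd J g ω z := by
  induction J generalizing z with
  | zero => simp [out, cost]
  | succ J ih =>
    rw [mem_noise] at hω
    have h0 := hω 0
    set z' : G := z * (ω 0).1⁻¹ * ((ω 0).2 * g 0) with hz'
    have h1 := ih (Fin.tail g) (fun i => hW i.succ) (Fin.tail ω)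
      (by rw [mem_noise]; exact fun i => hω i.succ) z'
    have h2 : z * out (J + 1) g ω = z' * out J (Fin.tail g) (Fin.tail ω) := by
      simp only [out, hz']; group
    have h3 : ‖W z' - W z‖ ≤ 2 * α + D * (bd (z * (ω 0).1⁻¹) (ω 0).1 +
        bd (z * (ω 0).1⁻¹) ((ω 0).2 * g 0) : ℕ) := by
      by_cases hb : bd (z * (ω 0).1⁻¹) (ω 0).1 + bd (z * (ω 0).1⁻¹) ((ω 0).2 * g 0) = 0
      · have hb1 : bd (z * (ω 0).1⁻¹) (ω 0).1 = 0 := by omega
        have hb2 : bd (z * (ω 0).1⁻¹) ((ω 0).2 * g 0) = 0 := by omega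
        have e1 := hbd _ _ hb1
        have e2 := hbd _ _ hb2
        rw [inv_mul_cancel_right] at e1
        rw [hb]
        calc ‖W z' - W z‖ = ‖(W z' - c (z * (ω 0).1⁻¹)) - (W z - c (z * (ω 0).1⁻¹))‖ := by
              congr 1; abel
          _ ≤ ‖W z' - c (z * (ω 0).1⁻¹)‖ + ‖W z - c (z * (ω 0).1⁻¹)‖ := norm_sub_le _ _
          _ ≤ α + α := add_le_add e2 e1
          _ = 2 * α + D * (0 : ℕ) := by push_cast; ring
      · have hb1 : 1 ≤ bd (z * (ω 0).1⁻¹) (ω 0).1 + bd (z * (ω 0).1⁻¹) ((ω 0).2 * g 0) := by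
          omega
        have e1 := hW 0 _ h0.1 _ h0.2 z
        rw [← mul_assoc] at e1
        have hb2 : (1 : ℝ) ≤ (bd (z * (ω 0).1⁻¹) (ω 0).1 +
            bd (z * (ω 0).1⁻¹) ((ω 0).2 * g 0) : ℕ) := by exact_mod_cast hb1
        calc ‖W z' - W z‖ ≤ D := e1
          _ = D * 1 := (mul_one D).symm
          _ ≤ D * (bd (z * (ω 0).1⁻¹) (ω 0).1 +
            bd (z * (ω 0).1⁻¹) ((ω 0).2 * g 0) : ℕ) := mul_le_mul_of_nonneg_left hb2 hD
          _ ≤ _ := by linarith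
    rw [h2]
    calc ‖W (z' * out J (Fin.tail g) (Fin.tail ω)) - W z‖
        = ‖(W (z' * out J (Fin.tail g) (Fin.tail ω)) - W z') + (W z' - W z)‖ := by
          congr 1; abel
      _ ≤ ‖W (z' * out J (Fin.tail g) (Fin.tail ω)) - W z'‖ + ‖W z' - W z‖ := norm_add_le _ _
      _ ≤ (2 * α * J + D * cost bd J (Fin.tail g) (Fin.tail ω) z') + (2 * α + D *
          (bd (z * (ω 0).1⁻¹) (ω 0).1 + bd (z * (ω 0).1⁻¹) ((ω 0).2 * g 0) : ℕ)) :=
          add_le_add h1 h3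
      _ = 2 * α * (J + 1 : ℕ) + D * cost bd (J + 1) g ω z := by
          simp only [cost, hz']; push_cast; ring

lemma len_out_le (l : G → ℕ) (h1 : l 1 = 0) (hmul : ∀ x y, l (x * y) ≤ l x + l y)
    (A' A : Finset G) (J : ℕ) (g : Fin J → G) (Λ : ℕ)
    (hl : ∀ i, ∀ n' ∈ A', ∀ n ∈ A, l (n'⁻¹ * (n * g i)) ≤ Λ)
    (ω : Fin J → G × G) (hω : ω ∈ noise A' A J) : l (out J g ω) ≤ Λ * J := by
  induction J with
  | zero => simp [out, h1]
  | succ J ih =>
    rw [mem_noise] at hω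
    have h2 := ih (Fin.tail g) (fun i => hl i.succ) (Fin.tail ω)
      (by rw [mem_noise]; exact fun i => hω i.succ)
    have h3 := hl 0 _ (hω 0).1 _ (hω 0).2
    simp only [out]
    calc l ((ω 0).1⁻¹ * ((ω 0).2 * g 0) * out J (Fin.tail g) (Fin.tail ω))
        ≤ l ((ω 0).1⁻¹ * ((ω 0).2 * g 0)) + l (out J (Fin.tail g) (Fin.tail ω)) := hmul _ _
      _ ≤ Λ + Λ * J := add_le_add h3 h2
      _ = Λ * (J + 1) := by ring

/-- cardinality of the set of endpoints of chains started in a Foelner set. -/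
lemma card_endpoints (l : G → ℕ) (Q : Finset G) (r : ℕ) (φ : ℝ) (hQ : Fol l Q r φ)
    (T : Finset G) (hT : ∀ y ∈ T, l y ≤ r) (hφ : (T.card : ℝ) * φ ≤ 1) :
    ((Q ∪ T.biUnion fun y => (Q.image fun z => z * y) \ Q).card : ℝ) ≤ 2 * Q.card := by
  have h1 : ((Q ∪ T.biUnion fun y => (Q.image fun z => z * y) \ Q).card : ℝ)
      ≤ Q.card + (T.biUnion fun y => (Q.image fun z => z * y) \ Q).card := by
    exact_mod_cast Finset.card_union_le _ _
  have h2 : ((T.biUnion fun y => (Q.image fun z => z * y) \ Q).card : ℝ)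
      ≤ ∑ y ∈ T, (((Q.image fun z => z * y) \ Q).card : ℝ) := by
    exact_mod_cast Finset.card_biUnion_le
  have h3 : ∑ y ∈ T, (((Q.image fun z => z * y) \ Q).card : ℝ) ≤ ∑ _y ∈ T, φ * Q.card :=
    Finset.sum_le_sum fun y hy => hQ y (hT y hy)
  rw [Finset.sum_const, nsmul_eq_mul] at h3
  have h4 : (T.card : ℝ) * (φ * Q.card) ≤ 1 * Q.card := by
    rw [← mul_assoc]
    exact mul_le_mul_of_nonneg_right hφ (Nat.cast_nonneg _)
  linarith

/-- First moment bound. -/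
lemma sum_wt_le (b : G → G → ℝ) (A' A : Finset G) (hb : ∀ Y h, 0 ≤ b Y h)
    (J : ℕ) (g : Fin J → G)
    (hP' : ∀ Y, ∑ n ∈ A', b Y n ^ 2 ≤ 2 * A'.card)
    (hP : ∀ i Y, ∑ n ∈ A, b Y (n * g i) ^ 2 ≤ 2 * A.card)
    (l : G → ℕ) (Q : Finset G) (r : ℕ) (φ : ℝ) (hQ : Fol l Q r φ) (hφ0 : 0 ≤ φ)
    (hlen : ∀ ω ∈ noise A' A J, l (out J g ω) ≤ r)
    (hφ : ((A'.card * A.card : ℝ)) ^ J * φ ≤ 1) :
    ∑ z ∈ Q, ∑ ω ∈ noise A' A J, wt b J g ω z
      ≤ 2 * Q.card * (2 * (A'.card * A.card)) ^ J := by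
  classical
  set T : Finset G := (noise A' A J).image (out J g) with hT
  have hTcard : (T.card : ℝ) ≤ (A'.card * A.card : ℝ) ^ J := by
    have h1 : T.card ≤ (noise A' A J).card := Finset.card_image_le
    rw [card_noise] at h1
    calc (T.card : ℝ) ≤ ((A'.card * A.card) ^ J : ℕ) := by exact_mod_cast h1
      _ = _ := by push_cast; ring
  have hTφ : (T.card : ℝ) * φ ≤ 1 := le_trans (mul_le_mul_of_nonneg_right hTcard hφ0) hφ
  have hTlen : ∀ y ∈ T, l y ≤ r := by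
    intro y hy
    rw [hT, Finset.mem_image] at hy
    obtain ⟨ω, hω, rfl⟩ := hy
    exact hlen ω hω
  have hcard := card_endpoints l Q r φ hQ T hTlen hTφ
  set Q' : Finset G := Q ∪ T.biUnion fun y => (Q.image fun z => z * y) \ Q with hQ'
  have hmem : ∀ z ∈ Q, ∀ ω ∈ noise A' A J, z * out J g ω ∈ Q' := by
    intro z hz ω hω
    rw [hQ', Finset.mem_union]
    by_cases h : z * out J g ω ∈ Q
    · exact Or.inl h
    · right
      rw [Finset.mem_biUnion]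
      refine ⟨out J g ω, ?_, ?_⟩
      · rw [hT]; exact Finset.mem_image_of_mem _ hω
      · rw [Finset.mem_sdiff]
        exact ⟨Finset.mem_image_of_mem (fun z => z * out J g ω) hz, h⟩
  have h2 := sum_wt_sq_le b A' A (2 * A'.card) (2 * A.card) hb J g hP' hP Q Q' hmem
  set S : G → ℝ := fun z => ∑ ω ∈ noise A' A J, wt b J g ω z with hS
  have hS0 : ∀ z, 0 ≤ S z := fun z => Finset.sum_nonneg fun ω _ => wt_nonneg b hb _ _ _ _
  have h3 : (∑ z ∈ Q, S z) ^ 2 ≤ Q.card * ∑ z ∈ Q, S z ^ 2 := sq_sum_le_card_mul_sum_sq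
  have h4 : (∑ z ∈ Q, S z) ^ 2 ≤ (2 * Q.card * (2 * (A'.card * A.card)) ^ J) ^ 2 := by
    calc (∑ z ∈ Q, S z) ^ 2 ≤ Q.card * ∑ z ∈ Q, S z ^ 2 := h3
      _ ≤ Q.card * ((2 * A'.card * A'.card * (2 * A.card * A.card)) ^ J * Q'.card) :=
          mul_le_mul_of_nonneg_left h2 (Nat.cast_nonneg _)
      _ ≤ Q.card * ((2 * A'.card * A'.card * (2 * A.card * A.card)) ^ J * (2 * Q.card)) := by
          gcongr
      _ = 2 * (Q.card : ℝ) ^ 2 * ((2 * (A'.card * A.card)) ^ J) ^ 2 := by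
          rw [← pow_mul, mul_comm J 2, pow_mul]; ring
      _ ≤ 4 * (Q.card : ℝ) ^ 2 * ((2 * (A'.card * A.card)) ^ J) ^ 2 := by
          have : 0 ≤ (Q.card : ℝ) ^ 2 * ((2 * (A'.card * A.card : ℝ)) ^ J) ^ 2 := by positivity
          nlinarith
      _ = (2 * Q.card * (2 * (A'.card * A.card)) ^ J) ^ 2 := by ring
  exact (pow_le_pow_iff_left₀ (Finset.sum_nonneg fun z _ => hS0 z) (by positivity)
    two_ne_zero).1 h4

open Classical in
/-- Exceptional noise. -/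
lemma card_bad_noise (W : G → E) (c : G → E) (bd : G → G → ℕ) (α D : ℝ)
    (hbd : ∀ Y h, bd Y h = 0 → ‖W (Y * h) - c Y‖ ≤ α) (hα : 0 ≤ α) (hD : 0 ≤ D)
    (A' A : Finset G) (J : ℕ) (g : Fin J → G)
    (hW : ∀ i, ∀ n' ∈ A', ∀ n ∈ A, ∀ z, ‖W (z * (n'⁻¹ * (n * g i))) - W z‖ ≤ D)
    (t κ : ℝ) (ht : 1 ≤ t) (htκ : t ^ κ = 1024)
    (hP' : ∀ Y, ∑ n ∈ A', (t ^ bd Y n) ^ 2 ≤ 2 * A'.card)
    (hP : ∀ i Y, ∑ n ∈ A, (t ^ bd Y (n * g i)) ^ 2 ≤ 2 * A.card)
    (l : G → ℕ) (Q : Finset G) (hQ0 : Q.Nonempty) (r : ℕ) (φ : ℝ) (hQ : Fol l Q r φ)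
    (hφ0 : 0 ≤ φ) (hlen : ∀ ω ∈ noise A' A J, l (out J g ω) ≤ r)
    (hφ : ((A'.card * A.card : ℝ)) ^ J * φ ≤ 1) :
    ((((noise A' A J).filter fun ω =>
      (1 / 16) ^ J * (Q.card : ℝ) < devi W Q ((2 * α + D * κ) * J) (out J g ω)).card : ℕ) : ℝ)
      ≤ 2 * (1 / 32) ^ J * (noise A' A J).card := by
  set b : G → G → ℝ := fun Y h => t ^ bd Y h with hb
  have ht0 : 0 < t := lt_of_lt_of_le one_pos ht
  have hb0 : ∀ Y h, 0 ≤ b Y h := fun Y h => pow_nonneg ht0.le _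
  have h1 := sum_wt_le b A' A hb0 J g hP' hP l Q r φ hQ hφ0 hlen hφ
  set Ω := noise A' A J with hΩ
  have hΩcard : (Ω.card : ℝ) = (A'.card * A.card : ℝ) ^ J := by
    rw [hΩ, card_noise]; push_cast; ring
  -- pointwise Markov
  have h2 : ∀ ω ∈ Ω, (devi W Q ((2 * α + D * κ) * J) (out J g ω) : ℝ) * 1024 ^ J
      ≤ ∑ z ∈ Q, wt b J g ω z := by
    intro ω hω
    unfold devi
    rw [← nsmul_eq_mul, ← Finset.sum_const, Finset.sum_filter]
    refine Finset.sum_le_sum fun z _ => ?_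
    split_ifs with h
    · have h3 := disp_le W c bd α D hbd hα hD A' A J g hW ω hω z
      have h4 : D * κ * J < D * cost bd J g ω z := by nlinarith
      have hDpos : 0 < D := by
        rcases hD.eq_or_lt with h0 | h0
        · rw [← h0] at h4; simp at h4
        · exact h0
      have h5 : κ * J < cost bd J g ω z := by
        have : D * (κ * J) < D * cost bd J g ω z := by rw [← mul_assoc]; exact h4
        exact lt_of_mul_lt_mul_left this hD
      rw [hb, wt_eq_pow]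
      calc (1024 : ℝ) ^ J = (t ^ κ) ^ J := by rw [htκ]
        _ = t ^ (κ * J) := by rw [← Real.rpow_natCast, ← Real.rpow_mul ht0.le]
        _ ≤ t ^ ((cost bd J g ω z : ℕ) : ℝ) := Real.rpow_le_rpow_of_exponent_le ht h5.le
        _ = t ^ cost bd J g ω z := Real.rpow_natCast _ _
    · exact wt_nonneg b hb0 _ _ _ _
  have h3 : (∑ ω ∈ Ω, (devi W Q ((2 * α + D * κ) * J) (out J g ω) : ℝ)) * 1024 ^ J
      ≤ 2 * Q.card * (2 * (A'.card * A.card)) ^ J := by
    rw [Finset.sum_mul]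
    refine le_trans (Finset.sum_le_sum h2) ?_
    rw [Finset.sum_comm]
    exact h1
  set B := Ω.filter fun ω =>
      (1 / 16) ^ J * (Q.card : ℝ) < devi W Q ((2 * α + D * κ) * J) (out J g ω) with hB
  have h4 : (B.card : ℝ) * ((1 / 16) ^ J * Q.card)
      ≤ ∑ ω ∈ Ω, (devi W Q ((2 * α + D * κ) * J) (out J g ω) : ℝ) := by
    calc (B.card : ℝ) * ((1 / 16) ^ J * Q.card)
        = ∑ _ω ∈ B, ((1 / 16) ^ J * (Q.card : ℝ)) := by rw [Finset.sum_const, nsmul_eq_mul]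
      _ ≤ ∑ ω ∈ B, (devi W Q ((2 * α + D * κ) * J) (out J g ω) : ℝ) :=
          Finset.sum_le_sum fun ω hω => (Finset.mem_filter.1 hω).2.le
      _ ≤ ∑ ω ∈ Ω, (devi W Q ((2 * α + D * κ) * J) (out J g ω) : ℝ) :=
          Finset.sum_le_sum_of_subset_of_nonneg (Finset.filter_subset _ _)
            fun _ _ _ => Nat.cast_nonneg _
  have hQpos : (0 : ℝ) < Q.card := by exact_mod_cast hQ0.card_pos
  have h5 : (B.card : ℝ) * ((1 / 16) ^ J * Q.card) * 1024 ^ J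
      ≤ 2 * Q.card * (2 * (A'.card * A.card)) ^ J :=
    le_trans (mul_le_mul_of_nonneg_right h4 (by positivity)) h3
  have h6 : (B.card : ℝ) * 64 ^ J ≤ 2 * (2 * (A'.card * A.card)) ^ J := by
    have e1 : (B.card : ℝ) * ((1 / 16) ^ J * Q.card) * 1024 ^ J
        = Q.card * ((B.card : ℝ) * 64 ^ J) := by
      have : (1024 : ℝ) ^ J = 16 ^ J * 64 ^ J := by rw [← mul_pow]; norm_num
      rw [this]
      have e2 : (1 / 16 : ℝ) ^ J * 16 ^ J = 1 := by rw [← mul_pow]; norm_num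
      linear_combination (B.card : ℝ) * Q.card * 64 ^ J * e2
    rw [e1] at h5
    have e3 : 2 * (Q.card : ℝ) * (2 * (A'.card * A.card)) ^ J
        = Q.card * (2 * (2 * (A'.card * A.card)) ^ J) := by ring
    rw [e3] at h5
    exact le_of_mul_le_mul_left h5 hQpos
  rw [hΩcard]
  have h7 : (64 : ℝ) ^ J * (2 * (1 / 32) ^ J * (A'.card * A.card) ^ J)
      = 2 * (2 * (A'.card * A.card : ℝ)) ^ J := by
    have e1 : (64 : ℝ) ^ J = 2 ^ J * 32 ^ J := by rw [← mul_pow]; norm_num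
    have e2 : (1 / 32 : ℝ) ^ J * 32 ^ J = 1 := by rw [← mul_pow]; norm_num
    rw [e1, mul_pow 2]
    linear_combination 2 * 2 ^ J * (A'.card * A.card : ℝ) ^ J * e2
  have h8 : (64 : ℝ) ^ J * B.card ≤ 64 ^ J * (2 * (1 / 32) ^ J * (A'.card * A.card) ^ J) := by
    rw [h7, mul_comm]; exact h6
  exact le_of_mul_le_mul_left h8 (by positivity)

end Agent.P188.H428
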