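import Vale.Agent.P188.Z1.Flat

/-!
P188, route B: path containment. A path of `m` bounded steps in `S` whose heights stay below `q`
ends in (natural box of sizes `poly m * exp q`) * (Cartan word of length `O(m)`).
-/

open MeasureTheory Set
open Vale.Agent.P188.H530 (hgt)

namespace Agent.P188.H428

open Vale.Agent.P188.Z1 Vale.Agent.P188.Z1.RModel

variable {S : Type} [Group S] [MeasurableSpace S] {Γ : Type} [Group Γ]
  {V : Type} [AddCommGroup V] [Module ℝ V] {k : ℕ} {M : RModel S Γ V k}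

theorem two_eq {x y : ℝ} {i : M.ι} (h : M.wt i = 0) : M.two x y i = x := by
  unfold RModel.two; rw [if_pos h]

theorem two_ne {x y : ℝ} {i : M.ι} (h : M.wt i ≠ 0) : M.two x y i = y := by
  unfold RModel.two; rw [if_neg h]

/-- sizes `1` for neutral letters and `y ≥ 1` for the others are admissible -/
theorem adm_two {y : ℝ} (hy : 1 ≤ y) : M.Adm (M.two 1 y) where
  pos i := by
    by_cases h : M.wt i = 0
    · rw [two_eq h]; exact one_pos
    · rw [two_ne h]; linarith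
  le i w hw hsum := by
    have h1 : ∀ j, 1 ≤ M.two 1 y j := by
      intro j
      by_cases h : M.wt j = 0
      · rw [two_eq h]
      · rw [two_ne h]; exact hy
    have h2 : ∀ w : List M.ι, 1 ≤ (w.map (M.two 1 y)).prod := by
      intro w
      induction w with
      | nil => simp
      | cons j w ih =>
        rw [List.map_cons, List.prod_cons]
        exact one_le_mul_of_one_le_of_one_le (h1 j) ih
    by_cases hi : M.wt i = 0
    · rw [two_eq hi]; exact h2 w
    · rw [two_ne hi]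
      have h3 : ∃ j ∈ w, M.wt j ≠ 0 := by
        by_contra hcon
        push Not at hcon
        apply hi
        rw [← hsum]
        refine List.sum_eq_zero ?_
        intro b hb
        obtain ⟨j, hj, rfl⟩ := List.mem_map.1 hb
        exact hcon j hj
      obtain ⟨j, hj, hj0⟩ := h3
      have h4 : ∀ w : List M.ι, j ∈ w → y ≤ (w.map (M.two 1 y)).prod := by
        intro w
        induction w with
        | nil => intro h; exact absurd h List.not_mem_nil
        | cons a w ih =>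
          intro h
          rw [List.map_cons, List.prod_cons]
          rcases List.mem_cons.1 h with rfl | h
          · rw [two_ne hj0]
            exact le_mul_of_one_le_right (by linarith) (h2 w)
          · have h5 := ih h
            calc y ≤ (w.map (M.two 1 y)).prod := h5
              _ ≤ _ := le_mul_of_one_le_left (by linarith) (h1 a)
      exact h4 w hj

/-- products of at most `2 ^ r` elements of a box -/
theorem prod_mem_Bx (B : M.NatBox) (r : ℕ) : ∀ (R : M.ι → ℝ), (∀ i, 0 ≤ R i) → ∀ L : List S,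
    L.length ≤ 2 ^ r → (∀ x ∈ L, x ∈ B.Bx R) → L.prod ∈ B.Bx fun i => B.C ^ r * R i := by
  induction r with
  | zero =>
    intro R hR L hL hx
    simp only [pow_zero, one_mul]
    match L, hL, hx with
    | [], _, _ => exact B.one R hR
    | [x], _, hx => simpa using hx x (by simp)
    | _ :: _ :: _, hL, _ => simp at hL
  | succ r ih =>
    intro R hR L hL hx
    have h1 := ih R hR (L.take (2 ^ r)) (by rw [List.length_take]; exact min_le_left _ _)
      (fun x h => hx x (List.mem_of_mem_take h))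
    have h2 := ih R hR (L.drop (2 ^ r)) (by
      rw [List.length_drop, pow_succ] at *; omega) (fun x h => hx x (List.mem_of_mem_drop h))
    have hC : 0 ≤ B.C := by linarith [B.one_le]
    have h3 := B.mul (fun i => B.C ^ r * R i) (fun i => mul_nonneg (pow_nonneg hC r) (hR i))
      _ h1 _ h2
    rw [← List.prod_append, List.take_append_drop] at h3
    have e : (fun i => B.C * (B.C ^ r * R i)) = fun i => B.C ^ (r + 1) * R i := by
      funext i; rw [pow_succ]; ring
    rwa [e] at h3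

/-- products of `m` elements of a box -/
theorem exists_prod_mem_Bx (B : M.NatBox) : ∃ a : ℕ, ∀ (m : ℕ) (R : M.ι → ℝ), (∀ i, 0 ≤ R i) →
    ∀ L : List S, L.length ≤ m → (∀ x ∈ L, x ∈ B.Bx R) →
      L.prod ∈ B.Bx fun i => (2 * (1 + m)) ^ a * R i := by
  obtain ⟨a, ha⟩ : ∃ a : ℕ, B.C ≤ 2 ^ a := by
    obtain ⟨a, ha⟩ := pow_unbounded_of_one_lt B.C (one_lt_two)
    exact ⟨a, ha.le⟩
  refine ⟨a, fun m R hR L hL hx => ?_⟩
  have hC : 0 ≤ B.C := by linarith [B.one_le]
  set r := Nat.clog 2 (m + 1) with hr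
  have h1 : m + 1 ≤ 2 ^ r := Nat.le_pow_clog one_lt_two _
  have h2 : 2 ^ r ≤ 2 * (m + 1) := by
    rcases Nat.eq_zero_or_pos r with h0 | h0
    · rw [h0]; omega
    · have h3 : 2 ^ (r - 1) < m + 1 := by
        have : 1 < m + 1 := by
          by_contra hcon
          have hm : m = 0 := by omega
          rw [hr, hm] at h0
          simp at h0
        exact Nat.pow_pred_clog_lt_self one_lt_two this
      have h4 : 2 ^ r = 2 * 2 ^ (r - 1) := by
        rw [← pow_succ']; congr 1; omega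
      omega
  have h3 := prod_mem_Bx B r R hR L (by omega) hx
  refine B.mono _ _ (fun i => mul_nonneg (pow_nonneg hC r) (hR i)) (fun i => ?_) h3
  refine mul_le_mul_of_nonneg_right ?_ (hR i)
  calc B.C ^ r ≤ (2 ^ a) ^ r := pow_le_pow_left₀ hC ha r
    _ = (2 ^ r) ^ a := by rw [← pow_mul, ← pow_mul, mul_comm]
    _ ≤ (2 * (1 + (m : ℝ))) ^ a := by
      refine pow_le_pow_left₀ (by positivity) ?_ a
      have : ((2 ^ r : ℕ) : ℝ) ≤ ((2 * (m + 1) : ℕ) : ℝ) := by exact_mod_cast h2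
      push_cast at this
      linarith

theorem CB_one (n : ℕ) : (1 : S) ∈ M.CB n := ⟨[], Nat.zero_le _, rfl, by simp⟩

theorem CB_mono {m n : ℕ} (h : m ≤ n) : M.CB m ⊆ M.CB n := by
  rintro c ⟨L, h1, h2, h3⟩
  exact ⟨L, h1.trans h, h2, h3⟩

theorem CB_mul {m n : ℕ} {c c' : S} (h : c ∈ M.CB m) (h' : c' ∈ M.CB n) : c * c' ∈ M.CB (m + n) := by
  obtain ⟨L, h1, h2, h3⟩ := h
  obtain ⟨L', h1', h2', h3'⟩ := h'
  refine ⟨L ++ L', by rw [List.length_append]; omega, by rw [List.prod_append, h2, h2'], ?_⟩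
  intro a ha
  rcases List.mem_append.1 ha with ha | ha
  exacts [h3 a ha, h3' a ha]

theorem θ_mul (x y : S) : M.θ (x * y) = M.θ x + M.θ y :=
  Vale.Agent.P188.H530.hgt_mul M.η x y

theorem θ_of_η {x : S} (hx : M.η x = 1) : M.θ x = 0 := by
  funext i
  simp [RModel.θ, hgt, hx]

/-- Cartan words are short -/
theorem CB_len : ∃ D : ℕ, ∀ (n : ℕ) (c : S), c ∈ M.CB n → M.l c ≤ D * n := by
  have hfin : {w : Fin k → ℤ | ∀ i, |w i| ≤ 1}.Finite := by
    refine Set.Finite.subset (Set.Finite.pi' (t := fun _ : Fin k => Set.Icc (-1 : ℤ) 1)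
      fun _ => Set.finite_Icc _ _) ?_
    intro w hw i
    exact abs_le.1 (hw i)
  obtain ⟨D₁, hD₁⟩ := (hfin.image fun w => M.l (M.τ w)).bddAbove
  refine ⟨max D₁ ⌈M.C0 * 2⌉₊, ?_⟩
  rintro n c ⟨L, hL, rfl, hL2⟩
  have h1 : ∀ a, ((∃ v ∈ (M.Vw 0 : Set V), M.nm v ≤ 1 ∧ M.ex v = a) ∨
      (∃ w : Fin k → ℤ, (∀ i, |w i| ≤ 1) ∧ (M.τ w = a ∨ (M.τ w)⁻¹ = a))) →
      M.l a ≤ max D₁ ⌈M.C0 * 2⌉₊ := by
    rintro a (⟨v, _, hv, rfl⟩ | ⟨w, hw, hw'⟩)
    · refine le_max_of_le_right ?_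
      have h2 := M.met_V v
      have h3 : M.C0 * (1 + M.nm v) ≤ M.C0 * 2 :=
        mul_le_mul_of_nonneg_left (by linarith) (by linarith [M.one_le_C0])
      exact_mod_cast (h2.trans h3).trans (Nat.le_ceil _)
    · refine le_max_of_le_left ?_
      have h2 := hD₁ ⟨w, hw, rfl⟩
      rcases hw' with rfl | rfl
      · exact h2
      · rw [M.len.inv]; exact h2
  have h2 : ∀ L : List S, (∀ a ∈ L, (∃ v ∈ (M.Vw 0 : Set V), M.nm v ≤ 1 ∧ M.ex v = a) ∨
      (∃ w : Fin k → ℤ, (∀ i, |w i| ≤ 1) ∧ (M.τ w = a ∨ (M.τ w)⁻¹ = a))) →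
      M.l L.prod ≤ max D₁ ⌈M.C0 * 2⌉₊ * L.length := by
    intro L
    induction L with
    | nil => intro _; simp [M.len.one]
    | cons a L ih =>
      intro h
      have h3 := ih fun b hb => h b (List.mem_cons_of_mem _ hb)
      have h4 := h1 a (h a List.mem_cons_self)
      rw [List.prod_cons, List.length_cons]
      refine (M.len.mul _ _).trans ?_
      rw [mul_add, mul_one]
      omega
  exact (h2 L hL2).trans (Nat.mul_le_mul_left _ hL)

/-- decomposition of the elements of bounded length -/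
theorem dec_bound (A : ℝ) : ∃ (P : ℝ) (Q : ℕ), 1 ≤ P ∧ ∀ s : S, (M.l s : ℝ) ≤ A →
    ∃ v ∈ M.e, ∃ c ∈ M.CB Q, s = M.ex v * c ∧ M.nm v ≤ P := by
  obtain ⟨D, hD⟩ := CB_len (M := M)
  have hC0 := M.one_le_C0
  set Q : ℕ := ⌈M.C0 * max A 0⌉₊ with hQ
  refine ⟨Real.exp (M.C0 * (1 + (max A 0 + D * Q))), Q, Real.one_le_exp (by positivity),
    fun s hs => ?_⟩
  obtain ⟨v, hv, c, hc, hsc⟩ := M.dec s
  have h1 : c ∈ M.CB Q := by
    refine CB_mono (Nat.ceil_le_ceil ?_) hc
    exact mul_le_mul_of_nonneg_left (hs.trans (le_max_left _ _)) (by linarith)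
  refine ⟨v, hv, c, h1, hsc, ?_⟩
  have h2 : M.ex v = s * c⁻¹ := by rw [hsc]; group
  have h3 : M.l (M.ex v) ≤ M.l s + D * Q := by
    rw [h2]
    refine (M.len.mul _ _).trans ?_
    rw [M.len.inv]
    have := hD Q c h1
    omega
  refine (M.met_lo v).trans (Real.exp_le_exp.2 (mul_le_mul_of_nonneg_left ?_ (by linarith)))
  have h4 : (M.l (M.ex v) : ℝ) ≤ M.l s + D * Q := by exact_mod_cast h3
  have h5 := hs.trans (le_max_left A 0)
  linarith

/-- Path containment with explicit constants: all steps are `ex v * c`, `nm v ≤ P`, `c ∈ CB Q`. -/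
theorem path_box_aux (B : M.NatBox) : ∃ a : ℕ, ∀ (P : ℝ) (Q : ℕ), 1 ≤ P →
    ∀ (m : ℕ) (y : ℕ → S), y 0 = 1 →
    (∀ i < m, ∃ v ∈ M.e, ∃ c ∈ M.CB Q, (y i)⁻¹ * y (i + 1) = M.ex v * c ∧ M.nm v ≤ P) →
    ∀ q : M.ι → ℝ, (∀ i, ∀ j ≤ m, M.wt i (M.θ (y j)) ≤ q i) →
    ∃ u c, y m = u * c ∧ u ∈ M.E ∧
      u ∈ B.Bx (fun i => 2 ^ a * (B.C * (Q + 1) ^ B.dg * (B.C * (1 + P))) *
        (1 + m) ^ (a + B.dg) * Real.exp (q i)) ∧
      c ∈ M.CB (Q * m) ∧ M.θ c = M.θ (y m) := by
  obtain ⟨a, ha⟩ := exists_prod_mem_Bx B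
  refine ⟨a, ?_⟩
  intro P Q hP m y hy0 hy q hq
  have hBC := B.one_le
  have hEn := M.E_normal
  set P' : ℝ := B.C * (1 + P) with hP'
  have hP'1 : 1 ≤ P' := by rw [hP']; nlinarith
  -- the factors
  have hstep : ∀ i, ∃ (v : V) (c : S), i < m → (v ∈ M.e ∧ c ∈ M.CB Q ∧
      (y i)⁻¹ * y (i + 1) = M.ex v * c ∧ M.nm v ≤ P) := by
    intro i
    by_cases hi : i < m
    · obtain ⟨v, hv, c, hc, h1, h2⟩ := hy i hi
      exact ⟨v, c, fun _ => ⟨hv, hc, h1, h2⟩⟩
    · exact ⟨0, 1, fun h => absurd h hi⟩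
  choose v c hvc using hstep
  let p : ℕ → S := fun j => ((List.range j).map c).prod
  have hp0 : p 0 = 1 := rfl
  have hps : ∀ j, p (j + 1) = p j * c j := by
    intro j
    change ((List.range (j + 1)).map c).prod = _
    rw [List.range_succ, List.map_append, List.prod_append]
    simp [p]
  let U : ℕ → List S := fun j => (List.range j).map fun i => p i * M.ex (v i) * (p i)⁻¹
  have hU : ∀ j ≤ m, y j = (U j).prod * p j ∧ p j ∈ M.CB (Q * j) ∧ M.θ (p j) = M.θ (y j) ∧
      (U j).prod ∈ M.E := by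
    intro j
    induction j with
    | zero =>
      intro _
      refine ⟨by simp [U, hp0, hy0], by simpa [hp0] using CB_one 0, by rw [hp0, hy0], ?_⟩
      simp [U]
    | succ j ih =>
      intro hj
      obtain ⟨h1, h2, h3, h4⟩ := ih (by omega)
      obtain ⟨g1, g2, g3, g4⟩ := hvc j (by omega)
      have e1 : (U (j + 1)).prod = (U j).prod * (p j * M.ex (v j) * (p j)⁻¹) := by
        change (((List.range (j + 1)).map fun i => p i * M.ex (v i) * (p i)⁻¹)).prod = _
        rw [List.range_succ, List.map_append, List.prod_append]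
        simp [U]
      have e2 : y (j + 1) = y j * (M.ex (v j) * c j) := by rw [← g3]; group
      have hexE : M.ex (v j) ∈ M.E := (M.mem_E _).2 ⟨v j, g1, rfl⟩
      refine ⟨?_, ?_, ?_, ?_⟩
      · rw [e1, e2, h1, hps]; group
      · rw [hps]
        exact CB_mono (by rw [Nat.mul_succ]) (CB_mul h2 g2)
      · rw [hps, θ_mul, h3, e2, θ_mul, θ_mul, θ_of_η (M.η_ex _), zero_add]
      · rw [e1]
        exact M.E.mul_mem h4 (hEn.conj_mem _ hexE _)
  obtain ⟨h1, h2, h3, h4⟩ := hU m le_rfl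
  refine ⟨(U m).prod, p m, h1, h4, ?_, h2, h3⟩
  -- all factors in one box
  have hqm : ∀ i, 0 ≤ Real.exp (q i) := fun i => (Real.exp_pos _).le
  set D : ℝ := B.C * (1 + (Q * m : ℕ)) ^ B.dg * P' with hD
  have hD0 : 0 ≤ D := by positivity
  have hfac : ∀ x ∈ U m, x ∈ B.Bx fun i => D * Real.exp (q i) := by
    intro x hx
    obtain ⟨j, hj, rfl⟩ := List.mem_map.1 hx
    rw [List.mem_range] at hj
    obtain ⟨g1, g2, g3, g4⟩ := hvc j hj
    obtain ⟨k1, k2, k3, k4⟩ := hU j hj.le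
    have i1 := B.ball_e (v j) g1
    have i2 : M.ex (v j) ∈ B.Bx (M.two 1 P') := by
      refine B.mono _ _ (fun i => ?_) (fun i => ?_) i1
      · have : 0 ≤ M.nm (v j) := apply_nonneg _ _
        by_cases h : M.wt i = 0
        · rw [two_eq h]; exact zero_le_one
        · rw [two_ne h]; positivity
      · by_cases h : M.wt i = 0
        · rw [two_eq h, two_eq h]
        · rw [two_ne h, two_ne h, hP']
          exact mul_le_mul_of_nonneg_left (by linarith) (by linarith)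
    have i3 := B.conj _ _ k2 _ (adm_two hP'1) _ i2
    refine B.mono _ _ (fun i => ?_) (fun i => ?_) i3
    · refine mul_nonneg (by positivity) ?_
      exact ((adm_two hP'1).pos i).le
    · have i4 : M.two 1 P' i ≤ P' := by
        by_cases h : M.wt i = 0
        · rw [two_eq h]; exact hP'1
        · rw [two_ne h]
      have i5 : Real.exp (M.wt i (M.θ (p j))) ≤ Real.exp (q i) := by
        rw [k3]; exact Real.exp_le_exp.2 (hq i j hj.le)
      have i6 : (1 + ((Q * j : ℕ) : ℝ)) ^ B.dg ≤ (1 + ((Q * m : ℕ) : ℝ)) ^ B.dg := by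
        refine pow_le_pow_left₀ (by positivity) ?_ _
        have : (Q * j : ℕ) ≤ Q * m := Nat.mul_le_mul_left _ hj.le
        have : ((Q * j : ℕ) : ℝ) ≤ ((Q * m : ℕ) : ℝ) := by exact_mod_cast this
        linarith
      have i7 : 0 ≤ M.two 1 P' i := ((adm_two hP'1).pos i).le
      calc B.C * (1 + ((Q * j : ℕ) : ℝ)) ^ B.dg * Real.exp (M.wt i (M.θ (p j))) * M.two 1 P' i
          ≤ B.C * (1 + ((Q * m : ℕ) : ℝ)) ^ B.dg * Real.exp (q i) * P' := by gcongr
        _ = D * Real.exp (q i) := by rw [hD]; ring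
  have h5 := ha m (fun i => D * Real.exp (q i)) (fun i => mul_nonneg hD0 (hqm i)) (U m)
    (by simp [U]) hfac
  refine B.mono _ _ (fun i => mul_nonneg (by positivity) (mul_nonneg hD0 (hqm i)))
    (fun i => ?_) h5
  have h6 : D ≤ B.C * (Q + 1) ^ B.dg * P' * (1 + m) ^ B.dg := by
    rw [hD]
    have : (1 + ((Q * m : ℕ) : ℝ)) ^ B.dg ≤ ((Q + 1) * (1 + (m : ℝ))) ^ B.dg := by
      refine pow_le_pow_left₀ (by positivity) ?_ _
      push_cast
      nlinarith [(Nat.cast_nonneg Q : (0 : ℝ) ≤ Q), (Nat.cast_nonneg m : (0 : ℝ) ≤ m)]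
    rw [mul_pow] at this
    calc B.C * (1 + ((Q * m : ℕ) : ℝ)) ^ B.dg * P' ≤
          B.C * (((Q : ℝ) + 1) ^ B.dg * (1 + (m : ℝ)) ^ B.dg) * P' := by gcongr
      _ = _ := by ring
  calc (2 * (1 + (m : ℝ))) ^ a * (D * Real.exp (q i))
      ≤ (2 * (1 + (m : ℝ))) ^ a *
        (B.C * (Q + 1) ^ B.dg * P' * (1 + m) ^ B.dg * Real.exp (q i)) := by gcongr
    _ = _ := by rw [mul_pow, pow_add]; ring

/-- **Path containment.** A path of `m` steps of length `≤ A` from `1` with all heights below `q`: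
the end point is `u * c`, `u` in the natural box of sizes `poly m * exp q`, `c` a Cartan word of
length `O(m)`. -/
theorem path_box (B : M.NatBox) (A : ℝ) : ∃ (C : ℝ) (e Q : ℕ), 1 ≤ C ∧
    ∀ (m : ℕ) (y : ℕ → S), y 0 = 1 → (∀ i < m, (M.l ((y i)⁻¹ * y (i + 1)) : ℝ) ≤ A) →
    ∀ q : M.ι → ℝ, (∀ i, ∀ j ≤ m, M.wt i (M.θ (y j)) ≤ q i) →
    ∃ u c, y m = u * c ∧ u ∈ M.E ∧ u ∈ B.Bx (fun i => C * (1 + m) ^ e * Real.exp (q i)) ∧
      c ∈ M.CB (Q * m) ∧ M.θ c = M.θ (y m) := by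
  obtain ⟨a, ha⟩ := path_box_aux B
  obtain ⟨P, Q, hP, hdec⟩ := dec_bound (M := M) A
  have hBC := B.one_le
  refine ⟨2 ^ a * (B.C * (Q + 1) ^ B.dg * (B.C * (1 + P))), a + B.dg, Q, ?_, ?_⟩
  · have h1 : (1 : ℝ) ≤ 2 ^ a := one_le_pow₀ one_le_two
    have h2 : (1 : ℝ) ≤ ((Q : ℝ) + 1) ^ B.dg :=
      one_le_pow₀ (by linarith [(Nat.cast_nonneg Q : (0 : ℝ) ≤ Q)])
    have h3 : 1 ≤ B.C * (Q + 1) ^ B.dg := one_le_mul_of_one_le_of_one_le hBC h2
    have h4 : 1 ≤ B.C * (1 + P) := by nlinarith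
    exact one_le_mul_of_one_le_of_one_le h1 (one_le_mul_of_one_le_of_one_le h3 h4)
  · intro m y hy0 hy q hq
    exact ha P Q hP m y hy0 (fun i hi => hdec _ (hy i hi)) q hq

end Agent.P188.H428
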