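import Vale.Agent.P188.H428.PC

/-!
P188, route B: path containment in the form of 532's field `Geo.PC`.
-/

open MeasureTheory Set
open Vale.Agent.P188.H530 (hgt)

namespace Agent.P188.H428

open Vale.Agent.P188.Z1 Vale.Agent.P188.Z1.RModel

variable {S : Type} [Group S] [MeasurableSpace S] {Γ : Type} [Group Γ]
  {V : Type} [AddCommGroup V] [Module ℝ V] {k : ℕ} {M : RModel S Γ V k}

theorem ex_neg' (v : V) : M.ex (-v) = (M.ex v)⁻¹ := by
  have h := M.ex_add 1 (-1) v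
  rw [add_neg_cancel, zero_smul, M.ex_zero, one_smul, neg_one_smul] at h
  exact eq_inv_of_mul_eq_one_right h.symm

theorem CB_inv {n : ℕ} {c : S} (h : c ∈ M.CB n) : c⁻¹ ∈ M.CB n := by
  obtain ⟨L, h1, rfl, h3⟩ := h
  refine ⟨(L.map fun x => x⁻¹).reverse, by simpa using h1, by rw [List.prod_inv_reverse], ?_⟩
  intro a ha
  rw [List.mem_reverse, List.mem_map] at ha
  obtain ⟨b, hb, rfl⟩ := ha
  rcases h3 b hb with ⟨v, hv, hv1, rfl⟩ | ⟨w, hw, hw'⟩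
  · left
    exact ⟨-v, (M.Vw 0).neg_mem hv, by rwa [map_neg_eq_map], ex_neg' v⟩
  · right
    refine ⟨w, hw, ?_⟩
    rcases hw' with rfl | rfl
    · exact Or.inr rfl
    · left; rw [inv_inv]

/-- decomposition of the elements of length `≤ r`, explicit in `r` -/
theorem dec_bound' : ∃ C₁ : ℝ, 1 ≤ C₁ ∧ ∀ r : ℝ, 1 ≤ r → ∀ s : S, (M.l s : ℝ) ≤ r →
    ∃ v ∈ M.e, ∃ c ∈ M.CB ⌈M.C0 * r⌉₊, s = M.ex v * c ∧ M.nm v ≤ Real.exp (C₁ * r) := by
  obtain ⟨D, hD⟩ := CB_len (M := M)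
  have hC0 := M.one_le_C0
  refine ⟨M.C0 * (2 + 2 * D * M.C0), ?_, fun r hr s hs => ?_⟩
  · refine one_le_mul_of_one_le_of_one_le hC0 ?_
    have : (0 : ℝ) ≤ 2 * D * M.C0 := by positivity
    linarith
  obtain ⟨v, hv, c, hc, hsc⟩ := M.dec s
  have h1 : c ∈ M.CB ⌈M.C0 * r⌉₊ := by
    refine CB_mono (Nat.ceil_le_ceil ?_) hc
    exact mul_le_mul_of_nonneg_left hs (by linarith)
  refine ⟨v, hv, c, h1, hsc, ?_⟩
  have h2 : M.ex v = s * c⁻¹ := by rw [hsc]; group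
  have h3 : M.l (M.ex v) ≤ M.l s + D * ⌈M.C0 * r⌉₊ := by
    rw [h2]
    refine (M.len.mul _ _).trans ?_
    rw [M.len.inv]
    have := hD _ c h1
    omega
  refine (M.met_lo v).trans (Real.exp_le_exp.2 ?_)
  have h4 : (M.l (M.ex v) : ℝ) ≤ M.l s + D * ⌈M.C0 * r⌉₊ := by exact_mod_cast h3
  have h5 : (⌈M.C0 * r⌉₊ : ℝ) ≤ 2 * (M.C0 * r) := by
    have := (Nat.ceil_lt_add_one (a := M.C0 * r) (by positivity)).le
    nlinarith
  have h6 : (D : ℝ) * ⌈M.C0 * r⌉₊ ≤ D * (2 * (M.C0 * r)) :=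
    mul_le_mul_of_nonneg_left h5 (Nat.cast_nonneg D)
  calc M.C0 * (1 + (M.l (M.ex v) : ℝ)) ≤ M.C0 * (r + (r + D * (2 * (M.C0 * r)))) := by
        refine mul_le_mul_of_nonneg_left ?_ (by linarith)
        linarith
    _ = _ := by ring

theorem pc_num1 {C0 r m Q n0 : ℝ} (hC0 : 1 ≤ C0) (hr : 1 ≤ r) (hm : 0 ≤ m)
    (hQ1 : Q ≤ C0 * r + 1) (hn1 : n0 ≤ Q * m + (C0 * (1 + C0 * (r * m)) + 1)) :
    1 + n0 ≤ ((C0 + 1) + C0 + C0 * C0 + 2) * (1 + r * (m + 1)) := by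
  have hrm : 0 ≤ r * m := by positivity
  have i0 : Q ≤ (C0 + 1) * r := by
    have : (C0 + 1) * r = C0 * r + r := by ring
    linarith
  have i3 : Q * m ≤ (C0 + 1) * (r * m) := by
    have := mul_le_mul_of_nonneg_right i0 hm
    have e : (C0 + 1) * r * m = (C0 + 1) * (r * m) := by ring
    linarith
  have hX : r * m ≤ 1 + r * (m + 1) := by
    have : r * (m + 1) = r * m + r := by ring
    linarith
  have hX1 : 1 ≤ 1 + r * (m + 1) := by
    have : 0 ≤ r * (m + 1) := by positivity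
    linarith
  have i4 : (C0 + 1) * (r * m) ≤ (C0 + 1) * (1 + r * (m + 1)) :=
    mul_le_mul_of_nonneg_left hX (by linarith)
  have i5 : C0 * C0 * (r * m) ≤ C0 * C0 * (1 + r * (m + 1)) :=
    mul_le_mul_of_nonneg_left hX (by positivity)
  have i6 : C0 ≤ C0 * (1 + r * (m + 1)) := le_mul_of_one_le_right (by linarith) hX1
  have e1 : C0 * (1 + C0 * (r * m)) = C0 + C0 * C0 * (r * m) := by ring
  calc 1 + n0 ≤ (C0 + 1) * (r * m) + C0 + C0 * C0 * (r * m) + 2 := by linarith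
    _ ≤ (C0 + 1) * (1 + r * (m + 1)) + C0 * (1 + r * (m + 1)) + C0 * C0 * (1 + r * (m + 1)) +
        2 * (1 + r * (m + 1)) := by linarith
    _ = _ := by ring

theorem pc_num2 (a dg : ℕ) {BC C0 m Q P X : ℝ} (hBC : 1 ≤ BC) (hC0 : 1 ≤ C0)
    (hm : 0 ≤ m) (hQ : 0 ≤ Q) (hP1 : 1 ≤ P) (hX0 : 0 ≤ X)
    (hmX : 1 + m ≤ X) (hQX : Q + 1 ≤ 3 * C0 * X) :
    2 ^ a * (BC * (Q + 1) ^ dg * (BC * (1 + P))) * (1 + m) ^ (a + dg) ≤
      2 ^ a * (BC * (3 * C0) ^ dg * (BC * 2)) * P * X ^ (a + 2 * dg) := by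
  have i1 : (Q + 1) ^ dg ≤ (3 * C0 * X) ^ dg := pow_le_pow_left₀ (by positivity) hQX _
  have i2 : (1 + m) ^ (a + dg) ≤ X ^ (a + dg) := pow_le_pow_left₀ (by positivity) hmX _
  have i3 : 1 + P ≤ 2 * P := by linarith
  calc 2 ^ a * (BC * (Q + 1) ^ dg * (BC * (1 + P))) * (1 + m) ^ (a + dg)
      ≤ 2 ^ a * (BC * (3 * C0 * X) ^ dg * (BC * (2 * P))) * X ^ (a + dg) := by gcongr
    _ = _ := by rw [mul_pow]; ring

theorem pc_num3 (deg : ℕ) {BC C0 K3 n0 nv X : ℝ} (hBC : 1 ≤ BC) (hC0 : 1 ≤ C0) (hK3 : 1 ≤ K3)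
    (hn0 : 0 ≤ n0) (hX1 : 1 ≤ X) (hnv1 : nv ≤ C0 * (1 + n0) ^ deg) (hn0X : 1 + n0 ≤ K3 * X) :
    BC * (1 + nv) ≤ BC * (2 * (C0 * K3 ^ deg)) * X ^ deg := by
  have i1 : (1 + n0) ^ deg ≤ (K3 * X) ^ deg := pow_le_pow_left₀ (by positivity) hn0X _
  have i2 : nv ≤ C0 * (K3 ^ deg * X ^ deg) := by
    rw [← mul_pow]
    exact hnv1.trans (mul_le_mul_of_nonneg_left i1 (by linarith))
  have i3 : 1 ≤ C0 * (K3 ^ deg * X ^ deg) :=
    one_le_mul_of_one_le_of_one_le hC0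
      (one_le_mul_of_one_le_of_one_le (one_le_pow₀ hK3) (one_le_pow₀ hX1))
  calc BC * (1 + nv) ≤ BC * (2 * (C0 * (K3 ^ deg * X ^ deg))) :=
        mul_le_mul_of_nonneg_left (by linarith) (by linarith)
    _ = _ := by ring

theorem pc_num4 (E : ℕ) {C₁ K X r : ℝ} (hC₁ : 1 ≤ C₁) (hK : 1 ≤ K) (hX1 : 1 ≤ X) (hr : 1 ≤ r) :
    K * Real.exp (C₁ * r) * X ^ E ≤ Real.exp ((C₁ + Real.log K + E) * r +
      (C₁ + Real.log K + E) * Real.log X) := by
  have hlogX : 0 ≤ Real.log X := Real.log_nonneg hX1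
  have hlogK : 0 ≤ Real.log K := Real.log_nonneg hK
  have hE0 : (0 : ℝ) ≤ (E : ℝ) := Nat.cast_nonneg _
  have i2 : X ^ E = Real.exp ((E : ℝ) * Real.log X) := by
    rw [Real.exp_nat_mul, Real.exp_log (by linarith)]
  have i1 : K * Real.exp (C₁ * r) * X ^ E =
      Real.exp (Real.log K + C₁ * r + (E : ℝ) * Real.log X) := by
    rw [i2, Real.exp_add, Real.exp_add, Real.exp_log (by linarith)]
  rw [i1]
  refine Real.exp_le_exp.2 ?_
  have i4 : Real.log K ≤ Real.log K * r := le_mul_of_one_le_right hlogK hr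
  have i5 : 0 ≤ (C₁ + Real.log K) * Real.log X := mul_nonneg (by linarith) hlogX
  have i6 : 0 ≤ (E : ℝ) * r := mul_nonneg hE0 (by linarith)
  have e : (C₁ + Real.log K + E) * r + (C₁ + Real.log K + E) * Real.log X =
    C₁ * r + Real.log K * r + E * r + ((C₁ + Real.log K) * Real.log X + E * Real.log X) := by ring
  rw [e]
  linarith

/-- the numerical estimate at the end of path containment -/
theorem pc_numeric (a dg deg : ℕ) {BC C0 C₁ : ℝ} (hBC : 1 ≤ BC) (hC0 : 1 ≤ C0) (hC₁ : 1 ≤ C₁) :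
    ∃ C : ℝ, 1 ≤ C ∧ ∀ r m Q n0 nv : ℝ, 1 ≤ r → 0 ≤ m → 0 ≤ Q → Q ≤ C0 * r + 1 → 0 ≤ n0 →
      n0 ≤ Q * m + (C0 * (1 + C0 * (r * m)) + 1) → 0 ≤ nv → nv ≤ C0 * (1 + n0) ^ deg →
      BC * (2 ^ a * (BC * (Q + 1) ^ dg * (BC * (1 + Real.exp (C₁ * r)))) * (1 + m) ^ (a + dg) +
        BC * (1 + nv)) ≤ Real.exp (C * r + C * Real.log (1 + r * (m + 1))) := by
  set K1 : ℝ := 2 ^ a * (BC * (3 * C0) ^ dg * (BC * 2)) with hK1
  set K3 : ℝ := (C0 + 1) + C0 + C0 * C0 + 2 with hK3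
  set K2 : ℝ := BC * (2 * (C0 * K3 ^ deg)) with hK2
  have hK31 : 1 ≤ K3 := by rw [hK3]; nlinarith
  have hK11 : 1 ≤ K1 := by
    rw [hK1]
    have h1 : (1 : ℝ) ≤ 2 ^ a := one_le_pow₀ one_le_two
    have h2 : (1 : ℝ) ≤ (3 * C0) ^ dg := one_le_pow₀ (by linarith)
    exact one_le_mul_of_one_le_of_one_le h1 (one_le_mul_of_one_le_of_one_le
      (one_le_mul_of_one_le_of_one_le hBC h2) (by linarith))
  have hK21 : 1 ≤ K2 := by
    rw [hK2]
    have h1 : (1 : ℝ) ≤ K3 ^ deg := one_le_pow₀ hK31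
    have h2 : 1 ≤ C0 * K3 ^ deg := one_le_mul_of_one_le_of_one_le hC0 h1
    exact one_le_mul_of_one_le_of_one_le hBC (by linarith)
  set K : ℝ := BC * (K1 + K2) with hK
  have hK0 : 1 ≤ K := one_le_mul_of_one_le_of_one_le hBC (by linarith)
  have hlogK : 0 ≤ Real.log K := Real.log_nonneg hK0
  set E : ℕ := a + 2 * dg + deg with hE
  have hE0 : (0 : ℝ) ≤ (E : ℝ) := Nat.cast_nonneg _
  refine ⟨C₁ + Real.log K + E, by linarith, fun r m Q n0 nv hr hm hQ hQ1 hn0 hn1 hnv hnv1 => ?_⟩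
  have hX3 := pc_num1 hC0 hr hm hQ1 hn1
  have hrm : 0 ≤ r * m := by positivity
  have hrm1 : r * (m + 1) = r * m + r := by ring
  generalize hX : 1 + r * (m + 1) = X at hX3 ⊢
  have hX1 : 1 ≤ X := by rw [← hX]; linarith
  have hrX : r ≤ X := by rw [← hX]; linarith
  have hmX : 1 + m ≤ X := by
    rw [← hX]
    have : 1 * m ≤ r * m := mul_le_mul_of_nonneg_right hr hm
    linarith
  have hQX : Q + 1 ≤ 3 * C0 * X := by
    have i1 : C0 * r ≤ C0 * X := mul_le_mul_of_nonneg_left hrX (by linarith)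
    have i2 : C0 ≤ C0 * X := le_mul_of_one_le_right (by linarith) hX1
    have e : 3 * C0 * X = C0 * X + C0 * X + C0 * X := by ring
    rw [e]
    linarith
  have hP1 : 1 ≤ Real.exp (C₁ * r) := Real.one_le_exp (by positivity)
  refine le_trans ?_ (pc_num4 E hC₁ hK0 hX1 hr)
  have e1 := pc_num2 a dg hBC hC0 hm hQ hP1 (by linarith) hmX hQX
  have e2 := pc_num3 deg hBC hC0 hK31 hn0 hX1 hnv1 hX3
  rw [← hK1] at e1
  rw [← hK2] at e2
  generalize Real.exp (C₁ * r) = P at e1 hP1 ⊢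
  have i1 : X ^ (a + 2 * dg) ≤ X ^ E := pow_le_pow_right₀ hX1 (by omega)
  have i2 : X ^ deg ≤ X ^ E := pow_le_pow_right₀ hX1 (by omega)
  have i3 : 2 ^ a * (BC * (Q + 1) ^ dg * (BC * (1 + P))) * (1 + m) ^ (a + dg) ≤ K1 * P * X ^ E :=
    e1.trans (mul_le_mul_of_nonneg_left i1 (by positivity))
  have i4 : BC * (1 + nv) ≤ K2 * P * X ^ E := by
    refine e2.trans ?_
    calc K2 * X ^ deg ≤ K2 * X ^ E := mul_le_mul_of_nonneg_left i2 (by linarith)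
      _ ≤ K2 * P * X ^ E := by
        refine mul_le_mul_of_nonneg_right ?_ (by positivity)
        exact le_mul_of_one_le_right (by linarith) hP1
  have e : K * P * X ^ E = BC * (K1 * P * X ^ E + K2 * P * X ^ E) := by rw [hK]; ring
  rw [e]
  exact mul_le_mul_of_nonneg_left (add_le_add i3 i4) (by linarith)

/-- **Path containment, final form** (532's field `Geo.PC`). -/
theorem path_sec (B : M.NatBox) : ∃ C : ℝ, 1 ≤ C ∧ ∀ (r : ℝ) (m : ℕ) (w : ℕ → S), 1 ≤ r →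
    (∀ i < m, (M.l ((w i)⁻¹ * w (i + 1)) : ℝ) ≤ r) →
    ∀ q : M.ι → ℝ, (∀ i, 0 ≤ q i) → (∀ i, ∀ j ≤ m, M.wt i (M.θ ((w 0)⁻¹ * w j)) ≤ q i) →
    ∃ n, n ∈ B.Bx (fun i => Real.exp (q i + (C * r + C * Real.log (1 + r * (m + 1))))) ∧
      (w 0)⁻¹ * w m = n * M.sec ((w 0)⁻¹ * w m) := by
  obtain ⟨a, ha⟩ := path_box_aux B
  obtain ⟨C₁, hC₁, hdec⟩ := dec_bound' (M := M)
  have hC0 := M.one_le_C0
  have hBC := B.one_le
  obtain ⟨C, hC, hnum⟩ := pc_numeric a B.dg M.deg hBC hC0 hC₁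
  refine ⟨C, hC, fun r m w hr hw q hq0 hq => ?_⟩
  have hm0 : (0 : ℝ) ≤ m := Nat.cast_nonneg m
  set Q : ℕ := ⌈M.C0 * r⌉₊ with hQ
  have hQ1 : (Q : ℝ) ≤ M.C0 * r + 1 := (Nat.ceil_lt_add_one (by positivity)).le
  obtain ⟨u, c, h1, h2, h3, h4, h5⟩ := ha (Real.exp (C₁ * r)) Q (Real.one_le_exp (by positivity)) m
    (fun j => (w 0)⁻¹ * w j) (by simp) (by
    intro i hi
    have e : ((w 0)⁻¹ * w i)⁻¹ * ((w 0)⁻¹ * w (i + 1)) = (w i)⁻¹ * w (i + 1) := by group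
    rw [e]
    exact hdec r hr _ (hw i hi)) q hq
  set g : S := (w 0)⁻¹ * w m with hg
  -- length of the end point
  have hlen : (M.l g : ℝ) ≤ r * m := by
    have key : ∀ j ≤ m, (M.l ((w 0)⁻¹ * w j) : ℝ) ≤ r * j := by
      intro j
      induction j with
      | zero => intro _; simp [M.len.one]
      | succ j ih =>
        intro hj
        have e : (w 0)⁻¹ * w (j + 1) = (w 0)⁻¹ * w j * ((w j)⁻¹ * w (j + 1)) := by group
        have h6 := ih (by omega)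
        have h7 := hw j (by omega)
        have h8 : (M.l ((w 0)⁻¹ * w (j + 1)) : ℝ) ≤
            M.l ((w 0)⁻¹ * w j) + M.l ((w j)⁻¹ * w (j + 1)) := by
          rw [e]; exact_mod_cast M.len.mul _ _
        push_cast
        linarith
    exact key m le_rfl
  have hθ : ‖M.θ g‖ ≤ M.C0 * (r * m) :=
    (M.η_le g).trans (mul_le_mul_of_nonneg_left hlen (by linarith))
  -- the neutral correction
  set n0 : ℕ := Q * m + ⌈M.C0 * (1 + ‖M.θ g‖)⌉₊ with hn0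
  have hηu : M.η u = 1 := by
    obtain ⟨v, _, rfl⟩ := (M.mem_E u).1 h2
    exact M.η_ex v
  have hηc : M.η c = M.η g := by rw [h1, map_mul, hηu, one_mul]
  have hsec : M.sec g ∈ M.CB ⌈M.C0 * (1 + ‖M.θ g‖)⌉₊ := M.τ_CB (Multiplicative.toAdd (M.η g))
  have hc0 : c * (M.sec g)⁻¹ ∈ M.CB n0 := CB_mul h4 (CB_inv hsec)
  have hη0 : M.η (c * (M.sec g)⁻¹) = 1 := by
    have h6 : M.η (M.sec g) = M.η g := M.η_τ _
    rw [map_mul, map_inv, h6, hηc, mul_inv_cancel]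
  obtain ⟨v0, hv0, hex, hnm⟩ := M.C_ker n0 _ hc0 hη0
  refine ⟨u * M.ex v0, ?_, by rw [hex, h1]; group⟩
  -- the sizes
  have hnum' := hnum r m Q n0 (M.nm v0) hr hm0 (Nat.cast_nonneg _) hQ1 (Nat.cast_nonneg _) (by
    rw [hn0]
    push_cast
    have i1 : (⌈M.C0 * (1 + ‖M.θ g‖)⌉₊ : ℝ) ≤ M.C0 * (1 + ‖M.θ g‖) + 1 :=
      (Nat.ceil_lt_add_one (by positivity)).le
    have i2 : M.C0 * (1 + ‖M.θ g‖) ≤ M.C0 * (1 + M.C0 * (r * m)) :=
      mul_le_mul_of_nonneg_left (by linarith) (by linarith)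
    linarith) (apply_nonneg _ _) hnm
  set A1 : ℝ := 2 ^ a * (B.C * (Q + 1) ^ B.dg * (B.C * (1 + Real.exp (C₁ * r)))) *
    (1 + m) ^ (a + B.dg) with hA1
  have hA10 : 0 ≤ A1 := by positivity
  set A2 : ℝ := B.C * (1 + M.nm v0) with hA2
  have hnm0 : 0 ≤ M.nm v0 := apply_nonneg _ _
  have hA20 : 1 ≤ A2 := one_le_mul_of_one_le_of_one_le hBC (by linarith)
  have hexp : ∀ i, 1 ≤ Real.exp (q i) := fun i => Real.one_le_exp (hq0 i)
  have k1 : u ∈ B.Bx fun i => (A1 + A2) * Real.exp (q i) :=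
    B.mono _ _ (fun i => mul_nonneg hA10 (Real.exp_pos _).le)
      (fun i => mul_le_mul_of_nonneg_right (by linarith) (Real.exp_pos _).le) h3
  have k2 : M.ex v0 ∈ B.Bx fun i => (A1 + A2) * Real.exp (q i) := by
    refine B.mono _ _ (fun i => ?_) (fun i => ?_) (B.ball_0 v0 hv0)
    · by_cases h : M.wt i = 0
      · rw [two_eq h]; linarith
      · rw [two_ne h]; exact zero_le_one
    · have hi := hexp i
      by_cases h : M.wt i = 0
      · rw [two_eq h]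
        calc A2 ≤ A1 + A2 := by linarith
          _ ≤ (A1 + A2) * Real.exp (q i) := le_mul_of_one_le_right (by linarith) hi
      · rw [two_ne h]
        exact one_le_mul_of_one_le_of_one_le (by linarith) hi
  have k3 := B.mul _ (fun i => mul_nonneg (by linarith) (Real.exp_pos _).le) _ k1 _ k2
  refine B.mono _ _ (fun i => mul_nonneg (by linarith)
    (mul_nonneg (by linarith) (Real.exp_pos _).le)) (fun i => ?_) k3
  calc B.C * ((A1 + A2) * Real.exp (q i)) = B.C * (A1 + A2) * Real.exp (q i) := by ring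
    _ ≤ Real.exp (C * r + C * Real.log (1 + r * (m + 1))) * Real.exp (q i) :=
      mul_le_mul_of_nonneg_right hnum' (Real.exp_pos _).le
    _ = _ := by rw [← Real.exp_add, add_comm]

end Agent.P188.H428
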