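import Vale.Agent.P188.H428.PolyRep
import Vale.Agent.P188.H269.Cartan4
import Vale.Agent.P188.H796.Lm

/-!
P188: polynomial bounds for words of the Cartan group on the weight spaces, and for products of
exponentials.
-/

namespace Agent.P188.H428

open Module
open scoped commutatorElement
open Vale.Agent.P188.H269

universe u v w

section cartan

variable {S : Type u} [Group S]
variable {V : Type v} [LieRing V] [LieAlgebra ℝ V] [FiniteDimensional ℝ V]
variable {ρ : S →* Module.End ℝ V} {E : V → S}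

/-- **Polynomial growth of words of the Cartan group on the modulus spaces.** -/
theorem poly_cartan (H : ExpS ρ E) {t : S} (hs : Sep ρ t) {b : S → ℝ} (hb : b ∈ Wts ρ ⊤)
    (nm : Seminorm ℝ V) (hnm : ∀ v, nm v = 0 → v = 0) (Sg : Set S) {K : ℝ} (hK0 : 0 ≤ K)
    (hK : ∀ c ∈ Sg, |b c| ≤ K ∧ ∀ v, nm (ρ c v) ≤ K * nm v) :
    ∃ (C : ℝ) (d : ℕ), 0 ≤ C ∧ ∀ L : List S, (∀ c ∈ L, c ∈ Sg ∧ c ∈ H.C t) →
      ∀ x ∈ W ρ t (b t), nm (ρ L.prod x) ≤ C * (1 + L.length) ^ d * Real.exp (b L.prod) * nm x := by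
  have := H.NC_normal t
  have hbm : ∀ g h, b (g * h) = b g + b h := by
    obtain ⟨A, _, l, χ, h, hb'⟩ := hb
    intro g k
    rw [hb', hb', hb']
    exact h.log_mul g k
  obtain ⟨C, d, hC, h⟩ := poly_growth (H.NC_comm t) (H.ρC t) (H.NC_unip t) (fun c => b c)
    (fun g h => hbm g h) nm hnm {c | (c : S) ∈ Sg} hK0 (fun c hc => hK c hc) (W ρ t (b t))
    (H.WC_inv t _) (fun A' hA' l χ h c => H.weight_eq hs hb hA' h c)
  refine ⟨C, d, hC, fun L hL x hx => ?_⟩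
  have h1 := h (L.pmap (fun c hc => (⟨c, hc⟩ : H.C t)) fun c hc => (hL c hc).2) (by
    intro g hg
    obtain ⟨c, hc, rfl⟩ := List.mem_pmap.1 hg
    exact (hL c hc).1) x hx
  have h2 : (((L.pmap (fun c hc => (⟨c, hc⟩ : H.C t)) fun c hc => (hL c hc).2).prod :
      H.C t) : S) = L.prod := by
    have h3 := map_list_prod (H.C t).subtype
      (L.pmap (fun c hc => (⟨c, hc⟩ : H.C t)) fun c hc => (hL c hc).2)
    rw [List.map_pmap] at h3
    simpa using h3
  rw [List.length_pmap, H.ρC_apply, h2] at h1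
  exact h1

end cartan

section prod

open Vale.Agent.P188.H796
open Vale.Agent.P188.H796.RD

variable {N : Type u} [Group N] {d n : ℕ} {D : MB N d n} {A : Type v} [NormedRing A]
  [NormedAlgebra ℝ A] [FiniteDimensional ℝ A] (R : RD D A)

/-- **Products of exponentials of bounded vectors.** -/
theorem prod_Ex_bound : ∃ (K : ℝ) (e : ℕ), 0 ≤ K ∧ ∀ (P : ℝ), 0 ≤ P → ∀ L : List R.V,
    (∀ v ∈ L, ‖(v : A)‖ ≤ P) →
    ‖((R.Lo (L.map R.Ex).prod : R.V) : A)‖ ≤ K * (1 + L.length * (1 + P)) ^ e := by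
  obtain ⟨C1, hC1, h1⟩ := exists_ex_bound (A := A) R.m
  obtain ⟨C2, hC2, h2⟩ := R.exists_Lo_bound
  set c1 : ℝ := ‖(1 : A)‖ with hc1
  have hc10 : 0 ≤ c1 := norm_nonneg _
  set C3 : ℝ := C1 + c1 + 1 with hC3
  have hC31 : 1 ≤ C3 := by rw [hC3]; linarith
  set C4 : ℝ := c1 * R.m * C3 ^ R.m + c1 + 1 with hC4
  have hC41 : 1 ≤ C4 := by
    rw [hC4]; have : 0 ≤ c1 * R.m * C3 ^ R.m := by positivity
    linarith
  refine ⟨C2 * C4 ^ R.m, (R.m + 1) * R.m * R.m, by positivity, fun P hP L hL => ?_⟩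
  have h3 : ∀ v : R.V, ‖(v : A)‖ ≤ P → ‖R.toA (R.Ex v) - 1‖ ≤ C3 * (1 + P) ^ R.m := by
    intro v hv
    rw [R.toA_Ex]
    refine (norm_sub_le _ _).trans ?_
    have i1 : ‖ex R.m (v : A)‖ ≤ C1 * (1 + P) ^ R.m := by
      refine (h1 _).trans (mul_le_mul_of_nonneg_left ?_ hC1.le)
      exact pow_le_pow_left₀ (by positivity) (by linarith) _
    have i2 : (1 : ℝ) ≤ (1 + P) ^ R.m := one_le_pow₀ (by linarith)
    rw [hC3]
    nlinarith
  set X : ℝ := 1 + L.length * (1 + P) with hX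
  have hX1 : 1 ≤ X := by
    rw [hX]; have : (0 : ℝ) ≤ L.length * (1 + P) := by positivity
    linarith
  have h4 := R.norm_prod_le ((L.map R.Ex).map R.toA) (K := C3 * (1 + P) ^ R.m) (by positivity) (by
    intro u hu
    rw [List.mem_map] at hu
    obtain ⟨s, _, rfl⟩ := hu
    exact R.E_sub_one_mem s) (by
    intro u hu
    rw [List.mem_map] at hu
    obtain ⟨s, hs, rfl⟩ := hu
    rw [List.mem_map] at hs
    obtain ⟨v, hv, rfl⟩ := hs
    exact h3 v (hL v hv))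
  rw [← map_list_prod, List.length_map, List.length_map] at h4
  have h5 : 1 + (L.length : ℝ) * (C3 * (1 + P) ^ R.m) ≤ C3 * X ^ (R.m + 1) := by
    rcases Nat.eq_zero_or_pos L.length with h0 | h0
    · rw [h0, Nat.cast_zero, zero_mul, add_zero]
      have : (1 : ℝ) ≤ X ^ (R.m + 1) := one_le_pow₀ hX1
      nlinarith
    · have h0' : (1 : ℝ) ≤ L.length := by exact_mod_cast h0
      have i1 : 1 + P ≤ X := by rw [hX]; nlinarith
      have i2 : (1 + P) ^ R.m ≤ X ^ R.m := pow_le_pow_left₀ (by positivity) i1 _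
      have i3 : 1 + (L.length : ℝ) ≤ X := by rw [hX]; nlinarith
      have i4 : (1 : ℝ) ≤ X ^ R.m := one_le_pow₀ hX1
      calc 1 + (L.length : ℝ) * (C3 * (1 + P) ^ R.m)
          ≤ C3 * X ^ R.m + (L.length : ℝ) * (C3 * X ^ R.m) := by
            refine add_le_add ?_ (by gcongr)
            nlinarith
        _ = C3 * X ^ R.m * (1 + L.length) := by ring
        _ ≤ C3 * X ^ R.m * X := by gcongr
        _ = _ := by ring
  have h6 : ‖R.toA (L.map R.Ex).prod‖ ≤ c1 * R.m * C3 ^ R.m * X ^ ((R.m + 1) * R.m) := by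
    refine h4.trans ?_
    calc c1 * R.m * (1 + (L.length : ℝ) * (C3 * (1 + P) ^ R.m)) ^ R.m
        ≤ c1 * R.m * (C3 * X ^ (R.m + 1)) ^ R.m := by gcongr
      _ = _ := by rw [mul_pow, ← pow_mul]; ring
  have h7 : 1 + ‖R.toA (L.map R.Ex).prod - 1‖ ≤ C4 * X ^ ((R.m + 1) * R.m) := by
    have i1 := norm_sub_le (R.toA (L.map R.Ex).prod) 1
    have i2 : (1 : ℝ) ≤ X ^ ((R.m + 1) * R.m) := one_le_pow₀ hX1
    rw [hC4]
    nlinarith
  refine (h2 _).trans ?_
  rw [mul_assoc]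
  refine mul_le_mul_of_nonneg_left ?_ hC2.le
  calc (1 + ‖R.toA (L.map R.Ex).prod - 1‖) ^ R.m ≤ (C4 * X ^ ((R.m + 1) * R.m)) ^ R.m :=
        pow_le_pow_left₀ (by positivity) h7 _
    _ = _ := by rw [mul_pow, ← pow_mul]

end prod

end Agent.P188.H428
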