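import Vale.Agent.P188.H269.Semi
import Vale.Agent.P188.H615.SemQ

/-!
P188: polynomial growth of isotypic representations (the polynomial version of 269's adapted
seminorms).
-/

namespace Agent.P188.H428

open Module
open scoped commutatorElement
open Vale.Agent.P188.H269

universe u v w

section cmp

variable {V : Type v} [AddCommGroup V] [Module ℝ V] [FiniteDimensional ℝ V]

/-- every seminorm is dominated by a definite seminorm -/
theorem sem_dom (nm : Seminorm ℝ V) (hnm : ∀ v, nm v = 0 → v = 0) (q : Seminorm ℝ V) :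
    ∃ K : ℝ, 0 ≤ K ∧ ∀ v, q v ≤ K * nm v := by
  obtain ⟨r, φ, σ, hφ, hσ⟩ := Vale.Agent.P188.H615.exists_coord (⊥ : Submodule ℝ V)
  obtain ⟨C, hC1, h1, h2⟩ := Vale.Agent.P188.H615.sem_coord hφ hσ nm (fun x => by
    rw [Submodule.mem_bot]
    exact ⟨hnm x, fun h => by rw [h, map_zero]⟩)
  obtain ⟨C', hC', h3⟩ := Vale.Agent.P188.H615.sem_le (q.comp σ)
  have hid : ∀ x, σ (φ x) = x := by
    intro x
    have h4 : x - σ (φ x) = 0 := by
      rw [← Submodule.mem_bot ℝ, ← hφ, map_sub, hσ, sub_self]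
    exact (sub_eq_zero.1 h4).symm
  refine ⟨C' * C, by positivity, fun v => ?_⟩
  have h4 : q v ≤ C' * ‖φ v‖ := by
    have := h3 (φ v)
    rwa [Seminorm.comp_apply, hid] at this
  refine h4.trans ?_
  rw [mul_assoc]
  exact mul_le_mul_of_nonneg_left (h2 v) hC'

end cmp

section main

variable {G : Type u} [Group G] {V : Type v} [AddCommGroup V] [Module ℝ V]
  [FiniteDimensional ℝ V]

/-- **Polynomial growth of isotypic representations.** -/
theorem poly_growth {N : Subgroup G} [hNn : N.Normal] (hcomm : ∀ a b : G, ⁅a, b⁆ ∈ N)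
    (ρ : G →* Module.End ℝ V) (hU : UnipOn N ρ) (b : G → ℝ)
    (hbm : ∀ g h, b (g * h) = b g + b h)
    (nm : Seminorm ℝ V) (hnm : ∀ v, nm v = 0 → v = 0)
    (S : Set G) {K : ℝ} (hK0 : 0 ≤ K) (hK : ∀ g ∈ S, |b g| ≤ K ∧ ∀ v, nm (ρ g v) ≤ K * nm v)
    (A : Submodule ℝ V) (hA : ∀ g, ∀ x ∈ A, ρ g x ∈ A)
    (hb : ∀ A' ≤ A, ∀ l χ, EigOn ρ A' l χ → ∀ g, Real.log ‖χ g‖ = b g) :
    ∃ (C : ℝ) (d : ℕ), 0 ≤ C ∧ ∀ L : List G, (∀ g ∈ L, g ∈ S) → ∀ x ∈ A,
      nm (ρ L.prod x) ≤ C * (1 + L.length) ^ d * Real.exp (b L.prod) * nm x := by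
  classical
  generalize hn : finrank ℝ A = n
  induction n using Nat.strong_induction_on generalizing A with
  | _ n ih =>
  rcases (bot_le : (⊥ : Submodule ℝ V) ≤ A).eq_or_lt with heq | hlt
  · refine ⟨0, 0, le_rfl, fun L _ x hx => ?_⟩
    rw [← heq, Submodule.mem_bot] at hx
    rw [hx, map_zero, map_zero, mul_zero]
  · obtain ⟨l, χ, hl, _⟩ := exists_eigOn hcomm ρ hU A ⊥ hA (by
      intro g x hx
      rw [Submodule.mem_bot] at hx ⊢
      rw [hx, map_zero]) hlt
    obtain ⟨C, d, hC0, hC⟩ := ih _ (hn ▸ Submodule.finrank_lt_finrank_of_lt hl.ker_lt)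
      (A ⊓ LinearMap.ker l) hl.ker_inv
      (fun A' hA' l' χ' h' => hb A' (hA'.trans inf_le_left) l' χ' h') rfl
    -- a linear section
    obtain ⟨σ, hσA, hσ⟩ : ∃ σ : ℂ →ₗ[ℝ] V, (∀ x ∈ A, σ (l x) ∈ A) ∧
        ∀ x ∈ A, l (σ (l x)) = l x := by
      let lA : A →ₗ[ℝ] ℂ := l ∘ₗ A.subtype
      obtain ⟨s, hs⟩ := LinearMap.exists_rightInverse_of_surjective lA.rangeRestrict
        (LinearMap.range_rangeRestrict lA)
      obtain ⟨σ, hσ⟩ := LinearMap.exists_extend (A.subtype ∘ₗ s)
      have hval : ∀ x (hx : x ∈ A), σ (l x) = (s ⟨l x, ⟨⟨x, hx⟩, rfl⟩⟩ : A) := by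
        intro x hx
        exact congrArg (fun m : (LinearMap.range lA) →ₗ[ℝ] V => m ⟨l x, ⟨⟨x, hx⟩, rfl⟩⟩) hσ
      refine ⟨σ, ?_, ?_⟩
      · intro x hx
        rw [hval x hx]; exact Submodule.coe_mem _
      · intro x hx
        rw [hval x hx]
        have h1 := congrArg (fun m : (LinearMap.range lA) →ₗ[ℝ] (LinearMap.range lA) =>
          (m ⟨l x, ⟨⟨x, hx⟩, rfl⟩⟩ : ℂ)) hs
        exact h1
    -- the modulus of the character
    have hχ : ∀ g, ∀ x ∈ A, ‖l (ρ g x)‖ = Real.exp (b g) * ‖l x‖ := by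
      intro g x hx
      rw [hl.eig g x hx, norm_mul]
      congr 1
      rw [← hb A le_rfl l χ hl g, Real.exp_log (norm_pos_iff.2 (hl.ne_zero g))]
    obtain ⟨K1, hK1, h1⟩ := seminorm_bound (nm.comp σ)
    obtain ⟨K2, hK2, h2⟩ := sem_dom nm hnm ((normSeminorm ℝ ℂ).comp l)
    have h2' : ∀ v, ‖l v‖ ≤ K2 * nm v := h2
    have h1' : ∀ z, nm (σ z) ≤ K1 * ‖z‖ := h1
    let π : V → V := fun x => x - σ (l x)
    have hπA : ∀ x ∈ A, π x ∈ A ⊓ LinearMap.ker l := by
      intro x hx
      refine ⟨A.sub_mem hx (hσA x hx), ?_⟩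
      change l (x - σ (l x)) = 0
      rw [map_sub, hσ x hx, sub_self]
    -- the error of one step
    set E : ℝ := K * K1 + K1 * Real.exp K with hE
    have hE0 : 0 ≤ E := by positivity
    have herr : ∀ g ∈ S, ∀ x ∈ A, ρ g (σ (l x)) - σ (l (ρ g x)) ∈ A ⊓ LinearMap.ker l ∧
        nm (ρ g (σ (l x)) - σ (l (ρ g x))) ≤ E * ‖l x‖ := by
      intro g hg x hx
      constructor
      · refine ⟨A.sub_mem (hA g _ (hσA x hx)) (hσA _ (hA g x hx)), ?_⟩
        change l (ρ g (σ (l x)) - σ (l (ρ g x))) = 0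
        rw [map_sub, hσ _ (hA g x hx), hl.eig g _ (hσA x hx), hσ x hx, hl.eig g x hx, sub_self]
      · refine (map_sub_le_add nm _ _).trans ?_
        have e1 : nm (ρ g (σ (l x))) ≤ K * (K1 * ‖l x‖) :=
          ((hK g hg).2 _).trans (mul_le_mul_of_nonneg_left (h1' _) hK0)
        have e2 : nm (σ (l (ρ g x))) ≤ K1 * (Real.exp K * ‖l x‖) := by
          refine (h1' _).trans (mul_le_mul_of_nonneg_left ?_ hK1)
          rw [hχ g x hx]
          refine mul_le_mul_of_nonneg_right ?_ (norm_nonneg _)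
          exact Real.exp_le_exp.2 ((le_abs_self _).trans (hK g hg).1)
        rw [hE]
        nlinarith
    -- the kernel component along a word
    set K3 : ℝ := E * Real.exp K with hK3
    have hK30 : 0 ≤ K3 := by positivity
    have hinvL : ∀ L : List G, ∀ x ∈ A, ρ L.prod x ∈ A := fun L x hx => hA _ x hx
    have key : ∀ L : List G, (∀ g ∈ L, g ∈ S) → ∀ M : List G, (∀ g ∈ M, g ∈ S) → ∀ x ∈ A,
        nm (ρ M.prod (π (ρ L.prod x))) ≤ Real.exp (b (M.prod * L.prod)) *
          (C * (1 + M.length + L.length) ^ d) * (nm (π x) + L.length * (K3 * ‖l x‖)) := by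
      intro L
      induction L with
      | nil =>
        intro _ M hM x hx
        rw [List.prod_nil, map_one, Module.End.one_apply, mul_one, List.length_nil]
        have h3 := hC M hM _ (hπA x hx)
        simp only [Nat.cast_zero, zero_mul, add_zero]
        refine h3.trans (le_of_eq ?_)
        ring
      | cons g L ihL =>
        intro hL M hM x hx
        have hgS : g ∈ S := hL g List.mem_cons_self
        have hL' : ∀ h ∈ L, h ∈ S := fun h hh => hL h (List.mem_cons_of_mem _ hh)
        have hwA : ρ L.prod x ∈ A := hinvL L x hx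
        have h3 := ihL hL' (M ++ [g]) (by
          intro h hh
          rcases List.mem_append.1 hh with hh | hh
          · exact hM h hh
          · rw [List.mem_singleton] at hh
            rw [hh]; exact hgS) x hx
        have h4 := hC M hM _ (herr g hgS _ hwA).1
        have e0 : π (ρ (g :: L).prod x) = ρ g (π (ρ L.prod x)) +
            (ρ g (σ (l (ρ L.prod x))) - σ (l (ρ g (ρ L.prod x)))) := by
          change ρ (g :: L).prod x - σ (l (ρ (g :: L).prod x)) =
            ρ g (ρ L.prod x - σ (l (ρ L.prod x))) + _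
          rw [List.prod_cons, map_mul, Module.End.mul_apply, map_sub]
          abel
        rw [e0, map_add]
        refine (map_add_le_add nm _ _).trans ?_
        rw [List.prod_append, List.prod_singleton, map_mul, Module.End.mul_apply,
          List.length_append, List.length_singleton] at h3
        -- the error term
        have h5 : nm (ρ M.prod (ρ g (σ (l (ρ L.prod x))) - σ (l (ρ g (ρ L.prod x))))) ≤
            Real.exp (b (M.prod * (g :: L).prod)) *
              (C * (1 + M.length + (g :: L).length) ^ d) * (K3 * ‖l x‖) := by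
          refine h4.trans ?_
          have h6 : nm (ρ g (σ (l (ρ L.prod x))) - σ (l (ρ g (ρ L.prod x)))) ≤
              E * (Real.exp (b L.prod) * ‖l x‖) := by
            refine (herr g hgS _ hwA).2.trans ?_
            rw [hχ _ x hx]
          have h7 : Real.exp (b M.prod) * (E * (Real.exp (b L.prod) * ‖l x‖)) ≤
              Real.exp (b (M.prod * (g :: L).prod)) * (K3 * ‖l x‖) := by
            rw [List.prod_cons, hbm, hbm, Real.exp_add, Real.exp_add, hK3]
            have h8 : 1 ≤ Real.exp (b g) * Real.exp K := by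
              rw [← Real.exp_add]
              refine Real.one_le_exp ?_
              have := (abs_le.1 (hK g hgS).1).1
              linarith
            have h9 : 0 ≤ Real.exp (b M.prod) * (E * (Real.exp (b L.prod) * ‖l x‖)) := by
              positivity
            calc Real.exp (b M.prod) * (E * (Real.exp (b L.prod) * ‖l x‖))
                ≤ Real.exp (b M.prod) * (E * (Real.exp (b L.prod) * ‖l x‖)) *
                  (Real.exp (b g) * Real.exp K) := le_mul_of_one_le_right h9 h8
              _ = _ := by ring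
          have h10 : (1 + (M.length : ℝ)) ^ d ≤ (1 + M.length + (g :: L).length) ^ d :=
            pow_le_pow_left₀ (by positivity) (by
              have : (0 : ℝ) ≤ (g :: L).length := Nat.cast_nonneg _
              linarith) d
          calc C * (1 + (M.length : ℝ)) ^ d * Real.exp (b M.prod) *
                nm (ρ g (σ (l (ρ L.prod x))) - σ (l (ρ g (ρ L.prod x))))
              ≤ C * (1 + (M.length : ℝ)) ^ d * Real.exp (b M.prod) *
                (E * (Real.exp (b L.prod) * ‖l x‖)) :=
                mul_le_mul_of_nonneg_left h6 (by positivity)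
            _ = C * (1 + (M.length : ℝ)) ^ d *
                (Real.exp (b M.prod) * (E * (Real.exp (b L.prod) * ‖l x‖))) := by ring
            _ ≤ C * (1 + M.length + (g :: L).length) ^ d *
                (Real.exp (b (M.prod * (g :: L).prod)) * (K3 * ‖l x‖)) :=
                mul_le_mul (mul_le_mul_of_nonneg_left h10 hC0) h7 (by positivity) (by positivity)
            _ = _ := by ring
        have h11 : (1 + ((M.length + 1 : ℕ) : ℝ) + L.length) = 1 + M.length + (g :: L).length := by
          rw [List.length_cons]; push_cast; ring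
        rw [h11, mul_assoc M.prod g L.prod, ← List.prod_cons] at h3
        refine (add_le_add h3 h5).trans (le_of_eq ?_)
        rw [List.length_cons]
        push_cast
        ring
    -- conclusion
    obtain ⟨K4, hK4, h4⟩ := sem_dom nm hnm (nm.comp (LinearMap.id - σ ∘ₗ l))
    have h4' : ∀ x, nm (π x) ≤ K4 * nm x := h4
    refine ⟨C * (K4 + K3 * K2) + K1 * K2, d + 1, by positivity, fun L hL x hx => ?_⟩
    have h5 := key L hL [] (by simp) x hx
    rw [List.prod_nil, map_one, Module.End.one_apply, one_mul, List.length_nil, Nat.cast_zero,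
      add_zero] at h5
    have h6 : nm (ρ L.prod x) ≤ nm (π (ρ L.prod x)) + nm (σ (l (ρ L.prod x))) := by
      have e1 : ρ L.prod x = π (ρ L.prod x) + σ (l (ρ L.prod x)) := by
        change _ = ρ L.prod x - σ (l (ρ L.prod x)) + σ (l (ρ L.prod x))
        abel
      calc nm (ρ L.prod x) = nm (π (ρ L.prod x) + σ (l (ρ L.prod x))) := congrArg nm e1
        _ ≤ _ := map_add_le_add nm _ _
    have h7 : nm (σ (l (ρ L.prod x))) ≤ Real.exp (b L.prod) * (K1 * K2 * nm x) := by
      refine (h1' _).trans ?_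
      rw [hχ _ x hx]
      have := mul_le_mul_of_nonneg_left (h2' x) (by positivity : 0 ≤ K1 * Real.exp (b L.prod))
      calc K1 * (Real.exp (b L.prod) * ‖l x‖) = K1 * Real.exp (b L.prod) * ‖l x‖ := by ring
        _ ≤ _ := this
        _ = _ := by ring
    have hlen : (1 : ℝ) ≤ 1 + L.length := by linarith [(Nat.cast_nonneg L.length : (0:ℝ) ≤ L.length)]
    have h8 : nm (π x) + L.length * (K3 * ‖l x‖) ≤ (1 + L.length) * ((K4 + K3 * K2) * nm x) := by
      have i1 := h4' x
      have i2 : K3 * ‖l x‖ ≤ K3 * (K2 * nm x) := mul_le_mul_of_nonneg_left (h2' x) hK30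
      have i3 : (L.length : ℝ) * (K3 * ‖l x‖) ≤ L.length * (K3 * (K2 * nm x)) :=
        mul_le_mul_of_nonneg_left i2 (Nat.cast_nonneg _)
      have i4 : 0 ≤ K4 * nm x := mul_nonneg hK4 (apply_nonneg _ _)
      have i5 : 0 ≤ K3 * (K2 * nm x) := mul_nonneg hK30 (mul_nonneg hK2 (apply_nonneg _ _))
      have i6 : 0 ≤ (L.length : ℝ) * (K4 * nm x) := mul_nonneg (Nat.cast_nonneg _) i4
      nlinarith
    have h9 : (1 : ℝ) ≤ (1 + (L.length : ℝ)) ^ (d + 1) := one_le_pow₀ hlen
    have hx0 : 0 ≤ nm x := apply_nonneg _ _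
    calc nm (ρ L.prod x) ≤ Real.exp (b L.prod) * (C * (1 + (L.length : ℝ)) ^ d) *
          (nm (π x) + L.length * (K3 * ‖l x‖)) + Real.exp (b L.prod) * (K1 * K2 * nm x) :=
          h6.trans (add_le_add h5 h7)
      _ ≤ Real.exp (b L.prod) * (C * (1 + (L.length : ℝ)) ^ d) *
          ((1 + L.length) * ((K4 + K3 * K2) * nm x)) +
          Real.exp (b L.prod) * (K1 * K2 * nm x) * (1 + (L.length : ℝ)) ^ (d + 1) := by
          refine add_le_add (mul_le_mul_of_nonneg_left h8 (by positivity)) ?_
          exact le_mul_of_one_le_right (by positivity) h9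
      _ = _ := by ring

end main

end Agent.P188.H428
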