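import Vale.Agent.P188.H428.SStepE
import Vale.Agent.P188.H428.Lcs

/-!
# Concentration in a measured group: every right translation moves `W` little at most points
-/

set_option linter.unusedSectionVars false

namespace Agent.P188.H428.SM

open Finset MeasureTheory
open scoped ENNReal NNReal commutatorElement

variable {S : Type*} [Group S] [MeasurableSpace S]
variable {𝔸 : Type*} [Group 𝔸]
variable {E : Type*} [NormedAddCommGroup E]

/-- Bounded generation by commutators with length control. -/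
def Gen (l : S → ℕ) (N : Subgroup S) (p Cg : ℕ) : Prop :=
  ∀ i R : ℕ, 1 ≤ R → ∀ x ∈ lcs N (i + 1), l x ≤ R → ∃ ps : List (S × S), ps.length ≤ p ∧
    (∀ q ∈ ps, q.1 ∈ lcs N i ∧ q.2 ∈ N ∧ l q.1 ≤ Cg * R ∧ l q.2 ≤ Cg * R) ∧
    x⁻¹ * (ps.map fun q => ⁅q.1, q.2⁆).prod ∈ lcs N (i + 2)

/-- length functions -/
structure IsLen (l : S → ℕ) : Prop where
  one : l 1 = 0
  mul : ∀ x y, l (x * y) ≤ l x + l y
  inv : ∀ x, l x⁻¹ = l x
  cut : ∀ R J : ℕ, 1 ≤ R → ∀ x, l x ≤ J * R → ∃ g : Fin J → S, (∀ i, l (g i) ≤ R) ∧ xp J g = x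

/-- All the data at the base scale `R1`. -/
structure Setup (μ : Measure S) (l : S → ℕ) (N : Subgroup S) [N.Normal] (C1 M : ℕ) (W : S → E)
    (L : ℝ) (R1 : ℕ) (φ : 𝔸 → S) (B Bs : Finset 𝔸) (α ε κ : ℝ) : Prop where
  hR1 : 1 ≤ R1
  hL : 0 ≤ L
  hW : ∀ z h, ‖W (z * h) - W z‖ ≤ L * l h
  hWm : ∀ x, Measurable fun z => ‖W (z * x) - W z‖
  box : Noise l N C1 M R1 φ B Bs
  hα : 0 ≤ α
  hκ : 0 < κ
  hε0 : 0 ≤ ε
  hε : (M : ℝ) * M * ε * ((1024 : ℝ) ^ (1 / κ)) ^ 2 ≤ 1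
  flat : Flat l W R1 φ B α ε

/-- rate of invariance needed -/
noncomputable def tht (B : Finset 𝔸) : ℝ := 1 / (16 * ((B.card : ℝ) * B.card))

/-- drift per unit of `J`. -/
noncomputable def tau (C1 R1 : ℕ) (L α κ : ℝ) : ℝ := α + L * ((2 * C1 + 1) * R1 : ℕ) * κ

lemma tht_pos {B : Finset 𝔸} (hB : B.Nonempty) : 0 < tht B := by
  have : (0 : ℝ) < B.card := by exact_mod_cast hB.card_pos
  unfold tht; positivity

lemma tht_le {B : Finset 𝔸} (hB : B.Nonempty) : tht B ≤ 1 / 16 := by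
  have h1 : (1 : ℝ) ≤ B.card := by exact_mod_cast hB.card_pos
  unfold tht
  have : (16 : ℝ) ≤ 16 * ((B.card : ℝ) * B.card) := by nlinarith
  exact one_div_le_one_div_of_le (by norm_num) this

lemma tht_mul {B : Finset 𝔸} (hB : B.Nonempty) : (B.card * B.card : ℝ) * tht B = 1 / 16 := by
  have h1 : (0 : ℝ) < B.card := by exact_mod_cast hB.card_pos
  unfold tht; field_simp

/-- invariance condition at scale `J`. -/
def FolJ (l : S → ℕ) (R1 : ℕ) (B : Finset 𝔸) (μ : Measure S) (Q : Set S) (F J : ℕ) : Prop :=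
  Fol l μ Q (F * (R1 * J)) (tht B ^ (F * J))

lemma FolJ.use {l : S → ℕ} {R1 : ℕ} {B : Finset 𝔸} {μ : Measure S} {Q : Set S} {F J : ℕ}
    (hB : B.Nonempty)
    (h : FolJ l R1 B μ Q F J) {r k : ℕ} (hr : r ≤ F * (R1 * J)) (hk : k ≤ F * J) :
    Fol l μ Q r (tht B ^ k) := by
  intro y hy
  refine (h y (hy.trans hr)).trans (mul_le_mul_of_nonneg_right ?_ measureReal_nonneg)
  exact pow_le_pow_of_le_one (tht_pos hB).le ((tht_le hB).trans (by norm_num)) hk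

lemma FolJ.scale {l : S → ℕ} {R1 : ℕ} {B : Finset 𝔸} {μ : Measure S} {Q : Set S}
    {F F' k J : ℕ} (hB : B.Nonempty)
    (h : FolJ l R1 B μ Q F J) (hk : F' * k ≤ F) : FolJ l R1 B μ Q F' (k * J) := by
  refine h.use hB ?_ ?_
  · calc F' * (R1 * (k * J)) = (F' * k) * (R1 * J) := by ring
      _ ≤ F * (R1 * J) := Nat.mul_le_mul_right _ hk
  · calc F' * (k * J) = (F' * k) * J := by ring
      _ ≤ F * J := Nat.mul_le_mul_right _ hk

lemma pow16_le {B : Finset 𝔸} (hB : B.Nonempty) {k J : ℕ} (hk : J ≤ k) :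
    tht B ^ k ≤ (1 / 16 : ℝ) ^ J := by
  calc tht B ^ k ≤ tht B ^ J :=
        pow_le_pow_of_le_one (tht_pos hB).le ((tht_le hB).trans (by norm_num)) hk
    _ ≤ (1 / 16 : ℝ) ^ J := pow_le_pow_left₀ (tht_pos hB).le (tht_le hB) J

lemma Setup.Bne {μ : Measure S} {l : S → ℕ} {N : Subgroup S} [N.Normal] {C1 M : ℕ} {W : S → E}
    {L : ℝ} {R1 : ℕ} {φ : 𝔸 → S} {B Bs : Finset 𝔸} {α ε κ : ℝ}
    (D : Setup μ l N C1 M W L R1 φ B Bs α ε κ) : B.Nonempty :=
  D.box.ne.mono D.box.sub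

lemma Setup.tau_nonneg {μ : Measure S} {l : S → ℕ} {N : Subgroup S} [N.Normal] {C1 M : ℕ}
    {W : S → E} {L : ℝ} {R1 : ℕ} {φ : 𝔸 → S} {B Bs : Finset 𝔸} {α ε κ : ℝ}
    (D : Setup μ l N C1 M W L R1 φ B Bs α ε κ) : 0 ≤ tau C1 R1 L α κ := by
  have h1 := D.hL
  have h2 := D.hα
  have h3 := D.hκ
  unfold tau; positivity

/-- Goodness at scale `J` with constants `a b r`. -/
def GdJ (l : S → ℕ) (W : S → E) (μ : Measure S) (Q : Set S) (R1 : ℕ) (t0 : ℝ) (a b r J : ℕ)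
    (x : S) : Prop :=
  Gd l W μ Q (a * (t0 * J)) (b * (1 / 16) ^ J) (r * (R1 * J)) x

/-- Level zero: every `x`, modulo `⁅N, N⁆`. -/
lemma level_zero {μ : Measure S} (l : S → ℕ) (hl : IsLen l) (N : Subgroup S) [N.Normal]
    (C1 M : ℕ) (W : S → E) (L : ℝ) (R1 : ℕ) (φ : 𝔸 → S) (B Bs : Finset 𝔸) (α ε κ : ℝ)
    (D : Setup μ l N C1 M W L R1 φ B Bs α ε κ) (J : ℕ) (hJ : 1 ≤ J) (Q : Set S)
    (hM : MG μ l W Q) (hQ0 : μ Q ≠ 0) (hQ : FolJ l R1 B μ Q (2 * (2 * C1 + 1)) J) (x : S)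
    (hx : l x ≤ R1 * J) :
    ∃ d, x⁻¹ * d ∈ lcs N 1 ∧ GdJ l W μ Q R1 (tau C1 R1 L α κ) 3 6 (3 * (2 * C1 + 1)) J d := by
  have hB := D.Bne
  obtain ⟨g, hg, rfl⟩ := hl.cut R1 J D.hR1 x (by rw [mul_comm]; exact hx)
  have hφ' := pow16_le hB (le_refl J)
  obtain ⟨d, hd1, hd2⟩ := exists_Gd_mod l W Q hM hl.one hQ0 N L D.hL D.hW C1 M R1 φ B Bs D.box
    α ε κ D.hα D.hκ D.hε0 D.hε D.flat J hJ g hg (tht B ^ J)
    (pow_nonneg (tht_pos hB).le _) (hQ.use hB (by apply le_of_eq; ring) (by nlinarith))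
    (by rw [← mul_pow, tht_mul hB]; exact pow_le_one₀ (by norm_num) (by norm_num)) hφ'
  refine ⟨d, hd1, ?_⟩
  unfold GdJ
  refine hd2.mono hM ?_ ?_ ?_
  · unfold tau; push_cast; apply le_of_eq; ring
  · push_cast; exact le_refl _
  · apply le_of_eq; ring

lemma Gd.comm {μ : Measure S} {l : S → ℕ} {W : S → E} {Q : Set S} (hM : MG μ l W Q)
    {τ1 τ2 δ1 δ2 ψ : ℝ} {r1 r2 : ℕ} {x y : S} (hx : Gd l W μ Q τ1 δ1 r1 x)
    (hy : Gd l W μ Q τ2 δ2 r2 y) (hQ : Fol l μ Q (2 * (r1 + r2)) ψ) :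
    Gd l W μ Q (2 * (τ1 + τ2)) (2 * (δ1 + δ2) + 5 * ψ) (2 * (r1 + r2)) ⁅x, y⁆ := by
  have f : ∀ r ≤ 2 * (r1 + r2), Fol l μ Q r ψ := fun r hr z hz => hQ z (hz.trans hr)
  have h1 := hx.mul hM hy (f r1 (by omega))
  have h2 := h1.mul hM (hx.inv hM (f r1 (by omega))) (f _ (by omega))
  have h3 := h2.mul hM (hy.inv hM (f r2 (by omega))) (f _ (by omega))
  rw [commutatorElement_def]
  exact h3.mono hM (by linarith) (by linarith) (by omega)

lemma Gd.list_prod {μ : Measure S} {l : S → ℕ} (hl1 : l 1 = 0) {W : S → E} {Q : Set S}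
    (hM : MG μ l W Q) {τ δ ψ : ℝ}
    {r : ℕ} (xs : List S) (hxs : ∀ x ∈ xs, Gd l W μ Q τ δ r x)
    (hQ : Fol l μ Q (xs.length * r) ψ) (hψ : 0 ≤ ψ) :
    Gd l W μ Q (xs.length * τ) (xs.length * (δ + ψ)) (xs.length * r) xs.prod := by
  induction xs with
  | nil =>
    refine ⟨by simp [hl1], ?_⟩
    simp [devi]
  | cons x xs ih =>
    have h1 := hxs x List.mem_cons_self
    have hlen : (x :: xs).length = xs.length + 1 := rfl
    rw [hlen] at hQ ⊢
    have h2 := ih (fun y hy => hxs y (List.mem_cons_of_mem _ hy))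
      (fun y hy => hQ y (hy.trans (by nlinarith)))
    have h3 := h1.mul hM h2 (fun y hy => hQ y (hy.trans (by nlinarith)))
    rw [List.prod_cons]
    refine h3.mono hM ?_ ?_ ?_
    · push_cast; apply le_of_eq; ring
    · push_cast; linarith
    · apply le_of_eq; ring

/-- Level `i` constants exist. -/
lemma level {μ : Measure S} (l : S → ℕ) (hl : IsLen l) (N : Subgroup S) [N.Normal] (p Cg : ℕ)
    (hCg : 1 ≤ Cg) (hgen : Gen l N p Cg) (C1 M : ℕ) (i : ℕ) :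
    ∃ a b r F : ℕ, ∀ (W : S → E) (L : ℝ) (R1 : ℕ) (φ : 𝔸 → S) (B Bs : Finset 𝔸) (α ε κ : ℝ),
      Setup μ l N C1 M W L R1 φ B Bs α ε κ → ∀ J : ℕ, 1 ≤ J → ∀ Q : Set S, MG μ l W Q →
      μ Q ≠ 0 → FolJ l R1 B μ Q F J → ∀ x ∈ lcs N i, l x ≤ R1 * J →
      ∃ d, x⁻¹ * d ∈ lcs N (i + 1) ∧ GdJ l W μ Q R1 (tau C1 R1 L α κ) a b r J d := by
  induction i with
  | zero =>
    refine ⟨3, 6, 3 * (2 * C1 + 1), 2 * (2 * C1 + 1), ?_⟩
    intro W L R1 φ B Bs α ε κ D J hJ Q hM hQ0 hQ x _ hx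
    exact level_zero l hl N C1 M W L R1 φ B Bs α ε κ D J hJ Q hM hQ0 hQ x hx
  | succ i ih =>
    obtain ⟨a, b, r, F, H⟩ := ih
    set r0 : ℕ := 3 * (2 * C1 + 1) with hr0
    set F0 : ℕ := 2 * (2 * C1 + 1) with hF0
    refine ⟨p * (2 * (a + 3)) * Cg, p * (2 * (b + 6) + 6), p * (2 * (r + r0)) * Cg,
      F * Cg + F0 * Cg + (p + 1) * (2 * (r + r0)) * Cg + 1, ?_⟩
    intro W L R1 φ B Bs α ε κ D J hJ Q hM hQ0 hQ x hxi hx
    have hB := D.Bne
    have hR1 := D.hR1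
    have hRJ : 1 ≤ R1 * J := Nat.mul_pos hR1 hJ
    have hτ := D.tau_nonneg
    set t0 := tau C1 R1 L α κ with ht0
    obtain ⟨ps, hps1, hps2, hps3⟩ := hgen i (R1 * J) hRJ x hxi hx
    set ψ : ℝ := tht B ^ J with hψdef
    have hψ0 : 0 ≤ ψ := pow_nonneg (tht_pos hB).le _
    have hψ16 : ψ ≤ (1 / 16) ^ J := pow16_le hB (le_refl J)
    have hQF : FolJ l R1 B μ Q F (Cg * J) := hQ.scale hB (by
      nlinarith [Nat.zero_le (F0 * Cg), Nat.zero_le ((p + 1) * (2 * (r + r0)) * Cg)])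
    have hQF0 : FolJ l R1 B μ Q F0 (Cg * J) := hQ.scale hB (by
      nlinarith [Nat.zero_le (F * Cg), Nat.zero_le ((p + 1) * (2 * (r + r0)) * Cg)])
    have hrad : ∀ k : ℕ, k ≤ (p + 1) * (2 * (r + r0)) * Cg * (R1 * J) → Fol l μ Q k ψ := by
      intro k hk
      refine hQ.use hB (hk.trans ?_) ?_
      · refine Nat.mul_le_mul_right _ ?_
        omega
      · calc J = 1 * J := (one_mul J).symm
          _ ≤ _ := Nat.mul_le_mul_right _ (by omega)
    -- choose good representatives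
    have hJ' : 1 ≤ Cg * J := Nat.mul_pos hCg hJ
    have hrep : ∀ q ∈ ps, ∃ e : S, (QuotientGroup.mk' (lcs N (i + 2))) e
        = (QuotientGroup.mk' (lcs N (i + 2))) ⁅q.1, q.2⁆ ∧
        Gd l W μ Q ((2 * (a + 3)) * Cg * (t0 * J)) ((2 * (b + 6) + 5) * (1 / 16) ^ J)
          ((2 * (r + r0)) * Cg * (R1 * J)) e := by
      intro q hq
      obtain ⟨hq1, hq2, hq3, hq4⟩ := hps2 q hq
      obtain ⟨d, hd1, hd2⟩ := H W L R1 φ B Bs α ε κ D (Cg * J) hJ' Q hM hQ0 hQF q.1 hq1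
        (by rw [show R1 * (Cg * J) = Cg * (R1 * J) by ring]; exact hq3)
      obtain ⟨d', hd1', hd2'⟩ := level_zero l hl N C1 M W L R1 φ B Bs α ε κ D (Cg * J) hJ' Q hM
        hQ0 hQF0 q.2 (by rw [show R1 * (Cg * J) = Cg * (R1 * J) by ring]; exact hq4)
      refine ⟨⁅d, d'⁆, commutator_congr N i q.1 q.2 d d' hq1 hq2 hd1 hd1', ?_⟩
      unfold GdJ at hd2 hd2'
      have h16 : (1 / 16 : ℝ) ^ (Cg * J) ≤ (1 / 16) ^ J :=
        pow_le_pow_of_le_one (by norm_num) (by norm_num) (by nlinarith)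
      have h := hd2.comm hM hd2' (ψ := ψ) (hrad _ (by
        calc 2 * (r * (R1 * (Cg * J)) + 3 * (2 * C1 + 1) * (R1 * (Cg * J)))
            = 1 * ((2 * (r + r0)) * Cg * (R1 * J)) := by rw [hr0]; ring
          _ ≤ (p + 1) * ((2 * (r + r0)) * Cg * (R1 * J)) := Nat.mul_le_mul_right _ (by omega)
          _ = (p + 1) * (2 * (r + r0)) * Cg * (R1 * J) := by ring))
      refine h.mono hM ?_ ?_ ?_
      · push_cast; apply le_of_eq; ring
      · push_cast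
        have e1 : (b : ℝ) * (1 / 16) ^ (Cg * J) ≤ b * (1 / 16) ^ J :=
          mul_le_mul_of_nonneg_left h16 (Nat.cast_nonneg _)
        linarith
      · rw [hr0]; apply le_of_eq; ring
    choose! e he1 he2 using hrep
    set xs : List S := ps.map e with hxs
    have hxlen : xs.length = ps.length := by rw [hxs, List.length_map]
    have hprod := Gd.list_prod hl.one hM (ψ := ψ) xs (by
        intro y hy
        rw [hxs, List.mem_map] at hy
        obtain ⟨q, hq, rfl⟩ := hy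
        exact he2 q hq) (hrad _ (by
        rw [hxlen]
        calc ps.length * ((2 * (r + r0)) * Cg * (R1 * J))
            ≤ (p + 1) * ((2 * (r + r0)) * Cg * (R1 * J)) := Nat.mul_le_mul_right _ (by omega)
          _ = (p + 1) * (2 * (r + r0)) * Cg * (R1 * J) := by ring)) hψ0
    refine ⟨xs.prod, ?_, ?_⟩
    · have h1 : (QuotientGroup.mk' (lcs N (i + 2))) xs.prod
          = (QuotientGroup.mk' (lcs N (i + 2))) (ps.map fun q => ⁅q.1, q.2⁆).prod := by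
        rw [map_list_prod, map_list_prod, hxs, List.map_map, List.map_map]
        congr 1
        exact List.map_congr_left fun q hq => he1 q hq
      have h2 : (QuotientGroup.mk' (lcs N (i + 2))) x
          = (QuotientGroup.mk' (lcs N (i + 2))) (ps.map fun q => ⁅q.1, q.2⁆).prod := by
        change ((x : S) : S ⧸ lcs N (i + 2)) = _
        exact QuotientGroup.eq.2 hps3
      have h3 : ((x : S) : S ⧸ lcs N (i + 2)) = (xs.prod : S) := h2.trans h1.symm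
      exact QuotientGroup.eq.1 h3
    · unfold GdJ
      have hp : (ps.length : ℝ) ≤ p := by exact_mod_cast hps1
      rw [hxlen] at hprod
      refine hprod.mono hM ?_ ?_ ?_
      · push_cast
        have : (0 : ℝ) ≤ 2 * (a + 3) * Cg * (t0 * J) := by positivity
        calc (ps.length : ℝ) * (2 * (a + 3) * Cg * (t0 * J))
            ≤ p * (2 * (a + 3) * Cg * (t0 * J)) := mul_le_mul_of_nonneg_right hp this
          _ = _ := by ring
      · push_cast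
        have h0 : (0 : ℝ) ≤ (1 / 16) ^ J := by positivity
        calc (ps.length : ℝ) * ((2 * (b + 6) + 5) * (1 / 16) ^ J + ψ)
            ≤ p * ((2 * (b + 6) + 5) * (1 / 16) ^ J + (1 / 16) ^ J) := by
              apply mul_le_mul hp _ _ (Nat.cast_nonneg _)
              · linarith
              · positivity
          _ = _ := by ring
      · calc ps.length * (2 * (r + r0) * Cg * (R1 * J))
            ≤ p * (2 * (r + r0) * Cg * (R1 * J)) := Nat.mul_le_mul_right _ hps1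
          _ = _ := by ring

/-- Descent: every `x` modulo `lcs N (i+1)`. -/
lemma descent {μ : Measure S} (l : S → ℕ) (hl : IsLen l) (N : Subgroup S) [N.Normal] (p Cg : ℕ)
    (hCg : 1 ≤ Cg) (hgen : Gen l N p Cg) (C1 M : ℕ) (i : ℕ) :
    ∃ a b r F : ℕ, ∀ (W : S → E) (L : ℝ) (R1 : ℕ) (φ : 𝔸 → S) (B Bs : Finset 𝔸) (α ε κ : ℝ),
      Setup μ l N C1 M W L R1 φ B Bs α ε κ → ∀ J : ℕ, 1 ≤ J → ∀ Q : Set S, MG μ l W Q →
      μ Q ≠ 0 → FolJ l R1 B μ Q F J → ∀ x, l x ≤ R1 * J →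
      ∃ d, x⁻¹ * d ∈ lcs N (i + 1) ∧ GdJ l W μ Q R1 (tau C1 R1 L α κ) a b r J d := by
  induction i with
  | zero =>
    refine ⟨3, 6, 3 * (2 * C1 + 1), 2 * (2 * C1 + 1), ?_⟩
    intro W L R1 φ B Bs α ε κ D J hJ Q hM hQ0 hQ x hx
    exact level_zero l hl N C1 M W L R1 φ B Bs α ε κ D J hJ Q hM hQ0 hQ x hx
  | succ i ih =>
    obtain ⟨a, b, r, F, H⟩ := ih
    obtain ⟨a', b', r', F', H'⟩ := level (E := E) (𝔸 := 𝔸) (μ := μ) l hl N p Cg hCg hgen C1 M
      (i + 1)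
    refine ⟨a + a' * (r + 1), b + b' + 1, r + r' * (r + 1), F + F' * (r + 1) + r + 1, ?_⟩
    intro W L R1 φ B Bs α ε κ D J hJ Q hM hQ0 hQ x hx
    have hB := D.Bne
    have hτ := D.tau_nonneg
    obtain ⟨d, hd1, hd2⟩ := H W L R1 φ B Bs α ε κ D J hJ Q hM hQ0
      (by
        have := hQ.scale hB (F' := F) (k := 1) (by omega)
        rwa [one_mul] at this) x hx
    have he : d⁻¹ * x ∈ lcs N (i + 1) := by
      have := (lcs N (i + 1)).inv_mem hd1
      rwa [mul_inv_rev, inv_inv] at this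
    have hle : l (d⁻¹ * x) ≤ R1 * ((r + 1) * J) := by
      calc l (d⁻¹ * x) ≤ l d⁻¹ + l x := hl.mul _ _
        _ ≤ r * (R1 * J) + R1 * J := by
            rw [hl.inv]; exact add_le_add hd2.1 hx
        _ = R1 * ((r + 1) * J) := by ring
    obtain ⟨d', hd1', hd2'⟩ := H' W L R1 φ B Bs α ε κ D ((r + 1) * J)
      (Nat.mul_pos (Nat.succ_pos _) hJ) Q hM hQ0 (hQ.scale hB (by omega)) (d⁻¹ * x) he hle
    refine ⟨d * d', ?_, ?_⟩
    · have : x⁻¹ * (d * d') = (d⁻¹ * x)⁻¹ * d' := by group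
      rw [this]; exact hd1'
    · unfold GdJ at hd2 hd2' ⊢
      have hφ : tht B ^ J ≤ (1 / 16 : ℝ) ^ J := pow16_le hB (le_refl J)
      have h := hd2.mul hM hd2' (ψ := tht B ^ J) (hQ.use hB
        (Nat.mul_le_mul_right _ (by omega))
        (by
          calc J = 1 * J := (one_mul J).symm
            _ ≤ _ := Nat.mul_le_mul_right _ (by omega)))
      refine h.mono hM ?_ ?_ ?_
      · push_cast; apply le_of_eq; ring
      · have h16 : (1 / 16 : ℝ) ^ ((r + 1) * J) ≤ (1 / 16) ^ J :=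
          pow_le_pow_of_le_one (by norm_num) (by norm_num) (by nlinarith)
        have e1 : (b' : ℝ) * (1 / 16) ^ ((r + 1) * J) ≤ b' * (1 / 16) ^ J :=
          mul_le_mul_of_nonneg_left h16 (Nat.cast_nonneg _)
        push_cast
        linarith
      · apply le_of_eq; ring

/-- **Concentration, quantitative form.** -/
theorem concentration {μ : Measure S} (hμ : ∀ s : S, MeasurePreserving (fun z => z * s) μ μ)
    (l : S → ℕ) (hl : IsLen l) (N : Subgroup S) [N.Normal] (c : ℕ)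
    (hnil : lcs N c = ⊥) (p Cg : ℕ) (hCg : 1 ≤ Cg) (hgen : Gen l N p Cg) (C1 M : ℕ) :
    ∃ a b F : ℕ, ∀ (W : S → E) (L : ℝ) (R1 : ℕ) (φ : 𝔸 → S) (B Bs : Finset 𝔸) (α ε κ : ℝ),
      Setup μ l N C1 M W L R1 φ B Bs α ε κ → ∀ J : ℕ, 1 ≤ J → ∀ Q : Set S, MeasurableSet Q →
      μ Q < ⊤ → Fol l μ Q (F * (R1 * J)) (tht B ^ (F * J)) → ∀ x, l x ≤ R1 * J →
      devi W μ Q (a * (tau C1 R1 L α κ * J)) x ≤ b * (1 / 16) ^ J * μ.real Q := by
  obtain ⟨a, b, r, F, H⟩ := descent (E := E) (𝔸 := 𝔸) (μ := μ) l hl N p Cg hCg hgen C1 M c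
  refine ⟨a, b, F, ?_⟩
  intro W L R1 φ B Bs α ε κ D J hJ Q hQm hQfin hQ x hx
  have hM : MG μ l W Q := ⟨hμ, D.hWm, hQm, hQfin, hl.mul, hl.inv⟩
  by_cases hQ0 : μ Q = 0
  · have h1 : devi W μ Q (a * (tau C1 R1 L α κ * J)) x = 0 := by
      unfold devi
      rw [measureReal_def, measure_mono_null Set.inter_subset_left hQ0]
      rfl
    rw [h1]
    have : (0 : ℝ) ≤ (1 / 16) ^ J := by positivity
    exact mul_nonneg (mul_nonneg (Nat.cast_nonneg _) this) measureReal_nonneg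
  obtain ⟨d, hd1, hd2⟩ := H W L R1 φ B Bs α ε κ D J hJ Q hM hQ0 hQ x hx
  have hd : d = x := by
    have h1 : x⁻¹ * d ∈ lcs N c := lcs_succ_le N c hd1
    rw [hnil, Subgroup.mem_bot] at h1
    exact (inv_mul_eq_one.1 h1).symm
  rw [← hd]
  exact hd2.2

end Agent.P188.H428.SM
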