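import Vale.Agent.P188.H428.SConc
import Mathlib.Analysis.SpecialFunctions.Log.Basic
import Mathlib.Analysis.SpecialFunctions.Exp
import Mathlib.Analysis.Complex.ExponentialBounds

/-!
# Concentration in a measured group, qualitative form
-/

set_option linter.unusedSectionVars false

namespace Agent.P188.H428.SM

open Finset MeasureTheory
open scoped ENNReal NNReal

variable {S : Type*} [Group S] [MeasurableSpace S]
variable {𝔸 : Type*} [Group 𝔸]
variable {E : Type*} [NormedAddCommGroup E]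

/-- **Concentration (CONC_S).**  For every `η > 0` there are `η0, ε0 > 0` such that: for every
scale `R1` and every noise at this scale there are `A`, `cc > 0`, `R0` such that every
`L`-Lipschitz `W` which is `(η0 R1, ε0)`-flat on all translates of the big box satisfies: for all
`R ≥ R0`, on every set `Q` of finite measure, invariant up to `e^{-A R}` under translations of
length `≤ A R`, each translation by an element of length `≤ R` moves `W` by at most `η R`,
outside a proportion `e^{-cc R}` of `Q`. -/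
theorem conc {μ : Measure S} (hμ : ∀ s : S, MeasurePreserving (fun z => z * s) μ μ)
    (l : S → ℕ) (hl : IsLen l) (N : Subgroup S) [N.Normal] (c : ℕ)
    (hnil : lcs N c = ⊥) (p Cg : ℕ) (hCg : 1 ≤ Cg) (hgen : Gen l N p Cg) (C1 M : ℕ)
    (L : ℝ) (hL : 0 ≤ L) (η : ℝ) (hη : 0 < η) :
    ∃ η0 ε0 : ℝ, 0 < η0 ∧ 0 < ε0 ∧ ∀ (R1 : ℕ) (φ : 𝔸 → S) (B Bs : Finset 𝔸), 1 ≤ R1 →
      Noise l N C1 M R1 φ B Bs → ∃ (A R0 : ℕ) (cc : ℝ), 0 < cc ∧
      ∀ W : S → E, (∀ z h, ‖W (z * h) - W z‖ ≤ L * l h) →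
      (∀ x, Measurable fun z => ‖W (z * x) - W z‖) → Flat l W R1 φ B (η0 * R1) ε0 →
      ∀ R : ℕ, R0 ≤ R → ∀ Q : Set S, MeasurableSet Q → μ Q < ⊤ →
      Fol l μ Q (A * R) (Real.exp (-(A * R))) →
      ∀ x, l x ≤ R → devi W μ Q (η * R) x ≤ Real.exp (-(cc * R)) * μ.real Q := by
  obtain ⟨a, b, F, H⟩ := concentration (E := E) (𝔸 := 𝔸) hμ l hl N c hnil p Cg hCg hgen C1 M
  set η0 : ℝ := η / (4 * (a + 1)) with hη0
  set κ : ℝ := η / (4 * (a + 1) * (L * (2 * C1 + 1) + 1)) with hκ
  have ha : (0 : ℝ) < a + 1 := by positivity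
  have hη0pos : 0 < η0 := by rw [hη0]; positivity
  have hκpos : 0 < κ := by rw [hκ]; positivity
  set t : ℝ := (1024 : ℝ) ^ (1 / κ) with ht
  have htpos : 0 < t := by rw [ht]; positivity
  set ε0 : ℝ := 1 / ((M + 1) * (M + 1) * t ^ 2) with hε0
  have hε0pos : 0 < ε0 := by rw [hε0]; positivity
  have hMε : (M : ℝ) * M * ε0 * t ^ 2 ≤ 1 := by
    rw [hε0]
    have : (M : ℝ) * M * (1 / ((M + 1) * (M + 1) * t ^ 2)) * t ^ 2
        = (M / (M + 1)) * (M / (M + 1)) := by
      field_simp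
    rw [this]
    have h1 : (M : ℝ) / (M + 1) ≤ 1 := by
      rw [div_le_one (by positivity)]; linarith
    have h0 : (0 : ℝ) ≤ (M : ℝ) / (M + 1) := by positivity
    nlinarith
  refine ⟨η0, ε0, hη0pos, hε0pos, ?_⟩
  intro R1 φ B Bs hR1 hbox
  have hB : B.Nonempty := hbox.ne.mono hbox.sub
  set s : ℝ := -Real.log (tht B) with hs
  have hexp : Real.exp (-s) = tht B := by rw [hs, neg_neg, Real.exp_log (tht_pos hB)]
  have hs0 : 0 ≤ s := by
    rw [hs, neg_nonneg]
    exact Real.log_nonpos (tht_pos hB).le ((tht_le hB).trans (by norm_num))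
  set A : ℕ := 2 * F * (⌈s⌉₊ + 1) with hA
  have hR1pos : (0 : ℝ) < R1 := by exact_mod_cast hR1
  -- exponential rate
  have hbexp : ∃ k0 : ℕ, ∀ k : ℕ, k0 ≤ k → (b : ℝ) * (1 / 16) ^ k ≤ (1 / 4) ^ k := by
    refine ⟨b, fun k hk => ?_⟩
    have h1 : (b : ℝ) ≤ 4 ^ k := by
      have h2 : b < 4 ^ b := Nat.lt_pow_self (by norm_num)
      have h3 : (4 : ℕ) ^ b ≤ 4 ^ k := Nat.pow_le_pow_right (by norm_num) hk
      exact_mod_cast (h2.le.trans h3)
    calc (b : ℝ) * (1 / 16) ^ k ≤ 4 ^ k * (1 / 16) ^ k :=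
          mul_le_mul_of_nonneg_right h1 (by positivity)
      _ = (1 / 4) ^ k := by rw [← mul_pow]; norm_num
  obtain ⟨k0, hk0⟩ := hbexp
  refine ⟨A, R1 * (k0 + 1), 1 / R1, by positivity, ?_⟩
  intro W hW hWm hflat R hR Q hQm hQfin hQ x hx
  have hRR1 : R1 ≤ R := le_trans (Nat.le_mul_of_pos_right _ (Nat.succ_pos _)) hR
  set J : ℕ := R / R1 + 1 with hJ
  have hJ1 : 1 ≤ J := Nat.succ_pos _
  have hJR : R ≤ R1 * J := by
    rw [hJ]
    have := Nat.lt_div_mul_add (a := R) hR1
    rw [mul_add, mul_one, mul_comm R1]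
    omega
  have hJ2 : R1 * J ≤ 2 * R := by
    rw [hJ, mul_add, mul_one]
    have := Nat.mul_div_le R R1
    omega
  have hJR' : J ≤ 2 * R := le_trans (Nat.le_mul_of_pos_left _ hR1) hJ2
  have D : Setup μ l N C1 M W L R1 φ B Bs (η0 * R1) ε0 κ :=
    { hR1 := hR1, hL := hL, hW := hW, hWm := hWm, box := hbox, hα := by positivity,
      hκ := hκpos, hε0 := hε0pos.le, hε := hMε, flat := hflat }
  have hFol : Fol l μ Q (F * (R1 * J)) (tht B ^ (F * J)) := by
    intro y hy
    refine (hQ y (hy.trans ?_)).trans (mul_le_mul_of_nonneg_right ?_ measureReal_nonneg)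
    · calc F * (R1 * J) ≤ F * (2 * R) := Nat.mul_le_mul_left _ hJ2
        _ = (2 * F) * 1 * R := by ring
        _ ≤ (2 * F) * (⌈s⌉₊ + 1) * R := by
            apply Nat.mul_le_mul_right; apply Nat.mul_le_mul_left; omega
        _ = A * R := by rw [hA]
    · rw [← hexp, ← Real.exp_nat_mul]
      apply Real.exp_le_exp.2
      have h1 : s ≤ (⌈s⌉₊ + 1 : ℕ) := by
        push_cast; linarith [Nat.le_ceil s]
      have h2 : ((F * J : ℕ) : ℝ) ≤ F * (2 * R) := by
        have : F * J ≤ F * (2 * R) := Nat.mul_le_mul_left _ hJR'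
        exact_mod_cast this
      have h3 : ((F * J : ℕ) : ℝ) * s ≤ A * R := by
        calc ((F * J : ℕ) : ℝ) * s ≤ (F * (2 * R)) * (⌈s⌉₊ + 1 : ℕ) :=
              mul_le_mul h2 h1 hs0 (by positivity)
          _ = A * R := by rw [hA]; push_cast; ring
      linarith
  have h := H W L R1 φ B Bs (η0 * R1) ε0 κ D J hJ1 Q hQm hQfin hFol x (hx.trans hJR)
  -- compare the drift
  have hdrift : (a : ℝ) * (tau C1 R1 L (η0 * R1) κ * J) ≤ η * R := by
    have e1 : tau C1 R1 L (η0 * R1) κ = (η0 + L * (2 * C1 + 1) * κ) * R1 := by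
      unfold tau; push_cast; ring
    have e2 : L * (2 * C1 + 1) * κ ≤ η / (4 * (a + 1)) := by
      have h0 : 0 ≤ L * (2 * C1 + 1) := by positivity
      rw [hκ]
      calc L * (2 * C1 + 1) * (η / (4 * (a + 1) * (L * (2 * C1 + 1) + 1)))
          = (η / (4 * (a + 1))) * (L * (2 * C1 + 1) / (L * (2 * C1 + 1) + 1)) := by
            field_simp
        _ ≤ (η / (4 * (a + 1))) * 1 := by
            apply mul_le_mul_of_nonneg_left _ (by positivity)
            rw [div_le_one (by positivity)]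
            linarith
        _ = η / (4 * (a + 1)) := mul_one _
    have e4 : η0 + L * (2 * C1 + 1) * κ ≤ η / (2 * (a + 1)) := by
      have : η / (2 * (a + 1)) = η / (4 * (a + 1)) + η / (4 * (a + 1)) := by
        field_simp; ring
      rw [this, ← hη0] at *
      linarith
    have e5 : ((R1 : ℝ) * J) ≤ 2 * R := by exact_mod_cast hJ2
    rw [e1]
    calc (a : ℝ) * ((η0 + L * (2 * C1 + 1) * κ) * R1 * J)
        = a * (η0 + L * (2 * C1 + 1) * κ) * (R1 * J) := by ring
      _ ≤ a * (η / (2 * (a + 1))) * (2 * R) := by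
          apply mul_le_mul _ e5 (by positivity) (by positivity)
          exact mul_le_mul_of_nonneg_left e4 (Nat.cast_nonneg _)
      _ = η * R * (a / (a + 1)) := by field_simp
      _ ≤ η * R * 1 := by
          apply mul_le_mul_of_nonneg_left _ (by positivity)
          rw [div_le_one (by positivity)]
          linarith
      _ = η * R := mul_one _
  have hM : MG μ l W Q := ⟨hμ, hWm, hQm, hQfin, hl.mul, hl.inv⟩
  have hmono : devi W μ Q (η * R) x ≤ devi W μ Q (a * (tau C1 R1 L (η0 * R1) κ * J)) x := by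
    unfold devi
    refine measureReal_mono ?_ ((lt_of_le_of_lt (measure_mono Set.inter_subset_left) hQfin).ne)
    intro z hz
    exact ⟨hz.1, lt_of_le_of_lt hdrift hz.2⟩
  refine hmono.trans (h.trans (mul_le_mul_of_nonneg_right ?_ measureReal_nonneg))
  have hk : k0 ≤ J := by
    have : k0 + 1 ≤ R / R1 := by
      rw [Nat.le_div_iff_mul_le hR1, mul_comm]; exact hR
    omega
  refine (hk0 J hk).trans ?_
  have h14 : (1 / 4 : ℝ) ≤ Real.exp (-1) := by
    have : Real.exp 1 ≤ 4 := by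
      have := Real.exp_one_lt_three
      linarith
    rw [Real.exp_neg, one_div]
    exact inv_anti₀ (Real.exp_pos _) this
  calc (1 / 4 : ℝ) ^ J ≤ Real.exp (-1) ^ J := pow_le_pow_left₀ (by norm_num) h14 J
    _ = Real.exp (-(J : ℝ)) := by rw [← Real.exp_nat_mul]; congr 1; ring
    _ ≤ Real.exp (-(1 / R1 * R)) := by
        apply Real.exp_le_exp.2
        have : (R : ℝ) ≤ R1 * J := by exact_mod_cast hJR
        have h2 : 1 / (R1 : ℝ) * R ≤ J := by
          rw [one_div, inv_mul_le_iff₀ hR1pos]; exact this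
        linarith

end Agent.P188.H428.SM
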