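import Vale.Agent.P188.H428.SOp
import Mathlib.Analysis.SpecialFunctions.Pow.Real
import Mathlib.Analysis.Normed.Group.Basic
import Mathlib.Data.Fin.Tuple.Basic
import Mathlib.Data.Fintype.Pi

/-!
# Exponentially rare large displacements along random chains (measured version)
-/

set_option linter.unusedSectionVars false

namespace Agent.P188.H428.SM

open Finset MeasureTheory
open scoped ENNReal NNReal

variable {S : Type*} [Group S] [MeasurableSpace S]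
variable {𝔸 : Type*}
variable {E : Type*} [NormedAddCommGroup E]

/-- Displacement of a chain. -/
def out (φ : 𝔸 → S) : (J : ℕ) → (Fin J → S) → (Fin J → 𝔸 × 𝔸) → S
  | 0, _, _ => 1
  | J + 1, g, ω => (φ (ω 0).1)⁻¹ * (φ (ω 0).2 * g 0) * out φ J (Fin.tail g) (Fin.tail ω)

/-- Product of the weights along a chain. -/
def wt (φ : 𝔸 → S) (b : S → 𝔸 → 𝔸 → S → ℝ≥0) :
    (J : ℕ) → (Fin J → S) → (Fin J → 𝔸 × 𝔸) → S → ℝ≥0
  | 0, _, _, _ => 1
  | J + 1, g, ω, z => b (z * (φ (ω 0).1)⁻¹) (ω 0).1 (ω 0).2 (g 0) *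
      wt φ b J (Fin.tail g) (Fin.tail ω) (z * (φ (ω 0).1)⁻¹ * (φ (ω 0).2 * g 0))

/-- The noise space. -/
def noise (A' A : Finset 𝔸) (J : ℕ) : Finset (Fin J → 𝔸 × 𝔸) :=
  Fintype.piFinset fun _ => A' ×ˢ A

lemma mem_noise {A' A : Finset 𝔸} {J : ℕ} {ω : Fin J → 𝔸 × 𝔸} :
    ω ∈ noise A' A J ↔ ∀ i, (ω i).1 ∈ A' ∧ (ω i).2 ∈ A := by
  unfold noise
  rw [Fintype.mem_piFinset]
  simp only [Finset.mem_product]

lemma card_noise (A' A : Finset 𝔸) (J : ℕ) :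
    (noise A' A J).card = (A'.card * A.card) ^ J := by
  unfold noise
  rw [Fintype.card_piFinset]
  simp [Finset.card_product]

lemma sum_noise_succ (A' A : Finset 𝔸) (J : ℕ) (f : (Fin (J + 1) → 𝔸 × 𝔸) → ℝ≥0) :
    ∑ ω ∈ noise A' A (J + 1), f ω
      = ∑ n' ∈ A', ∑ n ∈ A, ∑ ω ∈ noise A' A J, f (Fin.cons (n', n) ω) := by
  rw [← Finset.sum_product' A' A (fun n' n => ∑ ω ∈ noise A' A J, f (Fin.cons (n', n) ω)),
    ← Finset.sum_product' (A' ×ˢ A) (noise A' A J) (fun p ω => f (Fin.cons (p.1, p.2) ω))]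
  refine Finset.sum_nbij' (fun ω => (ω 0, Fin.tail ω)) (fun q => Fin.cons q.1 q.2) ?_ ?_ ?_ ?_ ?_
  · intro ω hω
    rw [mem_noise] at hω
    rw [Finset.mem_product, Finset.mem_product, mem_noise]
    exact ⟨hω 0, fun i => hω i.succ⟩
  · rintro ⟨p, ω⟩ h
    rw [Finset.mem_product, Finset.mem_product, mem_noise] at h
    rw [mem_noise]
    intro i
    refine Fin.cases ?_ (fun j => ?_) i
    · simpa using h.1
    · simpa using h.2 j
  · intro ω _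
    exact Fin.cons_self_tail ω
  · rintro ⟨p, ω⟩ _
    simp
  · intro ω _
    simp only [Prod.mk.eta, Fin.cons_self_tail]

lemma sum_wt_succ (φ : 𝔸 → S) (b : S → 𝔸 → 𝔸 → S → ℝ≥0) (A' A : Finset 𝔸) (f : S → ℝ≥0)
    (J : ℕ) (g : Fin (J + 1) → S) (z : S) :
    ∑ ω ∈ noise A' A (J + 1), wt φ b (J + 1) g ω z * f (z * out φ (J + 1) g ω)
      = blk φ (fun Y n' n => b Y n' n (g 0)) A' A (g 0)
        (fun y => ∑ ω ∈ noise A' A J, wt φ b J (Fin.tail g) ω y *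
          f (y * out φ J (Fin.tail g) ω)) z := by
  rw [sum_noise_succ]
  unfold blk
  refine Finset.sum_congr rfl fun n' _ => Finset.sum_congr rfl fun n _ => ?_
  rw [Finset.mul_sum]
  refine Finset.sum_congr rfl fun ω _ => ?_
  simp only [wt, out, Fin.cons_zero, Fin.tail_cons]
  rw [mul_assoc (b _ _ _ _)]
  congr 3
  group

lemma measurable_wt {μ : Measure S} (hμ : ∀ s : S, MeasurePreserving (fun z => z * s) μ μ)
    (φ : 𝔸 → S) (b : S → 𝔸 → 𝔸 → S → ℝ≥0) (J : ℕ) (g : Fin J → S)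
    (hb : ∀ i n' n, Measurable fun Y => b Y n' n (g i))
    (ω : Fin J → 𝔸 × 𝔸) : Measurable (wt φ b J g ω) := by
  induction J with
  | zero => exact measurable_const
  | succ J ih =>
    have h := ih (Fin.tail g) (fun i => hb i.succ) (Fin.tail ω)
    refine Measurable.mul ?_ ?_
    · exact (hb 0 _ _).comp (measurable_mul_right' hμ _)
    · exact h.comp ((measurable_mul_right' hμ _).comp (measurable_mul_right' hμ _))

lemma L2_bound {μ : Measure S} (hμ : ∀ s : S, MeasurePreserving (fun z => z * s) μ μ)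
    (φ : 𝔸 → S) (b : S → 𝔸 → 𝔸 → S → ℝ≥0) (A' A : Finset 𝔸) (f : S → ℝ≥0) (hf : Measurable f)
    (t P : ℝ≥0) (J : ℕ) (g : Fin J → S)
    (hb : ∀ i n' n, Measurable fun Y => b Y n' n (g i))
    (hbt : ∀ i Y n' n, b Y n' n (g i) ≤ t)
    (hP : ∀ i Y, ∑ n' ∈ A', ∑ n ∈ A, b Y n' n (g i) ^ 2 ≤ P)
    (hfin : ∫⁻ z, (f z : ℝ≥0∞) ^ 2 ∂μ < ⊤) :
    ∫⁻ z, ((∑ ω ∈ noise A' A J, wt φ b J g ω z * f (z * out φ J g ω) : ℝ≥0) : ℝ≥0∞) ^ 2 ∂μ
      ≤ ((P * A'.card * A.card : ℝ≥0) : ℝ≥0∞) ^ J * ∫⁻ z, (f z : ℝ≥0∞) ^ 2 ∂μ := by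
  induction J with
  | zero =>
    have : ∀ z, ∑ ω ∈ noise A' A 0, wt φ b 0 g ω z * f (z * out φ 0 g ω) = f z := by
      intro z
      simp only [wt, out, mul_one, one_mul]
      rw [Finset.sum_const, card_noise]
      simp
    simp only [this, pow_zero, one_mul]
    exact le_rfl
  | succ J ih =>
    have h1 := ih (Fin.tail g) (fun i => hb i.succ) (fun i => hbt i.succ) (fun i => hP i.succ)
    set u : S → ℝ≥0 := fun y => ∑ ω ∈ noise A' A J, wt φ b J (Fin.tail g) ω y *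
          f (y * out φ J (Fin.tail g) ω) with hu
    have hum : Measurable u := by
      refine Finset.measurable_sum _ fun ω _ => ?_
      exact (measurable_wt hμ φ b J (Fin.tail g) (fun i => hb i.succ) ω).mul
        (hf.comp (measurable_mul_right' hμ _))
    have hufin : ∫⁻ z, (u z : ℝ≥0∞) ^ 2 ∂μ < ⊤ := by
      refine lt_of_le_of_lt h1 (ENNReal.mul_lt_top ?_ hfin)
      exact ENNReal.pow_lt_top ENNReal.coe_lt_top
    have h2 := blk_sq_le hμ φ (fun Y n' n => b Y n' n (g 0)) A' A (g 0) u (hb 0) hum t P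
      (hbt 0) (hP 0) hufin
    have h3 : ∀ z, ∑ ω ∈ noise A' A (J + 1), wt φ b (J + 1) g ω z *
        f (z * out φ (J + 1) g ω) = blk φ (fun Y n' n => b Y n' n (g 0)) A' A (g 0) u z :=
      fun z => sum_wt_succ φ b A' A f J g z
    simp only [h3]
    refine h2.trans ?_
    rw [pow_succ]
    calc ((P * A'.card * A.card : ℝ≥0) : ℝ≥0∞) * ∫⁻ z, (u z : ℝ≥0∞) ^ 2 ∂μ
        ≤ ((P * A'.card * A.card : ℝ≥0) : ℝ≥0∞) *
          (((P * A'.card * A.card : ℝ≥0) : ℝ≥0∞) ^ J * ∫⁻ z, (f z : ℝ≥0∞) ^ 2 ∂μ) := by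
          gcongr
      _ = _ := by ring

/-- `Q` is almost invariant under right translations by elements of length `≤ r`. -/
def Fol (l : S → ℕ) (μ : Measure S) (Q : Set S) (r : ℕ) (ψ : ℝ) : Prop :=
  ∀ y, l y ≤ r → μ.real ({z | z * y⁻¹ ∈ Q} \ Q) ≤ ψ * μ.real Q

/-- measure of the points of `Q` where right translation by `x` moves `W` by more than `τ`. -/
noncomputable def devi (W : S → E) (μ : Measure S) (Q : Set S) (τ : ℝ) (x : S) : ℝ :=
  μ.real (Q ∩ {z | τ < ‖W (z * x) - W z‖})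

lemma devi_nonneg (W : S → E) (μ : Measure S) (Q : Set S) (τ : ℝ) (x : S) :
    0 ≤ devi W μ Q τ x := measureReal_nonneg

/-- number of bad events along a chain. -/
def cost (φ : 𝔸 → S) (bd : S → 𝔸 → 𝔸 → S → ℕ) :
    (J : ℕ) → (Fin J → S) → (Fin J → 𝔸 × 𝔸) → S → ℕ
  | 0, _, _, _ => 0
  | J + 1, g, ω, z => bd (z * (φ (ω 0).1)⁻¹) (ω 0).1 (ω 0).2 (g 0) +
      cost φ bd J (Fin.tail g) (Fin.tail ω) (z * (φ (ω 0).1)⁻¹ * (φ (ω 0).2 * g 0))

lemma wt_eq_pow (φ : 𝔸 → S) (bd : S → 𝔸 → 𝔸 → S → ℕ) (t : ℝ≥0) (J : ℕ) (g : Fin J → S)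
    (ω : Fin J → 𝔸 × 𝔸) (z : S) :
    wt φ (fun Y n' n h => t ^ bd Y n' n h) J g ω z = t ^ cost φ bd J g ω z := by
  induction J generalizing z with
  | zero => simp [wt, cost]
  | succ J ih =>
    simp only [wt, cost]
    rw [ih, pow_add]

lemma disp_le (W : S → E) (φ : 𝔸 → S) (bd : S → 𝔸 → 𝔸 → S → ℕ) (α D : ℝ)
    (hbd : ∀ Y n' n h, bd Y n' n h = 0 → ‖W (Y * (φ n * h)) - W (Y * φ n')‖ ≤ α)
    (hα : 0 ≤ α) (hD : 0 ≤ D)
    (A' A : Finset 𝔸) (J : ℕ) (g : Fin J → S)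
    (hW : ∀ i, ∀ n' ∈ A', ∀ n ∈ A, ∀ z, ‖W (z * ((φ n')⁻¹ * (φ n * g i))) - W z‖ ≤ D)
    (ω : Fin J → 𝔸 × 𝔸) (hω : ω ∈ noise A' A J) (z : S) :
    ‖W (z * out φ J g ω) - W z‖ ≤ α * J + D * cost φ bd J g ω z := by
  induction J generalizing z with
  | zero => simp [out, cost]
  | succ J ih =>
    rw [mem_noise] at hω
    have h0 := hω 0
    set z' : S := z * (φ (ω 0).1)⁻¹ * (φ (ω 0).2 * g 0) with hz'
    have h1 := ih (Fin.tail g) (fun i => hW i.succ) (Fin.tail ω)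
      (by rw [mem_noise]; exact fun i => hω i.succ) z'
    have h2 : z * out φ (J + 1) g ω = z' * out φ J (Fin.tail g) (Fin.tail ω) := by
      simp only [out, hz']; group
    have h3 : ‖W z' - W z‖ ≤ α + D * (bd (z * (φ (ω 0).1)⁻¹) (ω 0).1 (ω 0).2 (g 0) : ℕ) := by
      by_cases hb : bd (z * (φ (ω 0).1)⁻¹) (ω 0).1 (ω 0).2 (g 0) = 0
      · have e1 := hbd _ _ _ _ hb
        rw [inv_mul_cancel_right] at e1
        rw [hb]
        simpa using e1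
      · have hb1 : 1 ≤ bd (z * (φ (ω 0).1)⁻¹) (ω 0).1 (ω 0).2 (g 0) := by omega
        have e1 := hW 0 _ h0.1 _ h0.2 z
        rw [← mul_assoc] at e1
        have hb2 : (1 : ℝ) ≤ (bd (z * (φ (ω 0).1)⁻¹) (ω 0).1 (ω 0).2 (g 0) : ℕ) := by
          exact_mod_cast hb1
        calc ‖W z' - W z‖ ≤ D := e1
          _ = D * 1 := (mul_one D).symm
          _ ≤ D * (bd (z * (φ (ω 0).1)⁻¹) (ω 0).1 (ω 0).2 (g 0) : ℕ) :=
            mul_le_mul_of_nonneg_left hb2 hD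
          _ ≤ _ := by linarith
    rw [h2]
    calc ‖W (z' * out φ J (Fin.tail g) (Fin.tail ω)) - W z‖
        = ‖(W (z' * out φ J (Fin.tail g) (Fin.tail ω)) - W z') + (W z' - W z)‖ := by
          congr 1; abel
      _ ≤ ‖W (z' * out φ J (Fin.tail g) (Fin.tail ω)) - W z'‖ + ‖W z' - W z‖ := norm_add_le _ _
      _ ≤ (α * J + D * cost φ bd J (Fin.tail g) (Fin.tail ω) z') + (α + D *
          (bd (z * (φ (ω 0).1)⁻¹) (ω 0).1 (ω 0).2 (g 0) : ℕ)) :=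
          add_le_add h1 h3
      _ = α * (J + 1 : ℕ) + D * cost φ bd (J + 1) g ω z := by
          simp only [cost, hz']; push_cast; ring

lemma len_out_le (l : S → ℕ) (h1 : l 1 = 0) (hmul : ∀ x y, l (x * y) ≤ l x + l y)
    (φ : 𝔸 → S) (A' A : Finset 𝔸) (J : ℕ) (g : Fin J → S) (Λ : ℕ)
    (hl : ∀ i, ∀ n' ∈ A', ∀ n ∈ A, l ((φ n')⁻¹ * (φ n * g i)) ≤ Λ)
    (ω : Fin J → 𝔸 × 𝔸) (hω : ω ∈ noise A' A J) : l (out φ J g ω) ≤ Λ * J := by
  induction J with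
  | zero => simp [out, h1]
  | succ J ih =>
    rw [mem_noise] at hω
    have h2 := ih (Fin.tail g) (fun i => hl i.succ) (Fin.tail ω)
      (by rw [mem_noise]; exact fun i => hω i.succ)
    have h3 := hl 0 _ (hω 0).1 _ (hω 0).2
    simp only [out]
    calc l ((φ (ω 0).1)⁻¹ * (φ (ω 0).2 * g 0) * out φ J (Fin.tail g) (Fin.tail ω))
        ≤ l ((φ (ω 0).1)⁻¹ * (φ (ω 0).2 * g 0)) + l (out φ J (Fin.tail g) (Fin.tail ω)) :=
          hmul _ _
      _ ≤ Λ + Λ * J := add_le_add h3 h2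
      _ = Λ * (J + 1) := by ring

/-- First moment bound. -/
lemma first_moment {μ : Measure S} (hμ : ∀ s : S, MeasurePreserving (fun z => z * s) μ μ)
    (φ : 𝔸 → S) (b : S → 𝔸 → 𝔸 → S → ℝ≥0) (A' A : Finset 𝔸) (hA' : A'.Nonempty)
    (hA : A.Nonempty) (t : ℝ≥0) (J : ℕ) (g : Fin J → S)
    (hb : ∀ i n' n, Measurable fun Y => b Y n' n (g i))
    (hbt : ∀ i Y n' n, b Y n' n (g i) ≤ t)
    (hP : ∀ i Y, ∑ n' ∈ A', ∑ n ∈ A, b Y n' n (g i) ^ 2 ≤ 4 * (A'.card * A.card))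
    (l : S → ℕ) (Q : Set S) (hQm : MeasurableSet Q) (hQfin : μ Q < ⊤) (r : ℕ) (ψ : ℝ)
    (hQ : Fol l μ Q r ψ) (hψ0 : 0 ≤ ψ)
    (hlen : ∀ ω ∈ noise A' A J, l (out φ J g ω) ≤ r)
    (hψ : ((A'.card * A.card : ℝ)) ^ J * ψ ≤ 1) :
    ∫⁻ z in Q, ((∑ ω ∈ noise A' A J, wt φ b J g ω z : ℝ≥0) : ℝ≥0∞) ∂μ
      ≤ 2 * ((2 * (A'.card * A.card) : ℝ≥0) : ℝ≥0∞) ^ J * μ Q := by
  classical
  set Ω := noise A' A J with hΩ
  -- the set of end points
  set T : Finset S := Ω.image (out φ J g) with hT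
  set Q' : Set S := Q ∪ ⋃ y ∈ T, ({z | z * y⁻¹ ∈ Q} \ Q) with hQ'
  have hQy : ∀ y : S, MeasurableSet {z | z * y⁻¹ ∈ Q} := fun y =>
    (measurable_mul_right' hμ y⁻¹) hQm
  have hμQy : ∀ y : S, μ {z | z * y⁻¹ ∈ Q} = μ Q := fun y =>
    (hμ y⁻¹).measure_preimage hQm.nullMeasurableSet
  have hfinQy : ∀ y : S, μ ({z | z * y⁻¹ ∈ Q} \ Q) < ⊤ := fun y =>
    lt_of_le_of_lt (measure_mono Set.sdiff_subset) (by rw [hμQy]; exact hQfin)
  have hTm : MeasurableSet (⋃ y ∈ T, ({z | z * y⁻¹ ∈ Q} \ Q)) :=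
    T.measurableSet_biUnion fun y _ => (hQy y).diff hQm
  have hQ'm : MeasurableSet Q' := hQm.union hTm
  have hcardT : (T.card : ℝ) ≤ (A'.card * A.card : ℝ) ^ J := by
    have h1 : T.card ≤ Ω.card := Finset.card_image_le
    rw [hΩ, card_noise] at h1
    calc (T.card : ℝ) ≤ ((A'.card * A.card) ^ J : ℕ) := by exact_mod_cast h1
      _ = _ := by push_cast; ring
  have hrest : μ (⋃ y ∈ T, ({z | z * y⁻¹ ∈ Q} \ Q)) ≤ μ Q := by
    have h1 : μ (⋃ y ∈ T, ({z | z * y⁻¹ ∈ Q} \ Q)) ≤ ∑ y ∈ T, μ ({z | z * y⁻¹ ∈ Q} \ Q) :=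
      measure_biUnion_finset_le _ _
    refine h1.trans ?_
    have h2 : ∑ y ∈ T, μ ({z | z * y⁻¹ ∈ Q} \ Q)
        = ENNReal.ofReal (∑ y ∈ T, μ.real ({z | z * y⁻¹ ∈ Q} \ Q)) := by
      rw [ENNReal.ofReal_sum_of_nonneg fun y _ => measureReal_nonneg]
      refine Finset.sum_congr rfl fun y _ => ?_
      rw [ofReal_measureReal (hfinQy y).ne]
    have h3 : ∑ y ∈ T, μ.real ({z | z * y⁻¹ ∈ Q} \ Q) ≤ μ.real Q := by
      calc ∑ y ∈ T, μ.real ({z | z * y⁻¹ ∈ Q} \ Q) ≤ ∑ _y ∈ T, ψ * μ.real Q := by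
            refine Finset.sum_le_sum fun y hy => ?_
            rw [hT, Finset.mem_image] at hy
            obtain ⟨ω, hω, rfl⟩ := hy
            exact hQ _ (hlen ω hω)
        _ = (T.card * ψ) * μ.real Q := by rw [Finset.sum_const, nsmul_eq_mul]; ring
        _ ≤ 1 * μ.real Q := by
            refine mul_le_mul_of_nonneg_right ?_ measureReal_nonneg
            exact (mul_le_mul_of_nonneg_right hcardT hψ0).trans hψ
        _ = μ.real Q := one_mul _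
    rw [h2, ← ofReal_measureReal hQfin.ne]
    exact ENNReal.ofReal_le_ofReal h3
  have hμQ' : μ Q' ≤ 2 * μ Q := by
    calc μ Q' ≤ μ Q + μ (⋃ y ∈ T, ({z | z * y⁻¹ ∈ Q} \ Q)) := measure_union_le _ _
      _ ≤ μ Q + μ Q := by gcongr
      _ = 2 * μ Q := by ring
  -- terminal function
  set f : S → ℝ≥0 := Q'.indicator 1 with hf
  have hfm : Measurable f := measurable_one.indicator hQ'm
  have hf2 : ∫⁻ z, (f z : ℝ≥0∞) ^ 2 ∂μ = μ Q' := by
    have : ∀ z, (f z : ℝ≥0∞) ^ 2 = Q'.indicator 1 z := by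
      intro z
      by_cases h : z ∈ Q' <;> simp [hf, h]
    simp only [this]
    rw [lintegral_indicator_one hQ'm]
  have hfin : ∫⁻ z, (f z : ℝ≥0∞) ^ 2 ∂μ < ⊤ := by
    rw [hf2]
    exact lt_of_le_of_lt hμQ' (ENNReal.mul_lt_top (by norm_num) hQfin)
  have hL2 := L2_bound hμ φ b A' A f hfm t (4 * (A'.card * A.card)) J g hb hbt hP hfin
  rw [hf2] at hL2
  set F : S → ℝ≥0 := fun z => ∑ ω ∈ noise A' A J, wt φ b J g ω z * f (z * out φ J g ω) with hF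
  have hFm : Measurable F := by
    refine Finset.measurable_sum _ fun ω _ => ?_
    exact (measurable_wt hμ φ b J g hb ω).mul (hfm.comp (measurable_mul_right' hμ _))
  set M : ℝ≥0 := (2 * (A'.card * A.card)) ^ J with hM
  have hMpos : M ≠ 0 := by
    have h1 : (A'.card : ℝ≥0) ≠ 0 := by exact_mod_cast hA'.card_pos.ne'
    have h2 : (A.card : ℝ≥0) ≠ 0 := by exact_mod_cast hA.card_pos.ne'
    exact pow_ne_zero _ (mul_ne_zero two_ne_zero (mul_ne_zero h1 h2))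
  have hL2' : ∫⁻ z, (F z : ℝ≥0∞) ^ 2 ∂μ ≤ (M : ℝ≥0∞) ^ 2 * (2 * μ Q) := by
    refine hL2.trans ?_
    have : (((4 * (A'.card * A.card)) * A'.card * A.card : ℝ≥0) : ℝ≥0∞) ^ J
        = (M : ℝ≥0∞) ^ 2 := by
      rw [hM]; push_cast; rw [← pow_mul, mul_comm J 2, pow_mul]; congr 1; ring
    rw [this]
    gcongr
  have heq : ∀ z ∈ Q, ∑ ω ∈ noise A' A J, wt φ b J g ω z = F z := by
    intro z hz
    refine Finset.sum_congr rfl fun ω hω => ?_
    have : z * out φ J g ω ∈ Q' := by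
      by_cases h : z * out φ J g ω ∈ Q
      · exact Or.inl h
      · refine Or.inr ?_
        simp only [Set.mem_iUnion]
        refine ⟨out φ J g ω, Finset.mem_image_of_mem _ hω, ?_, h⟩
        show z * out φ J g ω * (out φ J g ω)⁻¹ ∈ Q
        rw [mul_inv_cancel_right]; exact hz
    simp [hf, this]
  have h5 : (2 * (M : ℝ≥0∞)) * ∫⁻ z in Q, ((∑ ω ∈ noise A' A J, wt φ b J g ω z : ℝ≥0) : ℝ≥0∞) ∂μ
      ≤ (2 * (M : ℝ≥0∞)) * (2 * (M : ℝ≥0∞) * μ Q) := by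
    calc (2 * (M : ℝ≥0∞)) *
          ∫⁻ z in Q, ((∑ ω ∈ noise A' A J, wt φ b J g ω z : ℝ≥0) : ℝ≥0∞) ∂μ
        = (2 * (M : ℝ≥0∞)) * ∫⁻ z in Q, (F z : ℝ≥0∞) ∂μ := by
          congr 1
          refine setLIntegral_congr_fun hQm fun z hz => ?_
          exact congrArg _ (heq z hz)
      _ = ∫⁻ z in Q, (2 * (M : ℝ≥0∞)) * (F z : ℝ≥0∞) ∂μ := by
          rw [lintegral_const_mul _ hFm.coe_nnreal_ennreal]
      _ ≤ ∫⁻ z in Q, ((M : ℝ≥0∞) ^ 2 + (F z : ℝ≥0∞) ^ 2) ∂μ := by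
          refine lintegral_mono fun z => ?_
          have h := ENNReal.coe_le_coe.2 (two_mul_le_add_sq M (F z))
          rw [ENNReal.coe_mul, ENNReal.coe_mul, ENNReal.coe_add, ENNReal.coe_pow,
            ENNReal.coe_pow] at h
          exact h
      _ = (M : ℝ≥0∞) ^ 2 * μ Q + ∫⁻ z in Q, (F z : ℝ≥0∞) ^ 2 ∂μ := by
          rw [lintegral_add_left measurable_const, setLIntegral_const]
      _ ≤ (M : ℝ≥0∞) ^ 2 * μ Q + (M : ℝ≥0∞) ^ 2 * (2 * μ Q) := by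
          gcongr
          exact (setLIntegral_le_lintegral _ _).trans hL2'
      _ ≤ (M : ℝ≥0∞) ^ 2 * μ Q + (M : ℝ≥0∞) ^ 2 * (2 * μ Q) + (M : ℝ≥0∞) ^ 2 * μ Q :=
          le_self_add
      _ = (2 * (M : ℝ≥0∞)) * (2 * (M : ℝ≥0∞) * μ Q) := by ring
  have h6 : (2 * (M : ℝ≥0∞)) ≠ 0 := mul_ne_zero two_ne_zero (by exact_mod_cast hMpos)
  have h7 : (2 * (M : ℝ≥0∞)) ≠ ⊤ := ENNReal.mul_ne_top (by norm_num) ENNReal.coe_ne_top
  refine ((ENNReal.mul_le_mul_iff_right h6 h7).1 h5).trans (le_of_eq ?_)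
  rw [hM]; push_cast; ring

open Classical in
/-- Exceptional noise. -/
lemma card_bad_noise {μ : Measure S} (hμ : ∀ s : S, MeasurePreserving (fun z => z * s) μ μ)
    (W : S → E) (hWm : ∀ x, Measurable fun z => ‖W (z * x) - W z‖)
    (φ : 𝔸 → S) (bd : S → 𝔸 → 𝔸 → S → ℕ) (α D : ℝ)
    (hbd : ∀ Y n' n h, bd Y n' n h = 0 → ‖W (Y * (φ n * h)) - W (Y * φ n')‖ ≤ α)
    (hbd1 : ∀ Y n' n h, bd Y n' n h ≤ 1)
    (hbdm : ∀ n' n h, Measurable fun Y => bd Y n' n h)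
    (hα : 0 ≤ α) (hD : 0 ≤ D)
    (A' A : Finset 𝔸) (hA' : A'.Nonempty) (hA : A.Nonempty) (J : ℕ) (g : Fin J → S)
    (hW : ∀ i, ∀ n' ∈ A', ∀ n ∈ A, ∀ z, ‖W (z * ((φ n')⁻¹ * (φ n * g i))) - W z‖ ≤ D)
    (t κ : ℝ) (ht : 1 ≤ t) (htκ : t ^ κ = 1024)
    (hP : ∀ i Y, ∑ n' ∈ A', ∑ n ∈ A, (t ^ bd Y n' n (g i)) ^ 2 ≤ 4 * ((A'.card : ℝ) * A.card))
    (l : S → ℕ) (Q : Set S) (hQm : MeasurableSet Q) (hQ0 : μ Q ≠ 0) (hQfin : μ Q < ⊤)
    (r : ℕ) (ψ : ℝ) (hQ : Fol l μ Q r ψ) (hψ0 : 0 ≤ ψ)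
    (hlen : ∀ ω ∈ noise A' A J, l (out φ J g ω) ≤ r)
    (hψ : ((A'.card * A.card : ℝ)) ^ J * ψ ≤ 1) :
    ((((noise A' A J).filter fun ω =>
      (1 / 16) ^ J * μ.real Q < devi W μ Q ((α + D * κ) * J) (out φ J g ω)).card : ℕ) : ℝ)
      ≤ 2 * (1 / 32) ^ J * (noise A' A J).card := by
  have ht0 : 0 < t := lt_of_lt_of_le one_pos ht
  obtain ⟨t', rfl⟩ : ∃ t' : ℝ≥0, (t' : ℝ) = t := ⟨⟨t, ht0.le⟩, rfl⟩
  have ht'1 : 1 ≤ t' := by exact_mod_cast ht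
  set b : S → 𝔸 → 𝔸 → S → ℝ≥0 := fun Y n' n h => t' ^ bd Y n' n h with hb
  have hbm : ∀ i n' n, Measurable fun Y => b Y n' n (g i) := by
    intro i n' n
    exact (measurable_of_countable (fun k : ℕ => t' ^ k)).comp (hbdm n' n (g i))
  have hbt : ∀ i Y n' n, b Y n' n (g i) ≤ t' := by
    intro i Y n' n
    calc t' ^ bd Y n' n (g i) ≤ t' ^ 1 := pow_le_pow_right₀ ht'1 (hbd1 _ _ _ _)
      _ = t' := pow_one _
  have hP' : ∀ i Y, ∑ n' ∈ A', ∑ n ∈ A, b Y n' n (g i) ^ 2 ≤ 4 * (A'.card * A.card) := by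
    intro i Y
    have := hP i Y
    rw [← NNReal.coe_le_coe]
    push_cast
    simpa [hb] using this
  have h1 := first_moment hμ φ b A' A hA' hA t' J g hbm hbt hP' l Q hQm hQfin r ψ hQ hψ0 hlen hψ
  set Ω := noise A' A J with hΩ
  have hΩcard : (Ω.card : ℝ) = (A'.card * A.card : ℝ) ^ J := by
    rw [hΩ, card_noise]; push_cast; ring
  set τ : ℝ := (α + D * κ) * J with hτ
  have hdm : ∀ x, MeasurableSet {z | τ < ‖W (z * x) - W z‖} := fun x =>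
    measurableSet_lt measurable_const (hWm x)
  -- pointwise Markov
  have h2 : ∀ ω ∈ Ω, ENNReal.ofReal (devi W μ Q τ (out φ J g ω)) * 1024 ^ J
      ≤ ∫⁻ z in Q, (wt φ b J g ω z : ℝ≥0∞) ∂μ := by
    intro ω hω
    unfold devi
    rw [ofReal_measureReal (lt_of_le_of_lt (measure_mono Set.inter_subset_left) hQfin).ne]
    have e1 : μ (Q ∩ {z | τ < ‖W (z * out φ J g ω) - W z‖}) * 1024 ^ J
        = ∫⁻ z in Q, ({z | τ < ‖W (z * out φ J g ω) - W z‖}).indicator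
          (fun _ => (1024 : ℝ≥0∞) ^ J) z ∂μ := by
      rw [lintegral_indicator_const (hdm _), Measure.restrict_apply (hdm _), mul_comm,
        Set.inter_comm]
    rw [e1]
    refine lintegral_mono fun z => ?_
    by_cases hz : z ∈ {z | τ < ‖W (z * out φ J g ω) - W z‖}
    · rw [Set.indicator_of_mem hz]
      have h := hz
      simp only [Set.mem_ofPred_eq] at h
      have h3 := disp_le W φ bd α D hbd hα hD A' A J g hW ω hω z
      have h4 : D * κ * J < D * cost φ bd J g ω z := by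
        have : (α + D * κ) * J = α * J + D * κ * J := by ring
        rw [hτ, this] at h
        linarith
      have h5 : κ * J < cost φ bd J g ω z := by
        have : D * (κ * J) < D * cost φ bd J g ω z := by rw [← mul_assoc]; exact h4
        exact lt_of_mul_lt_mul_left this hD
      have h6 : (1024 : ℝ) ^ J ≤ (t' : ℝ) ^ cost φ bd J g ω z := by
        calc (1024 : ℝ) ^ J = ((t' : ℝ) ^ κ) ^ J := by rw [htκ]
          _ = (t' : ℝ) ^ (κ * J) := by rw [← Real.rpow_natCast, ← Real.rpow_mul ht0.le]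
          _ ≤ (t' : ℝ) ^ ((cost φ bd J g ω z : ℕ) : ℝ) :=
            Real.rpow_le_rpow_of_exponent_le ht h5.le
          _ = (t' : ℝ) ^ cost φ bd J g ω z := Real.rpow_natCast _ _
      have h7 : (1024 : ℝ≥0) ^ J ≤ wt φ b J g ω z := by
        rw [hb, wt_eq_pow, ← NNReal.coe_le_coe]
        push_cast
        exact h6
      have h8 := ENNReal.coe_le_coe.2 h7
      rw [ENNReal.coe_pow] at h8
      exact h8
    · rw [Set.indicator_of_notMem hz]; exact bot_le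
  have hwm : ∀ ω, Measurable fun z => (wt φ b J g ω z : ℝ≥0∞) := fun ω =>
    (measurable_wt hμ φ b J g hbm ω).coe_nnreal_ennreal
  have h3 : (∑ ω ∈ Ω, ENNReal.ofReal (devi W μ Q τ (out φ J g ω))) * 1024 ^ J
      ≤ 2 * ((2 * (A'.card * A.card) : ℝ≥0) : ℝ≥0∞) ^ J * μ Q := by
    rw [Finset.sum_mul]
    refine (Finset.sum_le_sum h2).trans (le_trans (le_of_eq ?_) h1)
    rw [← lintegral_finsetSum _ fun ω _ => hwm ω]
    refine lintegral_congr fun z => ?_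
    push_cast; rfl
  have h3r : (∑ ω ∈ Ω, devi W μ Q τ (out φ J g ω)) * 1024 ^ J
      ≤ 2 * μ.real Q * (2 * (A'.card * A.card)) ^ J := by
    have e1 : ENNReal.ofReal ((∑ ω ∈ Ω, devi W μ Q τ (out φ J g ω)) * 1024 ^ J)
        = (∑ ω ∈ Ω, ENNReal.ofReal (devi W μ Q τ (out φ J g ω))) * 1024 ^ J := by
      rw [ENNReal.ofReal_mul (Finset.sum_nonneg fun ω _ => devi_nonneg _ _ _ _ _),
        ENNReal.ofReal_sum_of_nonneg fun ω _ => devi_nonneg _ _ _ _ _,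
        ENNReal.ofReal_pow (by norm_num)]
      norm_num
    have e2 : ENNReal.ofReal (2 * μ.real Q * (2 * (A'.card * A.card)) ^ J)
        = 2 * ((2 * (A'.card * A.card) : ℝ≥0) : ℝ≥0∞) ^ J * μ Q := by
      have : (2 * ((A'.card : ℝ) * A.card)) ^ J
          = (((2 * (A'.card * A.card) : ℝ≥0) ^ J : ℝ≥0) : ℝ) := by push_cast; rfl
      rw [this, ENNReal.ofReal_mul (by positivity), ENNReal.ofReal_mul (by norm_num),
        ofReal_measureReal hQfin.ne, ENNReal.ofReal_coe_nnreal]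
      rw [ENNReal.coe_pow]
      norm_num
      ring
    rw [← e1, ← e2] at h3
    exact (ENNReal.ofReal_le_ofReal_iff (by positivity)).1 h3
  set B := Ω.filter fun ω => (1 / 16) ^ J * μ.real Q < devi W μ Q τ (out φ J g ω) with hB
  have h4 : (B.card : ℝ) * ((1 / 16) ^ J * μ.real Q)
      ≤ ∑ ω ∈ Ω, devi W μ Q τ (out φ J g ω) := by
    calc (B.card : ℝ) * ((1 / 16) ^ J * μ.real Q)
        = ∑ _ω ∈ B, ((1 / 16) ^ J * μ.real Q) := by rw [Finset.sum_const, nsmul_eq_mul]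
      _ ≤ ∑ ω ∈ B, devi W μ Q τ (out φ J g ω) :=
          Finset.sum_le_sum fun ω hω => (Finset.mem_filter.1 hω).2.le
      _ ≤ ∑ ω ∈ Ω, devi W μ Q τ (out φ J g ω) :=
          Finset.sum_le_sum_of_subset_of_nonneg (Finset.filter_subset _ _)
            fun _ _ _ => measureReal_nonneg
  have hQpos : 0 < μ.real Q := ENNReal.toReal_pos hQ0 hQfin.ne
  have h5 : (B.card : ℝ) * ((1 / 16) ^ J * μ.real Q) * 1024 ^ J
      ≤ 2 * μ.real Q * (2 * (A'.card * A.card)) ^ J :=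
    le_trans (mul_le_mul_of_nonneg_right h4 (by positivity)) h3r
  have h6 : (B.card : ℝ) * 64 ^ J ≤ 2 * (2 * (A'.card * A.card)) ^ J := by
    have e1 : (B.card : ℝ) * ((1 / 16) ^ J * μ.real Q) * 1024 ^ J
        = μ.real Q * ((B.card : ℝ) * 64 ^ J) := by
      have : (1024 : ℝ) ^ J = 16 ^ J * 64 ^ J := by rw [← mul_pow]; norm_num
      rw [this]
      have e2 : (1 / 16 : ℝ) ^ J * 16 ^ J = 1 := by rw [← mul_pow]; norm_num
      linear_combination (B.card : ℝ) * μ.real Q * 64 ^ J * e2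
    rw [e1] at h5
    have e3 : 2 * μ.real Q * (2 * ((A'.card : ℝ) * A.card)) ^ J
        = μ.real Q * (2 * (2 * (A'.card * A.card)) ^ J) := by ring
    rw [e3] at h5
    exact le_of_mul_le_mul_left h5 hQpos
  rw [hΩcard]
  have h7 : (64 : ℝ) ^ J * (2 * (1 / 32) ^ J * (A'.card * A.card) ^ J)
      = 2 * (2 * (A'.card * A.card : ℝ)) ^ J := by
    have e1 : (64 : ℝ) ^ J = 2 ^ J * 32 ^ J := by rw [← mul_pow]; norm_num
    have e2 : (1 / 32 : ℝ) ^ J * 32 ^ J = 1 := by rw [← mul_pow]; norm_num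
    rw [e1, mul_pow 2]
    linear_combination 2 * 2 ^ J * (A'.card * A.card : ℝ) ^ J * e2
  have h8 : (64 : ℝ) ^ J * B.card ≤ 64 ^ J * (2 * (1 / 32) ^ J * (A'.card * A.card) ^ J) := by
    rw [h7, mul_comm]; exact h6
  exact le_of_mul_le_mul_left h8 (by positivity)

end Agent.P188.H428.SM
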