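import Mathlib.Algebra.Order.Chebyshev
import Mathlib.MeasureTheory.Integral.Lebesgue.Countable
import Mathlib.MeasureTheory.Constructions.BorelSpace.Real
import Mathlib.MeasureTheory.Measure.Real
import Mathlib.Dynamics.Ergodic.MeasurePreserving
import Mathlib.Tactic.Ring
import Mathlib.Tactic.Group
import Mathlib.Tactic.Positivity
import Mathlib.Tactic.Linarith

/-!
# Operator bound for random chains, base point in a measured group

`S` a group with a measure invariant under right translations; the noise is indexed by finite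
subsets of a group `𝔸` with a map `φ : 𝔸 → S`.
-/

set_option linter.unusedSectionVars false

namespace Agent.P188.H428.SM

open Finset MeasureTheory
open scoped ENNReal NNReal

variable {S : Type*} [Group S] [MeasurableSpace S]
variable {𝔸 : Type*}

/-- One block operator. -/
noncomputable def blk (φ : 𝔸 → S) (w : S → 𝔸 → 𝔸 → ℝ≥0) (A' A : Finset 𝔸) (g : S) (u : S → ℝ≥0)
    (z : S) : ℝ≥0 :=
  ∑ n' ∈ A', ∑ n ∈ A, w (z * (φ n')⁻¹) n' n * u (z * (φ n')⁻¹ * (φ n * g))

lemma measurable_mul_right' {μ : Measure S} (hμ : ∀ s : S, MeasurePreserving (fun z => z * s) μ μ)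
    (s : S) : Measurable fun z : S => z * s := (hμ s).measurable

lemma measurable_blk {μ : Measure S} (hμ : ∀ s : S, MeasurePreserving (fun z => z * s) μ μ)
    (φ : 𝔸 → S) (w : S → 𝔸 → 𝔸 → ℝ≥0) (A' A : Finset 𝔸) (g : S) (u : S → ℝ≥0)
    (hw : ∀ n' n, Measurable fun Y => w Y n' n) (hu : Measurable u) :
    Measurable (blk φ w A' A g u) := by
  unfold blk
  refine Finset.measurable_sum _ fun n' _ => Finset.measurable_sum _ fun n _ => ?_
  refine Measurable.mul ?_ ?_
  · exact (hw n' n).comp (measurable_mul_right' hμ _)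
  · exact hu.comp ((measurable_mul_right' hμ _).comp (measurable_mul_right' hμ _))

/-- Pointwise inequality. -/
lemma pointwise (A' A : Finset 𝔸) (w : 𝔸 → 𝔸 → ℝ≥0) (v u : 𝔸 → ℝ≥0) (P : ℝ≥0)
    (hP : ∑ n' ∈ A', ∑ n ∈ A, w n' n ^ 2 ≤ P) :
    2 * (A'.card : ℝ≥0) * ∑ n' ∈ A', ∑ n ∈ A, w n' n * v n' * u n
      ≤ ∑ n' ∈ A', v n' ^ 2 + (A'.card : ℝ≥0) ^ 2 * P * ∑ n ∈ A, u n ^ 2 := by
  have h1 : ∀ n' ∈ A', 2 * (A'.card : ℝ≥0) * ∑ n ∈ A, w n' n * v n' * u n
      ≤ v n' ^ 2 + (A'.card : ℝ≥0) ^ 2 * ((∑ n ∈ A, w n' n ^ 2) * ∑ n ∈ A, u n ^ 2) := by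
    intro n' _
    have e1 : ∑ n ∈ A, w n' n * v n' * u n = v n' * ∑ n ∈ A, w n' n * u n := by
      rw [Finset.mul_sum]
      exact Finset.sum_congr rfl fun n _ => by ring
    rw [e1]
    have e2 : (∑ n ∈ A, w n' n * u n) ^ 2 ≤ (∑ n ∈ A, w n' n ^ 2) * ∑ n ∈ A, u n ^ 2 :=
      Finset.sum_mul_sq_le_sq_mul_sq A (fun n => w n' n) u
    set c := ∑ n ∈ A, w n' n * u n
    calc 2 * (A'.card : ℝ≥0) * (v n' * c) = 2 * v n' * ((A'.card : ℝ≥0) * c) := by ring
      _ ≤ v n' ^ 2 + ((A'.card : ℝ≥0) * c) ^ 2 := by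
          have := two_mul_le_add_sq (v n') ((A'.card : ℝ≥0) * c)
          exact this
      _ = v n' ^ 2 + (A'.card : ℝ≥0) ^ 2 * c ^ 2 := by ring
      _ ≤ _ := by gcongr
  rw [Finset.mul_sum]
  refine (Finset.sum_le_sum h1).trans ?_
  rw [Finset.sum_add_distrib, ← Finset.mul_sum, ← Finset.sum_mul]
  refine add_le_add le_rfl ?_
  rw [mul_assoc]
  gcongr

/-- Global operator bound. -/
lemma blk_sq_le {μ : Measure S} (hμ : ∀ s : S, MeasurePreserving (fun z => z * s) μ μ)
    (φ : 𝔸 → S) (w : S → 𝔸 → 𝔸 → ℝ≥0) (A' A : Finset 𝔸) (g : S) (u : S → ℝ≥0)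
    (hw : ∀ n' n, Measurable fun Y => w Y n' n) (hu : Measurable u) (t P : ℝ≥0)
    (hwt : ∀ Y n' n, w Y n' n ≤ t)
    (hP : ∀ Y, ∑ n' ∈ A', ∑ n ∈ A, w Y n' n ^ 2 ≤ P)
    (hfin : ∫⁻ z, (u z : ℝ≥0∞) ^ 2 ∂μ < ⊤) :
    ∫⁻ z, (blk φ w A' A g u z : ℝ≥0∞) ^ 2 ∂μ
      ≤ (P * A'.card * A.card : ℝ≥0) * ∫⁻ z, (u z : ℝ≥0∞) ^ 2 ∂μ := by
  set v : S → ℝ≥0 := blk φ w A' A g u with hv
  have hvm : Measurable v := measurable_blk hμ φ w A' A g u hw hu
  set X : ℝ≥0∞ := ∫⁻ z, (v z : ℝ≥0∞) ^ 2 ∂μ with hX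
  set U : ℝ≥0∞ := ∫⁻ z, (u z : ℝ≥0∞) ^ 2 ∂μ with hU
  have hshift : ∀ (f : S → ℝ≥0∞) (s : S), Measurable f → ∫⁻ z, f (z * s) ∂μ = ∫⁻ z, f z ∂μ :=
    fun f s hf => (hμ s).lintegral_comp hf
  have hum2 : Measurable fun z => (u z : ℝ≥0∞) ^ 2 := hu.coe_nnreal_ennreal.pow_const 2
  have hvm2 : Measurable fun z => (v z : ℝ≥0∞) ^ 2 := hvm.coe_nnreal_ennreal.pow_const 2
  rcases A'.eq_empty_or_nonempty with hA' | hA'
  · have : X = 0 := by
      rw [hX]
      have : ∀ z, v z = 0 := by intro z; simp [hv, blk, hA']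
      simp [this]
    rw [this]; exact bot_le
  have hcard : (A'.card : ℝ≥0) ≠ 0 := by
    exact_mod_cast hA'.card_pos.ne'
  -- finiteness
  have hXfin : X < ⊤ := by
    have hpt : ∀ z, (v z : ℝ≥0∞) ^ 2 ≤ ∑ n' ∈ A', ∑ n ∈ A,
        ((A'.card * A.card * t ^ 2 : ℝ≥0) : ℝ≥0∞) *
          (u (z * (φ n')⁻¹ * (φ n * g)) : ℝ≥0∞) ^ 2 := by
      intro z
      have e1 : v z ^ 2 ≤ ∑ n' ∈ A', ∑ n ∈ A, (A'.card * A.card * t ^ 2) *
          u (z * (φ n')⁻¹ * (φ n * g)) ^ 2 := by
        rw [hv]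
        unfold blk
        rw [← Finset.sum_product' A' A (fun n' n => w (z * (φ n')⁻¹) n' n *
          u (z * (φ n')⁻¹ * (φ n * g))), ← Finset.sum_product' A' A (fun n' n =>
          (A'.card * A.card * t ^ 2) * u (z * (φ n')⁻¹ * (φ n * g)) ^ 2)]
        refine (sq_sum_le_card_mul_sum_sq).trans ?_
        rw [Finset.card_product, Finset.mul_sum]
        refine Finset.sum_le_sum fun p _ => ?_
        rw [mul_pow]
        push_cast
        rw [mul_assoc ((A'.card : ℝ≥0) * A.card)]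
        gcongr
        exact hwt _ _ _
      calc (v z : ℝ≥0∞) ^ 2 = ((v z ^ 2 : ℝ≥0) : ℝ≥0∞) := by push_cast; ring
        _ ≤ ((∑ n' ∈ A', ∑ n ∈ A, (A'.card * A.card * t ^ 2) *
          u (z * (φ n')⁻¹ * (φ n * g)) ^ 2 : ℝ≥0) : ℝ≥0∞) := by exact_mod_cast e1
        _ = _ := by push_cast; rfl
    calc X ≤ ∫⁻ z, ∑ n' ∈ A', ∑ n ∈ A, ((A'.card * A.card * t ^ 2 : ℝ≥0) : ℝ≥0∞) *
          (u (z * (φ n')⁻¹ * (φ n * g)) : ℝ≥0∞) ^ 2 ∂μ := lintegral_mono hpt
      _ = ∑ n' ∈ A', ∑ n ∈ A, ((A'.card * A.card * t ^ 2 : ℝ≥0) : ℝ≥0∞) * U := by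
          rw [lintegral_finsetSum]
          · refine Finset.sum_congr rfl fun n' _ => ?_
            rw [lintegral_finsetSum]
            · refine Finset.sum_congr rfl fun n _ => ?_
              rw [lintegral_const_mul]
              · congr 1
                simp only [mul_assoc]
                exact hshift (fun z => (u z : ℝ≥0∞) ^ 2) _ hum2
              · exact hum2.comp
                  ((measurable_mul_right' hμ _).comp (measurable_mul_right' hμ _))
            · intro n _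
              exact (hum2.comp
                ((measurable_mul_right' hμ _).comp (measurable_mul_right' hμ _))).const_mul _
          · intro n' _
            refine Finset.measurable_sum _ fun n _ => ?_
            exact (hum2.comp
                ((measurable_mul_right' hμ _).comp (measurable_mul_right' hμ _))).const_mul _
      _ < ⊤ := by
          refine ENNReal.sum_lt_top.2 fun n' _ => ENNReal.sum_lt_top.2 fun n _ => ?_
          exact ENNReal.mul_lt_top ENNReal.coe_lt_top hfin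
  -- main identity
  have key1 : X = ∫⁻ Y, ((∑ n' ∈ A', ∑ n ∈ A, w Y n' n * v (Y * φ n') *
      u (Y * (φ n * g)) : ℝ≥0) : ℝ≥0∞) ∂μ := by
    have e1 : ∀ z, (v z : ℝ≥0∞) ^ 2 = ∑ n' ∈ A', ∑ n ∈ A,
        ((w (z * (φ n')⁻¹) n' n * v (z * (φ n')⁻¹ * φ n') *
          u (z * (φ n')⁻¹ * (φ n * g)) : ℝ≥0) : ℝ≥0∞) := by
      intro z
      have : v z ^ 2 = ∑ n' ∈ A', ∑ n ∈ A,
        w (z * (φ n')⁻¹) n' n * v (z * (φ n')⁻¹ * φ n') * u (z * (φ n')⁻¹ * (φ n * g)) := by
        calc v z ^ 2 = v z * blk φ w A' A g u z := by rw [sq]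
          _ = _ := by
              unfold blk
              rw [Finset.mul_sum]
              refine Finset.sum_congr rfl fun n' _ => ?_
              rw [Finset.mul_sum, inv_mul_cancel_right]
              refine Finset.sum_congr rfl fun n _ => ?_
              ring
      calc (v z : ℝ≥0∞) ^ 2 = ((v z ^ 2 : ℝ≥0) : ℝ≥0∞) := by push_cast; ring
        _ = _ := by rw [this]; push_cast; rfl
    have hm : ∀ n' n, Measurable fun Y => ((w Y n' n * v (Y * φ n') *
        u (Y * (φ n * g)) : ℝ≥0) : ℝ≥0∞) := by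
      intro n' n
      refine Measurable.coe_nnreal_ennreal ?_
      refine ((hw n' n).mul ?_).mul ?_
      · exact hvm.comp (measurable_mul_right' hμ _)
      · exact hu.comp (measurable_mul_right' hμ _)
    calc X = ∫⁻ z, ∑ n' ∈ A', ∑ n ∈ A,
        ((w (z * (φ n')⁻¹) n' n * v (z * (φ n')⁻¹ * φ n') *
          u (z * (φ n')⁻¹ * (φ n * g)) : ℝ≥0) : ℝ≥0∞) ∂μ := lintegral_congr e1
      _ = ∑ n' ∈ A', ∑ n ∈ A, ∫⁻ z, ((w (z * (φ n')⁻¹) n' n * v (z * (φ n')⁻¹ * φ n') *
          u (z * (φ n')⁻¹ * (φ n * g)) : ℝ≥0) : ℝ≥0∞) ∂μ := by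
          rw [lintegral_finsetSum]
          · refine Finset.sum_congr rfl fun n' _ => ?_
            rw [lintegral_finsetSum]
            intro n _
            exact (hm n' n).comp (measurable_mul_right' hμ _)
          · intro n' _
            refine Finset.measurable_sum _ fun n _ => ?_
            exact (hm n' n).comp (measurable_mul_right' hμ _)
      _ = ∑ n' ∈ A', ∑ n ∈ A, ∫⁻ Y, ((w Y n' n * v (Y * φ n') *
          u (Y * (φ n * g)) : ℝ≥0) : ℝ≥0∞) ∂μ := by
          refine Finset.sum_congr rfl fun n' _ => Finset.sum_congr rfl fun n _ => ?_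
          exact hshift (fun Y => ((w Y n' n * v (Y * φ n') *
            u (Y * (φ n * g)) : ℝ≥0) : ℝ≥0∞)) _ (hm n' n)
      _ = _ := by
          push_cast
          rw [lintegral_finsetSum]
          · refine Finset.sum_congr rfl fun n' _ => ?_
            rw [lintegral_finsetSum]
            intro n _
            have := hm n' n
            push_cast at this
            exact this
          · intro n' _
            refine Finset.measurable_sum _ fun n _ => ?_
            have := hm n' n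
            push_cast at this
            exact this
  have key2 : ((2 * A'.card : ℝ≥0) : ℝ≥0∞) * X ≤ (A'.card : ℝ≥0) * X +
      ((A'.card ^ 2 * P : ℝ≥0) : ℝ≥0∞) * ((A.card : ℝ≥0) * U) := by
    have hmF : Measurable fun Y => ((∑ n' ∈ A', ∑ n ∈ A, w Y n' n * v (Y * φ n') *
      u (Y * (φ n * g)) : ℝ≥0) : ℝ≥0∞) := by
      refine Measurable.coe_nnreal_ennreal ?_
      refine Finset.measurable_sum _ fun n' _ => Finset.measurable_sum _ fun n _ => ?_
      refine ((hw n' n).mul ?_).mul ?_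
      · exact hvm.comp (measurable_mul_right' hμ _)
      · exact hu.comp (measurable_mul_right' hμ _)
    calc ((2 * A'.card : ℝ≥0) : ℝ≥0∞) * X
        = ∫⁻ Y, ((2 * A'.card : ℝ≥0) : ℝ≥0∞) * ((∑ n' ∈ A', ∑ n ∈ A, w Y n' n * v (Y * φ n') *
          u (Y * (φ n * g)) : ℝ≥0) : ℝ≥0∞) ∂μ := by
          conv_lhs => rw [key1]
          rw [lintegral_const_mul _ hmF]
      _ ≤ ∫⁻ Y, ((∑ n' ∈ A', (v (Y * φ n') : ℝ≥0∞) ^ 2) + ((A'.card ^ 2 * P : ℝ≥0) : ℝ≥0∞) *
          ∑ n ∈ A, (u (Y * (φ n * g)) : ℝ≥0∞) ^ 2) ∂μ := by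
          refine lintegral_mono fun Y => ?_
          have h := pointwise A' A (fun n' n => w Y n' n) (fun n' => v (Y * φ n'))
            (fun n => u (Y * (φ n * g))) P (hP Y)
          have h' := ENNReal.coe_le_coe.2 h
          rw [ENNReal.coe_mul, ENNReal.coe_add, ENNReal.coe_mul (((A'.card : ℝ≥0)) ^ 2 * P)] at h'
          refine h'.trans (le_of_eq ?_)
          congr 1
          · push_cast; rfl
          · congr 1
            push_cast; rfl
      _ = (∑ n' ∈ A', X) + ((A'.card ^ 2 * P : ℝ≥0) : ℝ≥0∞) * ∑ n ∈ A, U := by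
          rw [lintegral_add_left]
          · congr 1
            · rw [lintegral_finsetSum]
              · refine Finset.sum_congr rfl fun n' _ => ?_
                exact hshift (fun z => (v z : ℝ≥0∞) ^ 2) _ hvm2
              · intro n' _
                exact hvm2.comp (measurable_mul_right' hμ _)
            · rw [lintegral_const_mul]
              · congr 1
                rw [lintegral_finsetSum]
                · refine Finset.sum_congr rfl fun n _ => ?_
                  exact hshift (fun z => (u z : ℝ≥0∞) ^ 2) _ hum2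
                · intro n _
                  exact hum2.comp (measurable_mul_right' hμ _)
              · refine Finset.measurable_sum _ fun n _ => ?_
                exact hum2.comp (measurable_mul_right' hμ _)
          · refine Finset.measurable_sum _ fun n' _ => ?_
            exact hvm2.comp (measurable_mul_right' hμ _)
      _ = _ := by
          rw [Finset.sum_const, Finset.sum_const, nsmul_eq_mul, nsmul_eq_mul]
          push_cast; rfl
  have key3 : ((A'.card : ℝ≥0) : ℝ≥0∞) * X ≤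
      ((A'.card ^ 2 * P : ℝ≥0) : ℝ≥0∞) * ((A.card : ℝ≥0) * U) := by
    have h1 : ((2 * A'.card : ℝ≥0) : ℝ≥0∞) * X
        = ((A'.card : ℝ≥0) : ℝ≥0∞) * X + ((A'.card : ℝ≥0) : ℝ≥0∞) * X := by
      push_cast; ring
    rw [h1] at key2
    have h2 : ((A'.card : ℝ≥0) : ℝ≥0∞) * X ≠ ⊤ :=
      (ENNReal.mul_lt_top ENNReal.coe_lt_top hXfin).ne
    exact (ENNReal.add_le_add_iff_left h2).1 key2
  have key4 : ((A'.card : ℝ≥0) : ℝ≥0∞) * X ≤
      ((A'.card : ℝ≥0) : ℝ≥0∞) * ((P * A'.card * A.card : ℝ≥0) * U) := by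
    refine key3.trans (le_of_eq ?_)
    push_cast; ring
  exact (ENNReal.mul_le_mul_iff_right (by exact_mod_cast hcard) ENNReal.coe_ne_top).1 key4

end Agent.P188.H428.SM
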