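import Vale.Agent.P188.H428.SFix
import Mathlib.GroupTheory.Commutator.Basic

/-!
# Fixed displacements modulo the commutator subgroup (measured version)
-/

set_option linter.unusedSectionVars false

namespace Agent.P188.H428.SM

open Finset MeasureTheory
open scoped ENNReal NNReal

variable {S : Type*} [Group S] [MeasurableSpace S]
variable {𝔸 : Type*} [Group 𝔸]
variable {E : Type*} [NormedAddCommGroup E]

open Classical in
/-- A big box `B` and a small box `Bs` of noise at scale `R1`: finite subsets of an index group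
`𝔸`, mapped to `N` by a map `φ` which is a homomorphism modulo `⁅N, N⁆`. -/
structure Noise (l : S → ℕ) (N : Subgroup S) [N.Normal] (C1 M R1 : ℕ) (φ : 𝔸 → S)
    (B Bs : Finset 𝔸) : Prop where
  ne : Bs.Nonempty
  sub : Bs ⊆ B
  mem : ∀ n, φ n ∈ N
  hom : ∀ a b, (QuotientGroup.mk' ⁅N, N⁆) (φ (a * b))
    = (QuotientGroup.mk' ⁅N, N⁆) (φ a) * (QuotientGroup.mk' ⁅N, N⁆) (φ b)
  len : ∀ n ∈ B, l (φ n) ≤ C1 * R1
  card : B.card ≤ M * Bs.card
  shift : ∀ a ∈ Bs, ∀ b ∈ Bs, B.card ≤ 2 * (B.filter fun n => n * (a⁻¹ * b) ∈ B).card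

open Classical in
/-- Flatness of `W` on all translates of the box, for most pairs of points. -/
def Flat (l : S → ℕ) (W : S → E) (R1 : ℕ) (φ : 𝔸 → S) (B : Finset 𝔸) (α ε : ℝ) : Prop :=
  ∀ Y g, l g ≤ R1 →
    (((B ×ˢ B).filter fun p => α < ‖W (Y * (φ p.2 * g)) - W (Y * φ p.1)‖).card : ℝ)
      ≤ ε * ((B.card : ℝ) * B.card)

open Classical in
lemma sum_sq_bd_le (W : S → E) (Y g : S) (φ : 𝔸 → S) (B A Bs : Finset 𝔸) (M : ℕ) (α ε t : ℝ)
    (hAB : A ⊆ B) (hBA : Bs ⊆ A) (hcard : B.card ≤ M * Bs.card)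
    (hε : (M : ℝ) * M * ε * t ^ 2 ≤ 1) (hε0 : 0 ≤ ε)
    (hf : (((B ×ˢ B).filter fun p => α < ‖W (Y * (φ p.2 * g)) - W (Y * φ p.1)‖).card : ℝ)
      ≤ ε * ((B.card : ℝ) * B.card)) :
    ∑ n' ∈ A, ∑ n ∈ A, (t ^ (if ‖W (Y * (φ n * g)) - W (Y * φ n')‖ ≤ α then 0 else 1)) ^ 2
      ≤ 4 * ((A.card : ℝ) * A.card) := by
  rw [← Finset.sum_product' A A (fun n' n =>
    (t ^ (if ‖W (Y * (φ n * g)) - W (Y * φ n')‖ ≤ α then 0 else 1)) ^ 2)]
  have h1 : ∀ p ∈ A ×ˢ A, (t ^ (if ‖W (Y * (φ p.2 * g)) - W (Y * φ p.1)‖ ≤ α then 0 else 1)) ^ 2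
      ≤ 1 + (if α < ‖W (Y * (φ p.2 * g)) - W (Y * φ p.1)‖ then t ^ 2 else 0) := by
    intro p _
    by_cases h : ‖W (Y * (φ p.2 * g)) - W (Y * φ p.1)‖ ≤ α
    · rw [if_pos h, if_neg (not_lt.2 h)]; simp
    · rw [if_neg h, if_pos (not_le.1 h)]; simp
  have h2 : ∑ p ∈ A ×ˢ A, (if α < ‖W (Y * (φ p.2 * g)) - W (Y * φ p.1)‖ then t ^ 2 else 0)
      = ((A ×ˢ A).filter fun p => α < ‖W (Y * (φ p.2 * g)) - W (Y * φ p.1)‖).card * t ^ 2 := by
    rw [← Finset.sum_filter, Finset.sum_const, nsmul_eq_mul]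
  have h3 : (((A ×ˢ A).filter fun p => α < ‖W (Y * (φ p.2 * g)) - W (Y * φ p.1)‖).card : ℝ)
      ≤ ((B ×ˢ B).filter fun p => α < ‖W (Y * (φ p.2 * g)) - W (Y * φ p.1)‖).card := by
    exact_mod_cast Finset.card_le_card
      (Finset.filter_subset_filter _ (Finset.product_subset_product hAB hAB))
  have h4 : (B.card : ℝ) ≤ M * A.card := by
    have : B.card ≤ M * A.card := hcard.trans (Nat.mul_le_mul_left _ (Finset.card_le_card hBA))
    exact_mod_cast this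
  have h4' : (B.card : ℝ) * B.card ≤ (M * A.card) * (M * A.card) :=
    mul_le_mul h4 h4 (Nat.cast_nonneg _) (by positivity)
  have h5 : (((A ×ˢ A).filter fun p => α < ‖W (Y * (φ p.2 * g)) - W (Y * φ p.1)‖).card : ℝ)
      * t ^ 2 ≤ (A.card : ℝ) * A.card := by
    calc (((A ×ˢ A).filter fun p => α < ‖W (Y * (φ p.2 * g)) - W (Y * φ p.1)‖).card : ℝ) * t ^ 2
        ≤ (ε * ((M * A.card) * (M * A.card))) * t ^ 2 := by
          apply mul_le_mul_of_nonneg_right _ (sq_nonneg t)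
          exact (h3.trans hf).trans (mul_le_mul_of_nonneg_left h4' hε0)
      _ = ((M : ℝ) * M * ε * t ^ 2) * (A.card * A.card) := by ring
      _ ≤ 1 * (A.card * A.card) := mul_le_mul_of_nonneg_right hε (by positivity)
      _ = (A.card : ℝ) * A.card := one_mul _
  calc ∑ p ∈ A ×ˢ A, (t ^ (if ‖W (Y * (φ p.2 * g)) - W (Y * φ p.1)‖ ≤ α then 0 else 1)) ^ 2
      ≤ ∑ p ∈ A ×ˢ A, (1 + (if α < ‖W (Y * (φ p.2 * g)) - W (Y * φ p.1)‖ then t ^ 2 else 0)) :=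
        Finset.sum_le_sum h1
    _ = (A.card : ℝ) * A.card +
        ((A ×ˢ A).filter fun p => α < ‖W (Y * (φ p.2 * g)) - W (Y * φ p.1)‖).card * t ^ 2 := by
        rw [Finset.sum_add_distrib, h2]; simp [Finset.card_product]
    _ ≤ 4 * ((A.card : ℝ) * A.card) := by nlinarith [h5, mul_nonneg (Nat.cast_nonneg (α := ℝ) A.card) (Nat.cast_nonneg (α := ℝ) A.card)]

/-- **Fixed displacements modulo `⁅N, N⁆`.** -/
theorem exists_Gd_mod {μ : Measure S} (l : S → ℕ) (W : S → E) (Q : Set S) (hM : MG μ l W Q)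
    (h1 : l 1 = 0) (hQ0 : μ Q ≠ 0) (N : Subgroup S) [N.Normal] (L : ℝ) (hL : 0 ≤ L)
    (hW : ∀ z h, ‖W (z * h) - W z‖ ≤ L * l h) (C1 M R1 : ℕ) (φ : 𝔸 → S) (B Bs : Finset 𝔸)
    (hbox : Noise l N C1 M R1 φ B Bs) (α ε κ : ℝ) (hα : 0 ≤ α) (hκ : 0 < κ) (hε0 : 0 ≤ ε)
    (hε : (M : ℝ) * M * ε * ((1024 : ℝ) ^ (1 / κ)) ^ 2 ≤ 1) (hflat : Flat l W R1 φ B α ε)
    (J : ℕ) (hJ : 1 ≤ J) (g : Fin J → S) (hg : ∀ i, l (g i) ≤ R1)
    (ψ : ℝ) (hψ0 : 0 ≤ ψ) (hQ : Fol l μ Q (2 * ((2 * C1 + 1) * R1 * J)) ψ)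
    (hψ : ((B.card * B.card : ℝ)) ^ J * ψ ≤ 1) (hψ2 : ψ ≤ (1 / 16) ^ J) :
    ∃ d, (xp J g)⁻¹ * d ∈ ⁅N, N⁆ ∧
      Gd l W μ Q (3 * ((α + L * ((2 * C1 + 1) * R1 : ℕ) * κ) * J)) (6 * (1 / 16) ^ J)
        (3 * ((2 * C1 + 1) * R1 * J)) d := by
  classical
  set t : ℝ := (1024 : ℝ) ^ (1 / κ) with ht
  have ht1 : 1 ≤ t := by
    rw [ht]; exact Real.one_le_rpow (by norm_num) (by positivity)
  have htκ : t ^ κ = 1024 := by
    rw [ht, ← Real.rpow_mul (by norm_num), one_div, inv_mul_cancel₀ hκ.ne', Real.rpow_one]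
  set bd : S → 𝔸 → 𝔸 → S → ℕ := fun Y n' n h =>
    if ‖W (Y * (φ n * h)) - W (Y * φ n')‖ ≤ α then 0 else 1 with hbd
  have hbd0 : ∀ Y n' n h, bd Y n' n h = 0 → ‖W (Y * (φ n * h)) - W (Y * φ n')‖ ≤ α := by
    intro Y n' n h hh
    by_contra hcon
    simp only [hbd, if_neg hcon] at hh
    exact one_ne_zero hh
  have hbd1 : ∀ Y n' n h, bd Y n' n h ≤ 1 := by
    intro Y n' n h
    simp only [hbd]
    split_ifs <;> norm_num
  have hbdm : ∀ n' n h, Measurable fun Y => bd Y n' n h := by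
    intro n' n h
    have hm : Measurable fun Y => ‖W (Y * (φ n * h)) - W (Y * φ n')‖ := by
      have h2 := (hM.mW ((φ n')⁻¹ * (φ n * h))).comp (hM.inv (φ n')).measurable
      convert h2 using 2 with Y
      simp only [Function.comp_apply]
      rw [mul_assoc Y, mul_inv_cancel_left]
    exact Measurable.ite (measurableSet_le hm measurable_const) measurable_const measurable_const
  set D : ℝ := L * ((2 * C1 + 1) * R1 : ℕ) with hD
  have hD0 : 0 ≤ D := by positivity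
  set r : ℕ := (2 * C1 + 1) * R1 * J with hr
  have hlen : ∀ A : Finset 𝔸, A ⊆ B → ∀ i, ∀ n' ∈ A, ∀ n ∈ A,
      l ((φ n')⁻¹ * (φ n * g i)) ≤ (2 * C1 + 1) * R1 := by
    intro A hA i n' hn' n hn
    calc l ((φ n')⁻¹ * (φ n * g i)) ≤ l (φ n')⁻¹ + (l (φ n) + l (g i)) :=
          (hM.lmul _ _).trans (Nat.add_le_add_left (hM.lmul _ _) _)
      _ ≤ C1 * R1 + (C1 * R1 + R1) := by
          rw [hM.linv]
          exact add_le_add (hbox.len _ (hA hn')) (add_le_add (hbox.len _ (hA hn)) (hg i))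
      _ = (2 * C1 + 1) * R1 := by ring
  have main : ∀ A : Finset 𝔸, A ⊆ B → Bs ⊆ A →
      ((((noise A A J).filter fun ω =>
      (1 / 16) ^ J * μ.real Q < devi W μ Q ((α + D * κ) * J) (out φ J g ω)).card : ℕ) : ℝ)
      ≤ 2 * (1 / 32) ^ J * (noise A A J).card := by
    intro A hAB hBA
    have hcardA : (A.card : ℝ) ≤ B.card := by exact_mod_cast Finset.card_le_card hAB
    have hAne : A.Nonempty := hbox.ne.mono hBA
    refine card_bad_noise hM.inv W hM.mW φ bd α D hbd0 hbd1 hbdm hα hD0 A A hAne hAne J g ?_ t κ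
      ht1 htκ ?_ l Q hM.mQ hQ0 hM.fin r ψ (fun y hy => hQ y (by omega)) hψ0 ?_ ?_
    · intro i n' hn' n hn z
      refine (hW z _).trans (mul_le_mul_of_nonneg_left ?_ hL)
      exact_mod_cast hlen A hAB i n' hn' n hn
    · intro i Y
      exact sum_sq_bd_le W Y (g i) φ B A Bs M α ε t hAB hBA hbox.card hε hε0 (hflat Y (g i) (hg i))
    · intro ω hω
      exact len_out_le l h1 hM.lmul φ A A J g _ (hlen A hAB) ω hω
    · refine le_trans (mul_le_mul_of_nonneg_right ?_ hψ0) hψ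
      gcongr
  have mB := main B (Finset.Subset.refl _) hbox.sub
  have mBs := main Bs hbox.sub (Finset.Subset.refl _)
  have hBne : B.Nonempty := hbox.ne.mono hbox.sub
  have hq : 2 * (2 * (1 / 32 : ℝ) ^ J) < (1 / 2) ^ J := by
    have e1 : (1 / 32 : ℝ) ^ J = (1 / 2) ^ J * (1 / 16) ^ J := by rw [← mul_pow]; norm_num
    have e2 : (1 / 16 : ℝ) ^ J ≤ 1 / 16 := by
      calc (1 / 16 : ℝ) ^ J ≤ (1 / 16) ^ 1 :=
            pow_le_pow_of_le_one (by norm_num) (by norm_num) hJ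
        _ = 1 / 16 := pow_one _
    have e3 : (0 : ℝ) < (1 / 2) ^ J := by positivity
    rw [e1]
    nlinarith
  have hT3 : ((noise Bs Bs J).filter fun ω =>
      (1 / 16) ^ J * μ.real Q < devi W μ Q ((α + D * κ) * J) (out φ J g ω)).card
      < (noise Bs Bs J).card := by
    have hpos : 0 < (noise Bs Bs J).card := by
      rw [card_noise]
      exact pow_pos (Nat.mul_pos hbox.ne.card_pos hbox.ne.card_pos) J
    have hposR : (0 : ℝ) < (noise Bs Bs J).card := by exact_mod_cast hpos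
    have e1 : 2 * (1 / 32 : ℝ) ^ J < 1 := by
      have : (1 / 32 : ℝ) ^ J ≤ (1 / 32) ^ 1 :=
        pow_le_pow_of_le_one (by norm_num) (by norm_num) hJ
      rw [pow_one] at this
      linarith
    have e2 : 2 * (1 / 32 : ℝ) ^ J * (noise Bs Bs J).card < (noise Bs Bs J).card := by
      nlinarith
    exact_mod_cast lt_of_le_of_lt mBs e2
  obtain ⟨ω, hω, ω3, hω3, g1, g3, hω', g2⟩ := exists_three B Bs hBne J hbox.shift
    (fun ω => (1 / 16) ^ J * μ.real Q < devi W μ Q ((α + D * κ) * J) (out φ J g ω))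
    (fun ω => (1 / 16) ^ J * μ.real Q < devi W μ Q ((α + D * κ) * J) (out φ J g ω))
    (2 * (1 / 32) ^ J) hq mB hT3
  set ω' : Fin J → 𝔸 × 𝔸 := fun i => ((ω i).1, (ω i).2 * ((ω3 i).1⁻¹ * (ω3 i).2)) with hω'def
  have k1 : Gd l W μ Q ((α + D * κ) * J) ((1 / 16) ^ J) r (out φ J g ω) :=
    ⟨len_out_le l h1 hM.lmul φ B B J g _ (hlen B (Finset.Subset.refl _)) ω hω, not_lt.1 g1⟩
  have k2 : Gd l W μ Q ((α + D * κ) * J) ((1 / 16) ^ J) r (out φ J g ω') :=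
    ⟨len_out_le l h1 hM.lmul φ B B J g _ (hlen B (Finset.Subset.refl _)) ω' hω', not_lt.1 g2⟩
  have k3 : Gd l W μ Q ((α + D * κ) * J) ((1 / 16) ^ J) r (out φ J g ω3) :=
    ⟨len_out_le l h1 hM.lmul φ Bs Bs J g _ (hlen Bs hbox.sub) ω3 hω3, not_lt.1 g3⟩
  have hQr : Fol l μ Q r ψ := fun y hy => hQ y (by omega)
  have hQ2r : Fol l μ Q (r + r) ψ := fun y hy => hQ y (by omega)
  have k4 := (k3.mul hM (k2.inv hM hQr) hQr).mul hM k1 hQ2r
  refine ⟨out φ J g ω3 * (out φ J g ω')⁻¹ * out φ J g ω, ?_, k4.mono hM ?_ ?_ ?_⟩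
  · rw [← QuotientGroup.eq]
    set π := QuotientGroup.mk' ⁅N, N⁆ with hπ
    have hN : ∀ a ∈ N, ∀ b ∈ N, π a * π b = π b * π a := by
      intro a ha b hb
      rw [← map_mul, ← map_mul]
      change ((a * b : S) : S ⧸ ⁅N, N⁆) = ((b * a : S) : S ⧸ ⁅N, N⁆)
      rw [QuotientGroup.eq]
      have := Subgroup.commutator_mem_commutator (H₁ := N) (H₂ := N)
        (N.inv_mem hb) (N.inv_mem ha)
      simpa only [commutatorElement_def, inv_inv, mul_inv_rev, mul_assoc] using this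
    have hid := pr_identity π N hN J
      (fun i => (φ (ω i).1)⁻¹ * φ (ω i).2) (fun i => (φ (ω3 i).1)⁻¹ * φ (ω3 i).2) g
      (fun i => N.mul_mem (N.inv_mem (hbox.mem _)) (hbox.mem _))
      (fun i => N.mul_mem (N.inv_mem (hbox.mem _)) (hbox.mem _))
    have hone : π (φ 1) = 1 := by
      have h2 := hbox.hom 1 1
      rw [mul_one] at h2
      exact (mul_eq_left.1 h2.symm)
    have hinvφ : ∀ a, π (φ a⁻¹) = (π (φ a))⁻¹ := by
      intro a
      have h2 := hbox.hom a⁻¹ a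
      rw [inv_mul_cancel] at h2
      exact eq_inv_of_mul_eq_one_left (h2.symm.trans hone)
    have e1 : π (out φ J g ω')
        = π (pr J (fun i => (φ (ω i).1)⁻¹ * φ (ω i).2 * ((φ (ω3 i).1)⁻¹ * φ (ω3 i).2)) g) := by
      rw [out_eq_pr]
      refine pr_congr π J _ _ g fun i => ?_
      simp only [hω'def, map_mul, map_inv]
      have h3 := hbox.hom (ω i).2 ((ω3 i).1⁻¹ * (ω3 i).2)
      have h4 := hbox.hom (ω3 i).1⁻¹ (ω3 i).2
      rw [← hπ] at h3 h4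
      rw [h3, h4, hinvφ]
      simp only [mul_assoc]
    rw [← out_eq_pr, ← out_eq_pr, ← e1] at hid
    change π (xp J g) = π (out φ J g ω3 * (out φ J g ω')⁻¹ * out φ J g ω)
    rw [map_mul, map_mul, map_inv, hid]
    group
  · linarith
  · have : (0 : ℝ) ≤ (1 / 16) ^ J := by positivity
    linarith
  · omega

end Agent.P188.H428.SM
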