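import Vale.Agent.P188.H428.Fix
import Mathlib.GroupTheory.Commutator.Basic

/-!
# Fixed displacements modulo the commutator subgroup
-/

set_option linter.unusedSectionVars false

namespace Agent.P188.H428

open Finset

variable {G : Type*} [Group G] [DecidableEq G]
variable {E : Type*} [NormedAddCommGroup E]

/-- A big box `B` and a small box `Bs` in `N` at scale `R1`. -/
structure Boxes (l : G → ℕ) (N : Subgroup G) (C1 M R1 : ℕ) (B Bs : Finset G) : Prop where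
  ne : Bs.Nonempty
  sub : Bs ⊆ B
  mem : ∀ n ∈ B, n ∈ N
  len : ∀ n ∈ B, l n ≤ C1 * R1
  card : B.card ≤ M * Bs.card
  shift : ∀ a ∈ Bs, ∀ b ∈ Bs, B.card ≤ 2 * (B.filter fun n => n * (a⁻¹ * b) ∈ B).card

open Classical in
/-- Flatness of `W` on all translates of the box, for most points. -/
def Flat (l : G → ℕ) (W : G → E) (R1 : ℕ) (B : Finset G) (α ε : ℝ) : Prop :=
  ∀ Y, ∃ c, ∀ g, l g ≤ R1 →
    ((B.filter fun n => α < ‖W (Y * (n * g)) - c‖).card : ℝ) ≤ ε * B.card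

open Classical in
lemma sum_sq_bd_le (W : G → E) (c : E) (Y g : G) (B A Bs : Finset G) (M : ℕ) (α ε t : ℝ)
    (hAB : A ⊆ B) (hBA : Bs ⊆ A) (hcard : B.card ≤ M * Bs.card)
    (hε : M * ε * t ^ 2 ≤ 1) (hε0 : 0 ≤ ε)
    (hf : ((B.filter fun n => α < ‖W (Y * (n * g)) - c‖).card : ℝ) ≤ ε * B.card) :
    ∑ n ∈ A, (t ^ (if ‖W (Y * (n * g)) - c‖ ≤ α then 0 else 1)) ^ 2 ≤ 2 * (A.card : ℝ) := by
  have h1 : ∀ n ∈ A, (t ^ (if ‖W (Y * (n * g)) - c‖ ≤ α then 0 else 1)) ^ 2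
      ≤ 1 + (if α < ‖W (Y * (n * g)) - c‖ then t ^ 2 else 0) := by
    intro n _
    by_cases h : ‖W (Y * (n * g)) - c‖ ≤ α
    · rw [if_pos h, if_neg (not_lt.2 h)]; simp
    · rw [if_neg h, if_pos (not_le.1 h)]; simp
  have h2 : ∑ n ∈ A, (if α < ‖W (Y * (n * g)) - c‖ then t ^ 2 else 0)
      = (A.filter fun n => α < ‖W (Y * (n * g)) - c‖).card * t ^ 2 := by
    rw [← Finset.sum_filter, Finset.sum_const, nsmul_eq_mul]
  have h3 : ((A.filter fun n => α < ‖W (Y * (n * g)) - c‖).card : ℝ)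
      ≤ (B.filter fun n => α < ‖W (Y * (n * g)) - c‖).card := by
    exact_mod_cast Finset.card_le_card (Finset.filter_subset_filter _ hAB)
  have h4 : (B.card : ℝ) ≤ M * A.card := by
    have : B.card ≤ M * A.card := hcard.trans (Nat.mul_le_mul_left _ (Finset.card_le_card hBA))
    exact_mod_cast this
  have h5 : ((A.filter fun n => α < ‖W (Y * (n * g)) - c‖).card : ℝ) * t ^ 2 ≤ A.card := by
    calc ((A.filter fun n => α < ‖W (Y * (n * g)) - c‖).card : ℝ) * t ^ 2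
        ≤ (ε * (M * A.card)) * t ^ 2 := by
          apply mul_le_mul_of_nonneg_right _ (sq_nonneg t)
          exact (h3.trans hf).trans (mul_le_mul_of_nonneg_left h4 hε0)
      _ = (M * ε * t ^ 2) * A.card := by ring
      _ ≤ 1 * A.card := mul_le_mul_of_nonneg_right hε (Nat.cast_nonneg _)
      _ = A.card := one_mul _
  calc ∑ n ∈ A, (t ^ (if ‖W (Y * (n * g)) - c‖ ≤ α then 0 else 1)) ^ 2
      ≤ ∑ n ∈ A, (1 + (if α < ‖W (Y * (n * g)) - c‖ then t ^ 2 else 0)) :=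
        Finset.sum_le_sum h1
    _ = A.card + (A.filter fun n => α < ‖W (Y * (n * g)) - c‖).card * t ^ 2 := by
        rw [Finset.sum_add_distrib, h2]; simp
    _ ≤ 2 * (A.card : ℝ) := by linarith

/-- **Fixed displacements modulo `⁅N, N⁆`.** -/
theorem exists_Gd_mod (l : G → ℕ) (h1 : l 1 = 0) (hmul : ∀ x y, l (x * y) ≤ l x + l y)
    (hinv : ∀ x, l x⁻¹ = l x) (N : Subgroup G) [N.Normal] (W : G → E) (L : ℝ) (hL : 0 ≤ L)
    (hW : ∀ z h, ‖W (z * h) - W z‖ ≤ L * l h) (C1 M R1 : ℕ) (B Bs : Finset G)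
    (hbox : Boxes l N C1 M R1 B Bs) (α ε κ : ℝ) (hα : 0 ≤ α) (hκ : 0 < κ) (hε0 : 0 ≤ ε)
    (hε : M * ε * ((1024 : ℝ) ^ (1 / κ)) ^ 2 ≤ 1) (hflat : Flat l W R1 B α ε)
    (J : ℕ) (hJ : 1 ≤ J) (g : Fin J → G) (hg : ∀ i, l (g i) ≤ R1) (Q : Finset G)
    (hQ0 : Q.Nonempty) (φ : ℝ) (hφ0 : 0 ≤ φ) (hQ : Fol l Q (2 * ((2 * C1 + 1) * R1 * J)) φ)
    (hφ : ((B.card * B.card : ℝ)) ^ J * φ ≤ 1) (hφ2 : φ ≤ (1 / 16) ^ J) :
    ∃ d, (xp J g)⁻¹ * d ∈ ⁅N, N⁆ ∧
      Gd l W Q (3 * ((2 * α + L * ((2 * C1 + 1) * R1 : ℕ) * κ) * J)) (6 * (1 / 16) ^ J)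
        (3 * ((2 * C1 + 1) * R1 * J)) d := by
  classical
  set t : ℝ := (1024 : ℝ) ^ (1 / κ) with ht
  have ht1 : 1 ≤ t := by
    rw [ht]; exact Real.one_le_rpow (by norm_num) (by positivity)
  have htκ : t ^ κ = 1024 := by
    rw [ht, ← Real.rpow_mul (by norm_num), one_div, inv_mul_cancel₀ hκ.ne', Real.rpow_one]
  choose c hc using hflat
  set bd : G → G → ℕ := fun Y h => if ‖W (Y * h) - c Y‖ ≤ α then 0 else 1 with hbd
  have hbd0 : ∀ Y h, bd Y h = 0 → ‖W (Y * h) - c Y‖ ≤ α := by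
    intro Y h hh
    by_contra hcon
    simp only [hbd, if_neg hcon] at hh
    exact one_ne_zero hh
  set D : ℝ := L * ((2 * C1 + 1) * R1 : ℕ) with hD
  have hD0 : 0 ≤ D := by positivity
  set r : ℕ := (2 * C1 + 1) * R1 * J with hr
  -- bounds valid for both boxes
  have hlen : ∀ A : Finset G, A ⊆ B → ∀ i, ∀ n' ∈ A, ∀ n ∈ A,
      l (n'⁻¹ * (n * g i)) ≤ (2 * C1 + 1) * R1 := by
    intro A hA i n' hn' n hn
    calc l (n'⁻¹ * (n * g i)) ≤ l n'⁻¹ + (l n + l (g i)) :=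
          (hmul _ _).trans (Nat.add_le_add_left (hmul _ _) _)
      _ ≤ C1 * R1 + (C1 * R1 + R1) := by
          rw [hinv]
          exact add_le_add (hbox.len _ (hA hn')) (add_le_add (hbox.len _ (hA hn)) (hg i))
      _ = (2 * C1 + 1) * R1 := by ring
  have main : ∀ A : Finset G, A ⊆ B → Bs ⊆ A →
      ((((noise A A J).filter fun ω =>
      (1 / 16) ^ J * (Q.card : ℝ) < devi W Q ((2 * α + D * κ) * J) (out J g ω)).card : ℕ) : ℝ)
      ≤ 2 * (1 / 32) ^ J * (noise A A J).card := by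
    intro A hAB hBA
    have hcardA : (A.card : ℝ) ≤ B.card := by exact_mod_cast Finset.card_le_card hAB
    refine card_bad_noise W c bd α D hbd0 hα hD0 A A J g ?_ t κ ht1 htκ ?_ ?_ l Q hQ0 r φ
      (fun y hy => hQ y (by omega)) hφ0 ?_ ?_
    · intro i n' hn' n hn z
      refine (hW z _).trans (mul_le_mul_of_nonneg_left ?_ hL)
      exact_mod_cast hlen A hAB i n' hn' n hn
    · intro Y
      have h2 := sum_sq_bd_le W (c Y) Y 1 B A Bs M α ε t hAB hBA hbox.card hε hε0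
        (hc Y 1 (by rw [h1]; exact Nat.zero_le _))
      simpa only [mul_one, hbd] using h2
    · intro i Y
      exact sum_sq_bd_le W (c Y) Y (g i) B A Bs M α ε t hAB hBA hbox.card hε hε0
        (hc Y (g i) (hg i))
    · intro ω hω
      exact len_out_le l h1 hmul A A J g _ (hlen A hAB) ω hω
    · refine le_trans (mul_le_mul_of_nonneg_right ?_ hφ0) hφ
      gcongr
  have mB := main B (Finset.Subset.refl _) hbox.sub
  have mBs := main Bs hbox.sub (Finset.Subset.refl _)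
  have hBne : B.Nonempty := hbox.ne.mono hbox.sub
  have hq : 2 * (2 * (1 / 32 : ℝ) ^ J) < (1 / 2) ^ J := by
    have e1 : (1 / 32 : ℝ) ^ J = (1 / 2) ^ J * (1 / 16) ^ J := by rw [← mul_pow]; norm_num
    have e2 : (1 / 16 : ℝ) ^ J ≤ 1 / 16 := by
      calc (1 / 16 : ℝ) ^ J ≤ (1 / 16) ^ 1 :=
            pow_le_pow_of_le_one (by norm_num) (by norm_num) hJ
        _ = 1 / 16 := pow_one _
    have e3 : (0 : ℝ) < (1 / 2) ^ J := by positivity
    rw [e1]
    nlinarith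
  have hT3 : ((noise Bs Bs J).filter fun ω =>
      (1 / 16) ^ J * (Q.card : ℝ) < devi W Q ((2 * α + D * κ) * J) (out J g ω)).card
      < (noise Bs Bs J).card := by
    have hpos : 0 < (noise Bs Bs J).card := by
      rw [card_noise]
      exact pow_pos (Nat.mul_pos hbox.ne.card_pos hbox.ne.card_pos) J
    have hposR : (0 : ℝ) < (noise Bs Bs J).card := by exact_mod_cast hpos
    have e1 : 2 * (1 / 32 : ℝ) ^ J < 1 := by
      have : (1 / 32 : ℝ) ^ J ≤ (1 / 32) ^ 1 :=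
        pow_le_pow_of_le_one (by norm_num) (by norm_num) hJ
      rw [pow_one] at this
      linarith
    have e2 : 2 * (1 / 32 : ℝ) ^ J * (noise Bs Bs J).card < (noise Bs Bs J).card := by
      nlinarith
    exact_mod_cast lt_of_le_of_lt mBs e2
  obtain ⟨ω, hω, ω3, hω3, g1, g3, hω', g2⟩ := exists_three B Bs hBne J hbox.shift
    (fun ω => (1 / 16) ^ J * (Q.card : ℝ) < devi W Q ((2 * α + D * κ) * J) (out J g ω))
    (fun ω => (1 / 16) ^ J * (Q.card : ℝ) < devi W Q ((2 * α + D * κ) * J) (out J g ω))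
    (2 * (1 / 32) ^ J) hq mB hT3
  set ω' : Fin J → G × G := fun i => ((ω i).1, (ω i).2 * ((ω3 i).1⁻¹ * (ω3 i).2)) with hω'def
  have k1 : Gd l W Q ((2 * α + D * κ) * J) ((1 / 16) ^ J) r (out J g ω) :=
    ⟨len_out_le l h1 hmul B B J g _ (hlen B (Finset.Subset.refl _)) ω hω, not_lt.1 g1⟩
  have k2 : Gd l W Q ((2 * α + D * κ) * J) ((1 / 16) ^ J) r (out J g ω') :=
    ⟨len_out_le l h1 hmul B B J g _ (hlen B (Finset.Subset.refl _)) ω' hω', not_lt.1 g2⟩
  have k3 : Gd l W Q ((2 * α + D * κ) * J) ((1 / 16) ^ J) r (out J g ω3) :=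
    ⟨len_out_le l h1 hmul Bs Bs J g _ (hlen Bs hbox.sub) ω3 hω3, not_lt.1 g3⟩
  have hQr : Fol l Q r φ := fun y hy => hQ y (by omega)
  have hQ2r : Fol l Q (r + r) φ := fun y hy => hQ y (by omega)
  have k4 := (k3.mul hmul (k2.inv hinv hQr) hQr).mul hmul k1 hQ2r
  refine ⟨out J g ω3 * (out J g ω')⁻¹ * out J g ω, ?_, k4.mono ?_ ?_ ?_⟩
  · rw [← QuotientGroup.eq]
    have hN : ∀ a ∈ N, ∀ b ∈ N, (QuotientGroup.mk' ⁅N, N⁆) a * (QuotientGroup.mk' ⁅N, N⁆) b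
        = (QuotientGroup.mk' ⁅N, N⁆) b * (QuotientGroup.mk' ⁅N, N⁆) a := by
      intro a ha b hb
      rw [← map_mul, ← map_mul]
      change ((a * b : G) : G ⧸ ⁅N, N⁆) = ((b * a : G) : G ⧸ ⁅N, N⁆)
      rw [QuotientGroup.eq]
      have := Subgroup.commutator_mem_commutator (H₁ := N) (H₂ := N)
        (N.inv_mem hb) (N.inv_mem ha)
      simpa only [commutatorElement_def, inv_inv, mul_inv_rev, mul_assoc] using this
    have hid := pr_identity (QuotientGroup.mk' ⁅N, N⁆) N hN J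
      (fun i => (ω i).1⁻¹ * (ω i).2) (fun i => (ω3 i).1⁻¹ * (ω3 i).2) g
      (fun i => N.mul_mem (N.inv_mem (hbox.mem _ (mem_noise.1 hω i).1))
        (hbox.mem _ (mem_noise.1 hω i).2))
      (fun i => N.mul_mem (N.inv_mem (hbox.mem _ (hbox.sub (mem_noise.1 hω3 i).1)))
        (hbox.mem _ (hbox.sub (mem_noise.1 hω3 i).2)))
    have e1 : out J g ω' = pr J (fun i => (ω i).1⁻¹ * (ω i).2 * ((ω3 i).1⁻¹ * (ω3 i).2)) g := by
      rw [out_eq_pr]
      congr 1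
      funext i
      simp only [hω'def, mul_assoc]
    rw [← e1, ← out_eq_pr, ← out_eq_pr] at hid
    change (QuotientGroup.mk' ⁅N, N⁆) (xp J g) =
      (QuotientGroup.mk' ⁅N, N⁆) (out J g ω3 * (out J g ω')⁻¹ * out J g ω)
    rw [map_mul, map_mul, map_inv, hid]
    group
  · linarith
  · have : (0 : ℝ) ≤ (1 / 16) ^ J := by positivity
    linarith
  · omega

end Agent.P188.H428
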